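import Vale.Agent.P202.Imperfect.Main
import Vale.Agent.P202.NC.General

/-!
# P202: Lech's inequality in characteristic `p` for every residue field
-/

noncomputable section

namespace Vale.Agent.P202.Imperfect

open IsLocalRing Filter

universe u

/-- Lech's inequality for an arbitrary flat local map out of a Noetherian local ring of
characteristic `p`; no hypothesis on the residue field. -/
theorem lech_charP_all (p : ℕ) [Fact p.Prime]
    (R : Type u) [CommRing R] [IsNoetherianRing R] [IsLocalRing R] [CharP R p]
    (S : Type u) [CommRing S] [IsNoetherianRing S] [IsLocalRing S] [Algebra R S]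
    [IsLocalHom (algebraMap R S)] [Module.Flat R S] :
    limsup (hsSeq R) atTop ≤ liminf (hsSeq S) atTop := by
  rcases finite_or_infinite (ResidueField R) with hfin | hinf
  · have : PerfectField (ResidueField R) := PerfectField.ofFinite
    exact lech_charP p R S
  have : CharP S p := by
    refine charP_of_injective_ringHom (f := algebraMap R S) ?_ p
    have : Module.FaithfullyFlat R S := Module.FaithfullyFlat.of_flat_of_isLocalHom
    exact FaithfulSMul.algebraMap_injective R S
  obtain ⟨B, iB, iBl, iBn, iBc, L, iL, iLa, τ, fS, hSl, hSf, hSm, hτ⟩ := exists_cover S p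
  rw [← hsSeq_eq_of_flat_map_maximal fS hSf hSl hSm]
  let g : R →+* B := fS.comp (algebraMap R S)
  have hgl : IsLocalHom g := RingHom.isLocalHom_comp fS (algebraMap R S)
  have hgf : g.Flat := (RingHom.flat_algebraMap_iff.2 inferInstance).comp hSf
  obtain ⟨P, hP, hmP, hmin, hdim⟩ := exists_prime_over g hgl hgf
  refine le_trans ?_ (limsup_hsSeq_atPrime_le τ hτ P hdim)
  let BP := Localization.AtPrime P
  let gP : R →+* BP := (algebraMap B BP).comp g
  have hgPl : IsLocalHom gP := by
    refine ((IsLocalRing.local_hom_TFAE gP).out 0 2).2 ?_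
    rw [← Ideal.map_map, ← Localization.AtPrime.map_eq_maximalIdeal]
    exact Ideal.map_mono hmP
  have hgPf : gP.Flat :=
    hgf.comp (RingHom.flat_algebraMap_iff.2 (IsLocalization.flat BP P.primeCompl))
  have : CharP BP p := by
    refine charP_of_injective_ringHom (f := gP) ?_ p
    algebraize [gP]
    have : IsLocalHom (algebraMap R BP) := hgPl
    have : Module.FaithfullyFlat R BP := Module.FaithfullyFlat.of_flat_of_isLocalHom
    exact FaithfulSMul.algebraMap_injective R BP
  obtain ⟨r, hr⟩ : ∃ r, maximalIdeal BP ^ r ≤ (maximalIdeal R).map gP := by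
    refine exists_pow_le_of_forall_prime_eq _ fun Q hQ hle => ?_
    have hdisj := (IsLocalization.isPrime_iff_isPrime_disjoint P.primeCompl BP Q).1 hQ
    have hQP : Q.comap (algebraMap B BP) ≤ P := fun x hx => by
      by_contra hxP
      exact Set.disjoint_left.1 hdisj.2 hxP hx
    have heq := hmin _ hdisj.1
      (Ideal.map_le_iff_le_comap.1 (by rw [Ideal.map_map]; exact hle)) hQP
    rw [← IsLocalization.map_under P.primeCompl BP Q, ← Localization.AtPrime.map_eq_maximalIdeal]
    exact congrArg (Ideal.map (algebraMap B BP)) heq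
  obtain ⟨T, iT, iTl, iTn, iTc, L', iL', iL'a, τ', fT, hTl, hTf, hTm, hτ'⟩ := exists_cover BP p
  refine le_trans ?_ (liminf_le_limsup)
  rw [← hsSeq_eq_of_flat_map_maximal fT hTf hTl hTm]
  refine lech_primary_all p R T τ' hτ' (fT.comp gP) (RingHom.isLocalHom_comp fT gP)
    (hgPf.comp hTf) (r := r) ?_
  rw [← hTm, ← Ideal.map_map, ← Ideal.map_pow]
  exact Ideal.map_mono hr

end Vale.Agent.P202.Imperfect
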