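import Vale.Agent.P202.Imperfect.Criterion
import Vale.Agent.P202.RingSide.Complete

/-!
# P202 imperfect residue fields: the flat change of parameter rings and its base change

A coefficient map `k → L[[X₁, ..., X_D]]` and the first `d` variables give a flat local map
`k[[X₁, ..., X_d]] → L[[X₁, ..., X_D]]`; the base change of a finite local algebra with the same
residue field is local.
-/

noncomputable section

namespace Vale.Agent.P202.Imperfect

open IsLocalRing MvPowerSeries TensorProduct

universe u

section Series

variable {k L : Type*} [Field k] [Field L] {d D : ℕ}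

/-- Ring maps out of power series into a complete local ring are determined by the coefficients
and the variables. -/
theorem ringHom_ext_powerSeries {T : Type*} [CommRing T] [IsLocalRing T]
    [IsHausdorff (maximalIdeal T) T] {f g : MvPowerSeries (Fin d) k →+* T}
    (hC : ∀ c, f (C c) = g (C c)) (hX : ∀ i, f (X i) = g (X i))
    (hm : ∀ i, f (X i) ∈ maximalIdeal T) : f = g := by
  refine RingHom.ext fun F => sub_eq_zero.1 (IsHausdorff.haus' (I := maximalIdeal T) _ fun n => ?_)
  rw [SModEq.zero, smul_eq_mul, Ideal.mul_top]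
  have hp : f.comp MvPolynomial.coeToMvPowerSeries.ringHom =
      g.comp MvPolynomial.coeToMvPowerSeries.ringHom :=
    MvPolynomial.ringHom_ext (fun c => by simpa using hC c) (fun i => by simpa using hX i)
  have hq := RingHom.congr_fun hp (truncTotal n F)
  simp only [RingHom.comp_apply, MvPolynomial.coeToMvPowerSeries.ringHom_apply] at hq
  have hmem : F - (truncTotal n F : MvPowerSeries (Fin d) k) ∈
      Ideal.span (Set.range (X : Fin d → MvPowerSeries (Fin d) k)) ^ n :=
    mem_span_X_pow fun t ht => by simp [coeff_truncTotal _ ht]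
  have h1 : ∀ h : MvPowerSeries (Fin d) k →+* T, (∀ i, h (X i) ∈ maximalIdeal T) →
      h (F - (truncTotal n F : MvPowerSeries (Fin d) k)) ∈ maximalIdeal T ^ n := fun h hh => by
    have h2 := Ideal.mem_map_of_mem h hmem
    rw [Ideal.map_pow] at h2
    refine Ideal.pow_right_mono ?_ n h2
    rw [Ideal.map_span, Ideal.span_le]
    rintro _ ⟨_, ⟨i, rfl⟩, rfl⟩
    exact hh i
  have := sub_mem (h1 f hm) (h1 g fun i => hX i ▸ hm i)
  simpa [hq] using this

/-- The relations of Koszul on the variables `emb`. -/
def koszulVec (emb : Fin d → Fin D) (i j : Fin d) : Fin d → MvPowerSeries (Fin D) L :=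
  fun l => (if l = i then X (emb j) else 0) - (if l = j then X (emb i) else 0)

/-- Relations among distinct variables are spanned by the Koszul relations. -/
theorem mem_span_koszulVec : ∀ {d : ℕ} (emb : Fin d → Fin D), Function.Injective emb →
    ∀ m : Fin d → MvPowerSeries (Fin D) L, ∑ i, X (emb i) * m i = 0 →
      m ∈ Submodule.span (MvPowerSeries (Fin D) L)
        (Set.range fun q : Fin d × Fin d => koszulVec emb q.1 q.2)
  | 0, emb, _, m, _ => by
    rw [show m = 0 from funext fun i => i.elim0]
    exact zero_mem _
  | n + 1, emb, hemb, m, hm => by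
    classical
    set s := emb (Fin.last n)
    let cut : MvPowerSeries (Fin D) L → MvPowerSeries (Fin D) L :=
      fun F t => if t s = 0 then coeff t F else 0
    have hcut : ∀ F t, coeff t (cut F) = if t s = 0 then coeff t F else 0 := fun F t => rfl
    have hdvd : ∀ F, (X s : MvPowerSeries (Fin D) L) ∣ F - cut F := fun F => by
      rw [X_dvd_iff]
      intro t ht
      simp [hcut, ht]
    choose q hq using fun i : Fin (n + 1) => hdvd (m i)
    have hdec : ∀ i, m i = cut (m i) + X s * q i := fun i => by rw [← hq i]; ring
    set S := ∑ i : Fin n, X (emb i.castSucc) * cut (m i.castSucc) with hS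
    rw [Fin.sum_univ_castSucc] at hm
    have hSdvd : S = -(X s * (m (Fin.last n) + ∑ i : Fin n, X (emb i.castSucc) * q i.castSucc)) := by
      rw [hS, eq_neg_iff_add_eq_zero, mul_add, Finset.mul_sum, add_left_comm,
        ← Finset.sum_add_distrib, add_comm]
      refine Eq.trans ?_ hm
      congr 1
      refine Finset.sum_congr rfl fun i _ => ?_
      linear_combination (-(X (emb i.castSucc) : MvPowerSeries (Fin D) L)) * hq i.castSucc
    have hS0 : S = 0 := by
      ext t
      by_cases ht : t s = 0
      · rw [hSdvd, map_neg, X_dvd_iff.1 (dvd_mul_right _ _) t ht, neg_zero, map_zero]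
      · rw [hS, map_sum, map_zero]
        refine Finset.sum_eq_zero fun i _ => ?_
        rw [X, coeff_monomial_mul]
        split_ifs with hle
        · have hne : emb i.castSucc ≠ s := fun e => (Fin.castSucc_lt_last i).ne (hemb e)
          rw [one_mul, hcut, if_neg]
          simp [Finsupp.single_eq_of_ne (Ne.symm hne), ht]
        · rfl
    have hlast : m (Fin.last n) = -∑ i : Fin n, X (emb i.castSucc) * q i.castSucc := by
      rw [eq_neg_iff_add_eq_zero]
      have h0 := hSdvd.symm.trans hS0
      rw [neg_eq_zero, mul_eq_zero] at h0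
      exact h0.resolve_left (fun h => by
        have := congrArg (coeff (Finsupp.single s 1)) h
        simp [coeff_X] at this)
    have ih := mem_span_koszulVec (fun i => emb i.castSucc)
      (hemb.comp (Fin.castSucc_injective n)) (fun i => cut (m i.castSucc)) hS0
    let ι : (Fin n → MvPowerSeries (Fin D) L) →ₗ[MvPowerSeries (Fin D) L]
        (Fin (n + 1) → MvPowerSeries (Fin D) L) :=
      { toFun := fun v => Fin.snoc v 0
        map_add' := fun v v' => funext fun i => by
          induction i using Fin.lastCases <;> simp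
        map_smul' := fun c v => funext fun i => by
          induction i using Fin.lastCases <;> simp }
    have hdecomp : m = ι (fun i => cut (m i.castSucc)) +
        ∑ i : Fin n, q i.castSucc • koszulVec emb i.castSucc (Fin.last n) := funext fun l => by
      simp only [Pi.add_apply, Finset.sum_apply, Pi.smul_apply, koszulVec, smul_eq_mul, ι,
        LinearMap.coe_mk, AddHom.coe_mk, mul_sub, mul_ite, mul_zero, Finset.sum_sub_distrib]
      induction l using Fin.lastCases with
      | last =>
        simp only [Fin.snoc_last, (Fin.castSucc_lt_last _).ne', if_true, if_false,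
          Finset.sum_const_zero, zero_sub, zero_add, hlast]
        exact congrArg Neg.neg (Finset.sum_congr rfl fun i _ => mul_comm _ _)
      | cast l =>
        simp only [Fin.snoc_castSucc, (Fin.castSucc_lt_last _).ne, if_false, Fin.castSucc_inj,
          Finset.sum_const_zero, sub_zero, Finset.sum_ite_eq, Finset.mem_univ, if_true]
        linear_combination hq l.castSucc
    rw [hdecomp]
    refine add_mem ?_ (Submodule.sum_mem _ fun i _ => Submodule.smul_mem _ _
      (Submodule.subset_span ⟨(i.castSucc, Fin.last n), rfl⟩))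
    have := Submodule.mem_map_of_mem (f := ι) ih
    rw [Submodule.map_span] at this
    refine Submodule.span_mono ?_ this
    rintro _ ⟨_, ⟨⟨i, j⟩, rfl⟩, rfl⟩
    refine ⟨(i.castSucc, j.castSucc), funext fun l => ?_⟩
    simp only [ι, LinearMap.coe_mk, AddHom.coe_mk, koszulVec]
    induction l using Fin.lastCases with
    | last => simp [(Fin.castSucc_lt_last _).ne']
    | cast l => simp [Fin.snoc_castSucc, koszulVec]

/-- The flat change of parameter rings. -/
theorem exists_baseHom (θ : k →+* MvPowerSeries (Fin D) L) (emb : Fin d → Fin D)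
    (hemb : Function.Injective emb) :
    ∃ v : MvPowerSeries (Fin d) k →+* MvPowerSeries (Fin D) L,
      (∀ c, v (C c) = θ c) ∧ (∀ i, v (X i) = X (emb i)) ∧ IsLocalHom v ∧ v.Flat := by
  have : IsAdicComplete (maximalIdeal (MvPowerSeries (Fin D) L)) (MvPowerSeries (Fin D) L) := by
    rw [maximalIdeal_mvPowerSeries]; infer_instance
  have hmem : ∀ i, (X (emb i) : MvPowerSeries (Fin D) L) ∈
      maximalIdeal (MvPowerSeries (Fin D) L) := fun i => by
    rw [maximalIdeal_mvPowerSeries]
    exact Ideal.subset_span ⟨emb i, rfl⟩
  obtain ⟨v, hC, hX, -⟩ := exists_evalHom θ (fun i => (X (emb i) : MvPowerSeries (Fin D) L)) hmem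
  have hloc : IsLocalHom v := by
    refine ((IsLocalRing.local_hom_TFAE v).out 0 2).2 ?_
    rw [maximalIdeal_mvPowerSeries, Ideal.map_span, Ideal.span_le]
    rintro _ ⟨_, ⟨i, rfl⟩, rfl⟩
    rw [hX]
    exact hmem i
  refine ⟨v, hC, hX, hloc, ?_⟩
  algebraize [v]
  have : IsLocalHom (algebraMap (MvPowerSeries (Fin d) k) (MvPowerSeries (Fin D) L)) := hloc
  show Module.Flat (MvPowerSeries (Fin d) k) (MvPowerSeries (Fin D) L)
  refine flat_of_trivialOn_maximalIdeal (W := MvPowerSeries (Fin D) L)
    (maximalIdeal_mvPowerSeries (Fin d) k).symm fun m hm => ?_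
  have hrel : ∑ i, X (emb i) * m i = 0 := by
    rw [← hm]
    exact Finset.sum_congr rfl fun i _ => by
      rw [Algebra.smul_def, RingHom.algebraMap_toAlgebra, hX]
  refine (Submodule.span_le.2 ?_) (mem_span_koszulVec emb hemb m hrel)
  rintro _ ⟨⟨i, j⟩, rfl⟩
  classical
  let a : Fin d → MvPowerSeries (Fin d) k :=
    fun l => (if l = i then X j else 0) - (if l = j then X i else 0)
  have heq : koszulVec emb i j = fun l => a l • (1 : MvPowerSeries (Fin D) L) := funext fun l => by
    rw [Algebra.smul_def, mul_one, RingHom.algebraMap_toAlgebra]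
    simp only [a, koszulVec, map_sub, apply_ite (v : _ → MvPowerSeries (Fin D) L), map_zero, hX]
  show koszulVec emb i j ∈ trivRel _ _
  rw [heq]
  refine smul_mem_trivRel _ _ ?_
  simp [a, mul_sub, mul_comm]

end Series

section BaseChange

variable {V W A : Type u} [CommRing V] [IsLocalRing V] [CommRing W] [IsLocalRing W] [CommRing A]
  [IsLocalRing A] [IsNoetherianRing A] [Algebra V W] [Algebra V A]
  [IsLocalHom (algebraMap V W)] [IsLocalHom (algebraMap V A)] [Module.Finite V A]

/-- The base change of a finite local algebra with the same residue field is local. -/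
theorem isLocalRing_baseChange [Nontrivial (W ⊗[V] A)]
    (hres : ∀ a : A, ∃ c : V, a - algebraMap V A c ∈ maximalIdeal A) :
    ∃ _ : IsLocalRing (W ⊗[V] A),
      maximalIdeal (W ⊗[V] A) =
        (maximalIdeal W).map (algebraMap W (W ⊗[V] A)) ⊔
          (maximalIdeal A).map
            (Algebra.TensorProduct.includeRight : A →ₐ[V] W ⊗[V] A).toRingHom := by
  set B := W ⊗[V] A
  let jA : A →+* B := (Algebra.TensorProduct.includeRight : A →ₐ[V] B).toRingHom
  set M₀ := (maximalIdeal W).map (algebraMap W B) ⊔ (maximalIdeal A).map jA with hM₀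
  have hjV : ∀ c : V, jA (algebraMap V A c) = algebraMap W B (algebraMap V W c) := fun c => by
    rw [← IsScalarTower.algebraMap_apply V W B]
    exact (Algebra.TensorProduct.includeRight : A →ₐ[V] B).commutes c
  have hcomap : ∀ M : Ideal B, M.IsMaximal → M.comap (algebraMap W B) = maximalIdeal W :=
    fun M hM => IsLocalRing.eq_maximalIdeal (Ideal.isMaximal_comap_of_isIntegral_of_isMaximal M)
  have hle : ∀ M : Ideal B, M.IsMaximal → M₀ ≤ M := by
    intro M hM
    refine sup_le (Ideal.map_le_iff_le_comap.2 (hcomap M hM).ge)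
      (Ideal.map_le_iff_le_comap.2 fun a ha => ?_)
    obtain ⟨N, hN⟩ := exists_maximalIdeal_pow_le_map (R := V) (S := A)
    refine hM.isPrime.mem_of_pow_mem N ?_
    rw [← map_pow]
    refine (Ideal.map_le_iff_le_comap (f := algebraMap V A) (K := M.comap jA)).2 (fun c hc => ?_)
      (hN (Ideal.pow_mem_pow ha N))
    show jA (algebraMap V A c) ∈ M
    rw [hjV]
    have : algebraMap V W c ∈ maximalIdeal W := map_nonunit _ c hc
    rwa [← hcomap M hM] at this
  have hdec : ∀ y : B, ∃ w : W, y - algebraMap W B w ∈ M₀ := by
    intro y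
    induction y using TensorProduct.induction_on with
    | zero => exact ⟨0, by simp⟩
    | tmul w a =>
      obtain ⟨c, hc⟩ := hres a
      refine ⟨w * algebraMap V W c, ?_⟩
      have h1 : w ⊗ₜ[V] a = algebraMap W B w * jA a := by
        rw [← Algebra.smul_def]
        show w ⊗ₜ[V] a = w • (1 ⊗ₜ[V] a)
        rw [TensorProduct.smul_tmul', smul_eq_mul, mul_one]
      rw [h1, map_mul, ← hjV, ← mul_sub, ← map_sub]
      exact Ideal.mul_mem_left _ _ (Ideal.mem_sup_right (Ideal.mem_map_of_mem jA hc))
    | add y y' hy hy' =>
      obtain ⟨w, hw⟩ := hy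
      obtain ⟨w', hw'⟩ := hy'
      refine ⟨w + w', ?_⟩
      rw [map_add, add_sub_add_comm]
      exact add_mem hw hw'
  have heq : ∀ M : Ideal B, M.IsMaximal → M = M₀ := by
    intro M hM
    refine le_antisymm (fun y hy => ?_) (hle M hM)
    obtain ⟨w, hw⟩ := hdec y
    have hwM : w ∈ maximalIdeal W := by
      rw [← hcomap M hM, Ideal.mem_comap]
      have := sub_mem hy (hle M hM hw)
      rwa [sub_sub_cancel] at this
    have := add_mem hw (Ideal.mem_sup_left (Ideal.mem_map_of_mem (algebraMap W B) hwM) :
      algebraMap W B w ∈ M₀)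
    rwa [sub_add_cancel] at this
  obtain ⟨M, hM⟩ := Ideal.exists_maximal B
  have hloc : IsLocalRing B := IsLocalRing.of_unique_max_ideal
    ⟨M, hM, fun M' hM' => (heq M' hM').trans (heq M hM).symm⟩
  exact ⟨hloc, heq _ (maximalIdeal.isMaximal B)⟩

end BaseChange

end Vale.Agent.P202.Imperfect
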