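import Vale.Agent.P202.Imperfect.Tower
import Vale.Agent.P202.NC.Reso
import Vale.Agent.P202.Diag.Syzygy

/-!
# P202 imperfect residue fields: resolutions from the closed fibre

For a local algebra `B` flat over `R`, a finite `B`-module flat over `R` has finite free resolutions
of the lengths occurring on the closed fibre.
-/

noncomputable section

namespace Vale.Agent.P202.Imperfect

open IsLocalRing

universe u

section lift

variable {R B C : Type u} [CommRing R] [IsNoetherianRing R] [CommRing B]
  [IsNoetherianRing B] [IsLocalRing B] [CommRing C] [Algebra R B] [Module.Flat R B]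

omit [IsNoetherianRing R] [IsNoetherianRing B] [IsLocalRing B] in
/-- The kernel of a surjection onto a flat module is flat. -/
theorem flat_ker {M : Type u} [AddCommGroup M] [Module B M] [Module R M] [IsScalarTower R B M]
    [Module.Flat R M] {m : ℕ} (f : (Fin m → B) →ₗ[B] M) (hf : Function.Surjective f) :
    Module.Flat R (LinearMap.ker f) := by
  refine Module.Flat.of_forall_isTrivialRelation fun {l a x} hax => ?_
  have hax' : ∑ i, a i • (x i : Fin m → B) = 0 := by
    have := congrArg Subtype.val hax
    simpa [Submodule.coe_sum] using this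
  have : Module.Flat R (Fin m → B) :=
    Module.Flat.of_linearEquiv
      (DFinsupp.linearEquivFunOnFintype (R := R) (M := fun _ : Fin m => B)).symm
  obtain ⟨J, b, y, hy, hb⟩ :=
    Module.Flat.isTrivialRelation_of_sum_smul_eq_zero (R := R) (M := Fin m → B) hax'
  let Y : (Fin J → R) →ₗ[R] (Fin m → B) := Fintype.linearCombination R y
  let f' : (Fin l → R) →ₗ[R] (Fin J → R) := Fintype.linearCombination R fun i j => b i j
  have hYb : ∀ i, Y (fun j => b i j) = x i := fun i => by
    rw [Fintype.linearCombination_apply]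
    exact (hy i).symm
  have h0 : ((f.restrictScalars R).comp Y).comp f' = 0 := by
    refine LinearMap.ext fun c => ?_
    simp only [LinearMap.comp_apply, f', Fintype.linearCombination_apply, map_sum, map_smul,
      LinearMap.zero_apply, hYb, LinearMap.coe_restrictScalars]
    refine Finset.sum_eq_zero fun i _ => ?_
    rw [LinearMap.mem_ker.1 (x i).2, smul_zero]
  obtain ⟨k, c, z, hcz, hcf⟩ := Module.Flat.exists_factorization_of_comp_eq_zero_of_free h0
  choose w hw using fun t => hf (z (Finsupp.single t 1))
  let W : (Fin k →₀ R) →ₗ[R] (Fin m → B) := Finsupp.linearCombination R w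
  have hfW : (f.restrictScalars R).comp W = z := Finsupp.lhom_ext fun t r => by
    rw [LinearMap.comp_apply, Finsupp.linearCombination_single, map_smul,
      LinearMap.coe_restrictScalars, hw, ← map_smul, Finsupp.smul_single, smul_eq_mul, mul_one]
  let Y' : (Fin J → R) →ₗ[R] (Fin m → B) := Y - W.comp c
  have hY' : ∀ v, f (Y' v) = 0 := fun v => by
    have h1 := LinearMap.congr_fun hcz v
    have h2 := LinearMap.congr_fun hfW (c v)
    simp only [LinearMap.comp_apply, LinearMap.coe_restrictScalars] at h1 h2
    rw [LinearMap.sub_apply, map_sub, LinearMap.comp_apply, h2, ← h1, sub_self]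
  refine ⟨J, b, fun j => ⟨Y' (Pi.single j 1), hY' _⟩, fun i => Subtype.ext ?_, hb⟩
  have hcb : c (fun j => b i j) = 0 := by
    have := LinearMap.congr_fun hcf (Pi.single i 1)
    simpa [f', Fintype.linearCombination_apply_single] using this
  have h3 : Y' (fun j => b i j) = x i := by
    rw [LinearMap.sub_apply, LinearMap.comp_apply, hcb, map_zero, sub_zero, hYb]
  rw [← h3]
  conv_lhs => rw [pi_eq_sum_univ' (fun j => b i j)]
  rw [map_sum, Submodule.coe_sum]
  refine Finset.sum_congr rfl fun j _ => ?_
  simp [map_smul]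

variable (J : Ideal R) (π : B →+* C)

omit [IsNoetherianRing B] [IsLocalRing B] [Module.Flat R B] in
/-- Relations with coefficients in an extended ideal are in the ideal times the relations. -/
theorem ker_inf_le_smul {M : Type u} [AddCommGroup M] [Module B M] [Module R M]
    [IsScalarTower R B M] [Module.Flat R M] {m : ℕ} (f : (Fin m → B) →ₗ[B] M)
    (hf : Function.Surjective f) {x : Fin m → B} (hx : x ∈ LinearMap.ker f)
    (hxJ : ∀ i, x i ∈ J.map (algebraMap R B)) :
    x ∈ J.map (algebraMap R B) • LinearMap.ker f := by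
  set φ := algebraMap R B
  obtain ⟨s, a, ha⟩ := Submodule.fg_iff_exists_fin_generating_family.1 (IsNoetherian.noetherian J)
  have hmem : ∀ l, φ (a l) ∈ J.map φ := fun l =>
    Ideal.mem_map_of_mem φ (ha ▸ Submodule.subset_span (Set.mem_range_self l))
  have hspan : J.map φ = Ideal.span (Set.range fun l => φ (a l)) := by
    rw [← ha]
    show Ideal.map φ (Ideal.span (Set.range a)) = _
    rw [Ideal.map_span, ← Set.range_comp]
    rfl
  have hc : ∀ i, ∃ c : Fin s → B, ∑ l, c l * φ (a l) = x i := fun i =>
    Ideal.mem_span_range_iff_exists_fun.1 (hspan ▸ hxJ i)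
  choose c hc using hc
  let w : Fin s → (Fin m → B) := fun l i => c i l
  have hxw : x = ∑ l, φ (a l) • w l := by
    funext i
    rw [Finset.sum_apply, ← hc i]
    exact Finset.sum_congr rfl fun l _ => mul_comm _ _
  have hrel : ∑ l, a l • f (w l) = 0 := by
    rw [← (LinearMap.mem_ker.1 hx), hxw, map_sum]
    refine Finset.sum_congr rfl fun l _ => ?_
    rw [map_smul]
    exact (algebraMap_smul B (a l) (f (w l))).symm
  obtain ⟨k, b, y, hy, hb⟩ := Module.Flat.isTrivialRelation_of_sum_smul_eq_zero hrel
  choose y' hy' using fun j => hf (y j)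
  let w' : Fin s → (Fin m → B) := fun l => w l - ∑ j, φ (b l j) • y' j
  have hw' : ∀ l, w' l ∈ LinearMap.ker f := by
    intro l
    rw [LinearMap.mem_ker, map_sub, map_sum, show f (w l) = _ from hy l, sub_eq_zero]
    refine Finset.sum_congr rfl fun j _ => ?_
    rw [map_smul, hy']
    exact (algebraMap_smul B (b l j) (y j)).symm
  have hxw' : x = ∑ l, φ (a l) • w' l := by
    simp only [w', smul_sub, Finset.sum_sub_distrib, ← hxw]
    rw [eq_comm, sub_eq_self]
    simp only [Finset.smul_sum, smul_smul]
    rw [Finset.sum_comm]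
    refine Finset.sum_eq_zero fun j _ => ?_
    rw [← Finset.sum_smul]
    simp only [← map_mul, ← map_sum, hb j, map_zero, zero_smul]
  rw [hxw']
  exact Submodule.sum_mem _ fun l _ => Submodule.smul_mem_smul (hmem l) (hw' l)

/-- Resolutions lift from the closed fibre. -/
theorem finRes_lift_flat (hπ : Function.Surjective π)
    (hker : RingHom.ker π = J.map (algebraMap R B)) (hJ : J.map (algebraMap R B) ≤ maximalIdeal B) :
    ∀ (n : ℕ) (M : Type u) [AddCommGroup M] [Module B M] [Module R M] [IsScalarTower R B M]
      [Module.Finite B M] [Module.Flat R M] (Q : Type u) [AddCommGroup Q] [Module C Q]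
      (q : M →ₛₗ[π] Q), Function.Surjective q →
      (∀ x, q x = 0 ↔ x ∈ J.map (algebraMap R B) • (⊤ : Submodule B M)) →
      Diag.FinRes C n Q → Diag.FinRes B n M := by
  classical
  set I := J.map (algebraMap R B)
  have hjac : I ≤ (⊥ : Ideal B).jacobson := by
    rw [IsLocalRing.jacobson_eq_maximalIdeal ⊥ bot_ne_top]
    exact hJ
  have prep : ∀ (M : Type u) [AddCommGroup M] [Module B M] [Module.Finite B M]
      (Q : Type u) [AddCommGroup Q] [Module C Q] (q : M →ₛₗ[π] Q),
      Function.Surjective q → (∀ x, q x = 0 ↔ x ∈ I • (⊤ : Submodule B M)) →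
      ∀ (m : ℕ) (g : (Fin m → C) →ₗ[C] Q), Function.Surjective g →
      ∃ f : (Fin m → B) →ₗ[B] M, Function.Surjective f ∧
        ∀ a, q (f a) = g (fun i => π (a i)) := by
    intro M _ _ _ Q _ _ q hq hqk m g hg
    choose x hx using fun i : Fin m => hq (g (Pi.single i 1))
    have hcomm : ∀ a : Fin m → B,
        q (Fintype.linearCombination B x a) = g (fun i => π (a i)) := by
      intro a
      rw [Fintype.linearCombination_apply, map_sum]
      conv_rhs => rw [← Finset.univ_sum_single (fun i => π (a i)), map_sum]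
      refine Finset.sum_congr rfl fun i _ => ?_
      rw [LinearMap.map_smulₛₗ, hx, ← map_smul, ← Pi.single_smul, smul_eq_mul, mul_one]
    refine ⟨Fintype.linearCombination B x, ?_, hcomm⟩
    rw [← LinearMap.range_eq_top]
    refine top_le_iff.mp (Submodule.le_of_le_smul_of_le_jacobson_bot Module.Finite.fg_top hjac ?_)
    intro z _
    obtain ⟨c, hc⟩ := hg (q z)
    choose a ha using fun i => hπ (c i)
    have e : q (z - Fintype.linearCombination B x a) = 0 := by
      rw [map_sub, hcomm, funext ha, hc, sub_self]
    rw [show z = Fintype.linearCombination B x a + (z - Fintype.linearCombination B x a) by abel]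
    exact Submodule.add_mem_sup ⟨a, rfl⟩ ((hqk _).1 e)
  have hcoord : ∀ (m : ℕ) (b : Fin m → B), b ∈ I • (⊤ : Submodule B (Fin m → B)) →
      ∀ i, π (b i) = 0 := fun m b hb i => by
    rw [← RingHom.mem_ker, hker]
    refine Submodule.smul_induction_on hb (fun r hr v _ => ?_) fun u v hu hv => ?_
    · exact Ideal.mul_mem_right _ _ hr
    · exact add_mem hu hv
  have hmem : ∀ {m : ℕ} (a : Fin m → B), (∀ i, π (a i) = 0) → ∀ i, a i ∈ I := fun a h i => by
    rw [← hker]
    exact h i
  intro n
  induction n with
  | zero =>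
    intro M _ _ _ _ _ _ Q _ _ q hq hqk ⟨m, ⟨e⟩⟩
    obtain ⟨f, hf, hfc⟩ := prep M Q q hq hqk m e.symm.toLinearMap e.symm.surjective
    have hN : LinearMap.ker f = ⊥ := by
      refine Submodule.eq_bot_of_le_smul_of_le_jacobson_bot I _ (IsNoetherian.noetherian _) ?_ hjac
      intro a ha
      have h0 : e.symm (fun i => π (a i)) = 0 := by
        rw [← LinearEquiv.coe_coe, ← hfc, LinearMap.mem_ker.mp ha, map_zero]
      rw [LinearEquiv.map_eq_zero_iff] at h0
      exact ker_inf_le_smul J f hf ha (hmem a (congrFun h0))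
    exact ⟨m, ⟨(LinearEquiv.ofBijective f ⟨LinearMap.ker_eq_bot.mp hN, hf⟩).symm⟩⟩
  | succ n ih =>
    intro M _ _ _ _ _ _ Q _ _ q hq hqk ⟨m, g, hg, hres⟩
    obtain ⟨f, hf, hfc⟩ := prep M Q q hq hqk m g hg
    refine ⟨m, f, hf, ?_⟩
    have : Module.Flat R (LinearMap.ker f) := flat_ker f hf
    let q' : LinearMap.ker f →ₛₗ[π] LinearMap.ker g :=
      { toFun := fun a => ⟨fun i => π (a.1 i), by
          rw [LinearMap.mem_ker, ← hfc, LinearMap.mem_ker.mp a.2, map_zero]⟩
        map_add' := fun a b => by
          apply Subtype.ext; funext i; simp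
        map_smul' := fun r a => by
          apply Subtype.ext; funext i; simp }
    refine ih (LinearMap.ker f) (LinearMap.ker g) q' ?_ ?_ hres
    · intro c
      choose a ha using fun i => hπ (c.1 i)
      have e : q (f a) = 0 := by rw [hfc, funext ha]; exact LinearMap.mem_ker.mp c.2
      have h1 : f a ∈ I • (⊤ : Submodule B M) := (hqk _).mp e
      rw [← LinearMap.range_eq_top.2 hf, ← Submodule.map_top, ← Submodule.map_smul''] at h1
      obtain ⟨b, hb, hfb⟩ := h1
      refine ⟨⟨a - b, by rw [LinearMap.mem_ker, map_sub, hfb, sub_self]⟩, ?_⟩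
      apply Subtype.ext; funext i
      show π ((a - b) i) = c.1 i
      rw [Pi.sub_apply, map_sub, ha, hcoord m b hb i, sub_zero]
    · intro a
      constructor
      · intro h
        have h' : ∀ i, π (a.1 i) = 0 := fun i => congrFun (congrArg Subtype.val h) i
        have h2 := ker_inf_le_smul J f hf a.2 (hmem a.1 h')
        have h3 : a.1 ∈ (I • (⊤ : Submodule B (LinearMap.ker f))).map (LinearMap.ker f).subtype := by
          rw [Submodule.map_smul'', Submodule.map_top, Submodule.range_subtype]
          exact h2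
        obtain ⟨a', ha', e⟩ := h3
        rwa [Subtype.ext e] at ha'
      · intro ha
        apply Subtype.ext; funext i
        refine hcoord m a.1 ?_ i
        exact Submodule.map_mono (f := (LinearMap.ker f).subtype) le_rfl
          (Submodule.mem_map_of_mem ha) |> fun h => by
          rw [Submodule.map_smul''] at h
          exact Submodule.smul_mono le_rfl le_top h

/-- A finite flat module has a resolution of the length of those on the closed fibre. -/
theorem exists_finRes_of_fibre (hπ : Function.Surjective π)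
    (hker : RingHom.ker π = J.map (algebraMap R B)) (hJ : J.map (algebraMap R B) ≤ maximalIdeal B)
    {n : ℕ} (hC : ∀ (Q : Type u) [AddCommGroup Q] [Module C Q] [Module.Finite C Q],
      Diag.FinRes C n Q)
    (M : Type u) [AddCommGroup M] [Module B M] [Module R M] [IsScalarTower R B M]
    [Module.Finite B M] [Module.Flat R M] : Diag.FinRes B n M := by
  set I := J.map (algebraMap R B)
  haveI : RingHomSurjective π := ⟨hπ⟩
  let S : Submodule B M := I • ⊤
  have hann : ∀ a, π a = 0 → ∀ x : M ⧸ S, a • x = 0 := by
    intro a ha x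
    obtain ⟨x, rfl⟩ := S.mkQ_surjective x
    rw [← map_smul, Submodule.mkQ_apply, Submodule.Quotient.mk_eq_zero]
    exact Submodule.smul_mem_smul (hker ▸ ha) trivial
  letI : SMul C (M ⧸ S) := ⟨fun b x => Function.surjInv hπ b • x⟩
  have hsmul : ∀ (a : B) (x : M ⧸ S), π a • x = a • x := by
    intro a x
    show Function.surjInv hπ (π a) • x = a • x
    rw [← sub_eq_zero, ← sub_smul]
    exact hann _ (by rw [map_sub, Function.surjInv_eq hπ, sub_self]) x
  letI : Module C (M ⧸ S) := hπ.moduleLeft π hsmul
  let q : M →ₛₗ[π] M ⧸ S :=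
    { toFun := S.mkQ
      map_add' := map_add _
      map_smul' := fun a x => by rw [hsmul, map_smul] }
  have hq : Function.Surjective q := S.mkQ_surjective
  haveI : Module.Finite C (M ⧸ S) := Module.Finite.of_surjective q hq
  exact finRes_lift_flat J π hπ hker hJ n M (M ⧸ S) q hq
    (fun x => Submodule.Quotient.mk_eq_zero S) (hC (M ⧸ S))

end lift

section reso

open Matrix

/-- A module with a finite free resolution has an augmented one of the same length. -/
theorem exists_reso' {A : Type u} [CommRing A] :
    ∀ (n : ℕ) (M : Type u) [AddCommGroup M] [Module A M], Diag.FinRes A n M →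
      ∃ Φ : NC.Reso A M, Φ.F.LengthLE n := by
  classical
  intro n
  induction n with
  | zero =>
    intro M _ _ ⟨m, ⟨e⟩⟩
    let F : FreeCx A :=
      { ι := Fin m
        pos := fun _ => 0
        mat := 0
        mat_pos := fun h g hg => absurd rfl hg
        sq := by simp }
    have hd : ∀ u, F.dA A u = 0 := fun u => funext fun h => by
      show ∑ g, (0 : Matrix (Fin m) (Fin m) A) h g • u g = 0
      simp
    exact ⟨{ F := F, ε := e.symm.toLinearMap, surj := e.symm.surjective,
             ε_d := fun u => by rw [hd, map_zero],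
             ε_pos := fun u hu => by rw [show u = 0 from funext fun b => hu b rfl, map_zero],
             exact := fun u _ hu => ⟨0, by rw [hd, e.symm.map_eq_zero_iff.1 hu]⟩ },
      fun _ => le_rfl⟩
  | succ n ih =>
    intro M _ _ ⟨m, f, hf, hres⟩
    obtain ⟨Φ', hlen⟩ := ih (LinearMap.ker f) hres
    let F : FreeCx A :=
      { ι := Fin m ⊕ Φ'.F.ι
        pos := Sum.elim (fun _ => 0) (fun b => Φ'.F.pos b + 1)
        mat := Matrix.of fun a b => match a, b with
          | .inl i, .inr b => (Φ'.gen b : Fin m → A) i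
          | .inr a, .inr b => Φ'.F.mat a b
          | _, .inl _ => 0
        mat_pos := by
          rintro (i | a) (j | b) hne
          · exact absurd rfl hne
          · by_contra hc
            apply hne
            simp only [Sum.elim_inl, Sum.elim_inr] at hc
            simp [Φ'.gen_eq_zero (b := b) (by omega)]
          · exact absurd rfl hne
          · simpa using Φ'.F.mat_pos a b hne
        sq := by
          ext a c
          rw [Matrix.mul_apply, Fintype.sum_sum_type, Matrix.zero_apply]
          rcases c with j | c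
          · simp
          rcases a with i | a
          · have h := congrArg (fun v : LinearMap.ker f => (v : Fin m → A) i) (Φ'.sum_gen_mat c)
            simpa [mul_comm] using h
          · have h := congrFun (congrFun Φ'.F.sq a) c
            simpa [Matrix.mul_apply] using h }
    have hl : ∀ (u : F.ι → A) (i : Fin m),
        F.dA A u (Sum.inl i) = (Φ'.ε (fun b => u (Sum.inr b)) : Fin m → A) i := by
      intro u i
      rw [Φ'.ε_apply, FreeCx.dA_apply, Fintype.sum_sum_type]
      simp [F, mul_comm]
    have hr : ∀ (u : F.ι → A) (a : Φ'.F.ι),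
        F.dA A u (Sum.inr a) = Φ'.F.dA A (fun b => u (Sum.inr b)) a := by
      intro u a
      rw [FreeCx.dA_apply, FreeCx.dA_apply, Fintype.sum_sum_type]
      simp [F]
    refine ⟨{ F := F, ε := f.comp (LinearMap.funLeft A A Sum.inl),
              surj := fun x => ?_, ε_d := fun u => ?_, ε_pos := fun u hu => ?_,
              exact := fun u hu hu' => ?_ }, ?_⟩
    · obtain ⟨v, rfl⟩ := hf x
      exact ⟨Sum.elim v 0, rfl⟩
    · show f (fun i => F.dA A u (Sum.inl i)) = 0
      rw [funext (hl u)]
      exact LinearMap.mem_ker.1 (Φ'.ε (fun b => u (Sum.inr b))).2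
    · show f (fun i => u (Sum.inl i)) = 0
      rw [show (fun i => u (Sum.inl i)) = 0 from funext fun i => hu _ rfl, map_zero]
    · have h1 : Φ'.F.dA A (fun b => u (Sum.inr b)) = 0 := funext fun a => by rw [← hr, hu]; rfl
      have h2 : Φ'.ε (fun b => u (Sum.inr b)) = 0 := Subtype.ext (funext fun i => by
        rw [← hl, hu]; rfl)
      obtain ⟨v, hv⟩ := Φ'.exact _ h1 h2
      obtain ⟨w, hw⟩ := Φ'.surj (⟨fun i => u (Sum.inl i), hu'⟩ - Φ'.ε v)
      have h3 : Φ'.F.dA A (Φ'.F.posProj A 0 w) = 0 := funext fun a => by
        rw [FreeCx.dA_apply]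
        refine Finset.sum_eq_zero fun b _ => ?_
        by_cases hm : Φ'.F.mat a b = 0
        · simp [hm]
        · have := Φ'.F.mat_pos a b hm
          rw [FreeCx.posProj_apply, if_neg (by omega), smul_zero]
      refine ⟨Sum.elim 0 (v + Φ'.F.posProj A 0 w), funext fun a => ?_⟩
      rcases a with i | a
      · rw [hl]
        show (Φ'.ε (v + Φ'.F.posProj A 0 w) : Fin m → A) i = _
        rw [map_add, Φ'.ε_posProj_zero, hw, add_sub_cancel]
      · rw [hr]
        show Φ'.F.dA A (v + Φ'.F.posProj A 0 w) a = _
        rw [map_add, h3, add_zero, hv]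
    · rintro (i | b)
      · simp [F]
      · simpa [F] using hlen b

variable {A : Type u} [CommRing A] {N : Type u} [AddCommGroup N] [Module A N] (Φ : NC.Reso A N)

/-- The annihilator acts null-homotopically on a resolution, also after a ring map. -/
theorem kills_map_of_mem_annihilator {a : A} (ha : a ∈ Module.annihilator A N) {A' : Type u}
    [CommRing A'] (φ : A →+* A') (M : Type u) [AddCommGroup M] [Module A' M] :
    (Φ.F.map φ).Kills M (φ a) := by
  classical
  have h0 : a • (1 : N →ₗ[A] N) = 0 := LinearMap.ext fun x => Module.mem_annihilator.1 ha x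
  have h1 := (NC.Reso.isLift_one (Φ := Φ)).smul a
  rw [h0] at h1
  obtain ⟨s, -, hs⟩ := Φ.exists_null _ h1
  refine FreeCx.kills_of_homotopy (s.map φ) ?_
  show Φ.F.mat.map φ * s.map φ + s.map φ * Φ.F.mat.map φ = φ a • (1 : Matrix Φ.F.ι Φ.F.ι A')
  rw [← Matrix.map_mul, ← Matrix.map_mul, ← Matrix.map_add φ (map_add φ), ← hs]
  ext i j
  simp [Matrix.map_apply, Matrix.one_apply, apply_ite φ]

/-- The bottom homology of a resolution is the module. -/
theorem exists_HA_zero_equiv : Nonempty (Φ.F.HA A 0 ≃ₗ[A] N) := by
  let f : ↥(Φ.F.cyclesA A 0) →ₗ[A] N := Φ.ε.comp (Φ.F.cyclesA A 0).subtype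
  have hk : LinearMap.ker f = (Φ.F.bdriesA A 0).comap (Φ.F.cyclesA A 0).subtype := by
    ext u
    rw [LinearMap.mem_ker, Submodule.mem_comap, FreeCx.mem_bdriesA']
    have hu := FreeCx.mem_cyclesA'.1 u.2
    constructor
    · intro h
      obtain ⟨v, hv⟩ := Φ.exact u.1 hu.1 h
      refine ⟨Φ.F.posProj A (0 + 1) v, fun g hg => ?_, ?_⟩
      · rw [FreeCx.posProj_apply, if_neg hg]
      · rw [FreeCx.dA_posProj, hv]
        funext g
        rw [FreeCx.posProj_apply]
        split_ifs with hg
        · rfl
        · exact (hu.2 g hg).symm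
    · rintro ⟨w, -, hw⟩
      show Φ.ε ((Φ.F.cyclesA A 0).subtype u) = 0
      rw [← hw, Φ.ε_d]
  have hs : Function.Surjective f := fun x => by
    obtain ⟨u, rfl⟩ := Φ.surj x
    refine ⟨⟨Φ.F.posProj A 0 u, FreeCx.mem_cyclesA'.2 ⟨?_, fun g hg => ?_⟩⟩, Φ.ε_posProj_zero u⟩
    · funext h
      rw [FreeCx.dA_apply]
      refine Finset.sum_eq_zero fun g _ => ?_
      by_cases hm : Φ.F.mat h g = 0
      · simp [hm]
      · have := Φ.F.mat_pos h g hm
        rw [FreeCx.posProj_apply, if_neg (by omega), smul_zero]
    · rw [FreeCx.posProj_apply, if_neg hg]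
  exact ⟨(Submodule.quotEquivOfEq _ _ hk.symm).trans (f.quotKerEquivOfSurjective hs)⟩

/-- A resolution has no other homology. -/
theorem subsingleton_HA {j : ℤ} (hj : j ≠ 0) : Subsingleton (Φ.F.HA A j) := by
  refine Submodule.Quotient.subsingleton_iff.2 (eq_top_iff.2 fun u _ => ?_)
  rw [Submodule.mem_comap, Submodule.subtype_apply, FreeCx.mem_bdriesA']
  have hu := FreeCx.mem_cyclesA'.1 u.2
  have hε : Φ.ε u.1 = 0 := Φ.ε_pos _ fun b hb => hu.2 b (by omega)
  obtain ⟨v, hv⟩ := Φ.exact u.1 hu.1 hε
  refine ⟨Φ.F.posProj A (j + 1) v, fun g hg => ?_, ?_⟩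
  · rw [FreeCx.posProj_apply, if_neg hg]
  · rw [FreeCx.dA_posProj, hv]
    funext g
    rw [FreeCx.posProj_apply]
    split_ifs with hg
    · rfl
    · exact (hu.2 g hg).symm

variable {k : Type*} [Field k] [Algebra k A] [IsNoetherianRing A]

/-- The tower of a resolution computes the symbol of the module. -/
theorem tower_chi_resolution {z : List A} (hz : Vale.Agent.P202.Good k z N) :
    (Φ.F.tower z).FiniteHom A k ∧ (Φ.F.tower z).chi A k = emult k z N := by
  obtain ⟨e⟩ := exists_HA_zero_equiv Φ
  have hG : ∀ j, Vale.Agent.P202.Good k z (Φ.F.HA A j) := fun j => by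
    by_cases hj : j = 0
    · subst hj
      exact hz.of_injective e.toLinearMap e.injective
    · have := subsingleton_HA Φ hj
      exact hz.of_injective 0 fun a b _ => Subsingleton.elim a b
  obtain ⟨h1, h2⟩ := FreeCx.tower_chi z Φ.F A hG
  refine ⟨h1, h2.trans ?_⟩
  rw [finsum_eq_single _ 0 fun j hj => by
    have := subsingleton_HA Φ hj
    rw [emult_subsingleton, mul_zero]]
  rw [emult_congr e]
  simp

end reso

end Vale.Agent.P202.Imperfect
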