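import Vale.Agent.P202.NC.Build
import Vale.Agent.P202.NC.DualMod
import Vale.Agent.P202.Reduce.CutDim
import Vale.Agent.P202.Koszul.Scaling

/-!
# P202 imperfect residue fields: small tools for the main theorem
-/

noncomputable section

namespace Vale.Agent.P202.Imperfect

open IsLocalRing TensorProduct

universe u

/-- A complete Noetherian local ring is complete for every proper ideal. -/
theorem isAdicComplete_of_le {W : Type*} [CommRing W] [IsNoetherianRing W] [IsLocalRing W]
    [IsAdicComplete (maximalIdeal W) W] {I : Ideal W} (hI : I ≤ maximalIdeal W) :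
    IsAdicComplete I W where
  haus' x hx := IsHausdorff.haus' (I := maximalIdeal W) x fun n => by
    have h := hx n
    rw [SModEq.zero, smul_eq_mul, Ideal.mul_top] at h ⊢
    exact Ideal.pow_right_mono hI n h
  prec' f hf := by
    obtain ⟨x, hx⟩ := IsPrecomplete.prec (I := maximalIdeal W) inferInstance
      (f := f) fun {m n} h => by
      have h1 := hf h
      rw [SModEq.sub_mem, smul_eq_mul, Ideal.mul_top] at h1 ⊢
      exact Ideal.pow_right_mono hI m h1
    refine ⟨x, fun n => ?_⟩
    rw [SModEq.sub_mem, smul_eq_mul, Ideal.mul_top]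
    rw [← Ideal.Quotient.eq_zero_iff_mem]
    have hh : IsHausdorff (maximalIdeal W) (W ⧸ I ^ n) := inferInstance
    refine hh.haus' _ fun N => ?_
    rw [SModEq.zero]
    have h1 : f (max n N) - f n ∈ I ^ n := by
      have h2 := (hf (le_max_left n N)).symm
      rw [SModEq.sub_mem, smul_eq_mul, Ideal.mul_top] at h2
      exact h2
    have h3 : f (max n N) - x ∈ maximalIdeal W ^ N := by
      have h4 := hx (max n N)
      rw [SModEq.sub_mem, smul_eq_mul, Ideal.mul_top] at h4
      exact Ideal.pow_le_pow_right (le_max_right n N) h4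
    have h5 : Ideal.Quotient.mk (I ^ n) (f n - x) =
        (f (max n N) - x) • (1 : W ⧸ I ^ n) := by
      rw [Algebra.smul_def, mul_one, Ideal.Quotient.algebraMap_eq, Ideal.Quotient.eq,
        show f n - x - (f (max n N) - x) = -(f (max n N) - f n) by ring]
      exact neg_mem h1
    rw [h5]
    exact Submodule.smul_mem_smul h3 trivial

/-- A flat local map with fibre of finite length keeps the dimension. -/
theorem dimNat_eq_of_primary {R T : Type*} [CommRing R] [IsNoetherianRing R] [IsLocalRing R]
    [CommRing T] [IsNoetherianRing T] [IsLocalRing T] (g : R →+* T) (hloc : IsLocalHom g)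
    (hflat : g.Flat) {r : ℕ} (hr : maximalIdeal T ^ r ≤ (maximalIdeal R).map g) :
    dimNat T = dimNat R := by
  algebraize [g]
  have : IsLocalHom (algebraMap R T) := hloc
  set m := maximalIdeal R
  set J := m.map (algebraMap R T)
  have hc : (maximalIdeal T).comap (algebraMap R T) = m := by
    ext a
    simp [m, mem_nonunits_iff]
  have hJ : J ≤ maximalIdeal T := Ideal.map_le_iff_le_comap.2 hc.ge
  have : Nontrivial (T ⧸ J) := Ideal.Quotient.nontrivial_iff.2
    (ne_top_of_le_ne_top (maximalIdeal.isMaximal T).ne_top hJ)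
  have : IsLocalRing (T ⧸ J) :=
    IsLocalRing.of_surjective' (Ideal.Quotient.mk J) Ideal.Quotient.mk_surjective
  have hmax := IsLocalRing.map_maximalIdeal_of_surjective (Ideal.Quotient.mk J)
    Ideal.Quotient.mk_surjective
  have h0 : (maximalIdeal (T ⧸ J)).height = 0 := by
    rw [Ideal.height_eq_zero_iff]
    refine ⟨⟨(maximalIdeal.isMaximal _).isPrime, bot_le⟩, fun Q hQ _ => ?_⟩
    refine fun x hx => hQ.1.mem_of_pow_mem r ?_
    obtain ⟨x, rfl⟩ := Ideal.Quotient.mk_surjective x
    rw [← map_pow, show Ideal.Quotient.mk J (x ^ r) = 0 from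
      Ideal.Quotient.eq_zero_iff_mem.2 (hr (Ideal.pow_mem_pow (fun_mem x hx) r))]
    exact zero_mem _
  have : (maximalIdeal T).LiesOver m := ⟨hc.symm⟩
  have hh := Ideal.height_eq_height_add_of_liesOver_of_hasGoingDown (R := R) m (maximalIdeal T)
  rw [hmax, h0, add_zero] at hh
  have h1 : ((dimNat T : ℕ) : WithBot ℕ∞) = ((dimNat R : ℕ) : WithBot ℕ∞) := by
    rw [← coe_dimNat T, ← coe_dimNat R, ← IsLocalRing.maximalIdeal_height_eq_ringKrullDim,
      ← IsLocalRing.maximalIdeal_height_eq_ringKrullDim, hh]
  exact_mod_cast h1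
where
  fun_mem {T : Type _} [CommRing T] [IsLocalRing T] {J : Ideal T} [IsLocalRing (T ⧸ J)] (x : T)
      (hx : Ideal.Quotient.mk J x ∈ maximalIdeal (T ⧸ J)) : x ∈ maximalIdeal T :=
    fun h => hx (h.map _)

theorem pow_sup_le {B : Type*} [CommRing B] {P Q : Ideal B} {r₀ : ℕ}
    (h : ∀ j, Q ^ (j + r₀) ≤ P ^ j) (N : ℕ) : (P ⊔ Q) ^ (N + r₀) ≤ P ^ N := by
  suffices key : ∀ m i j, N + r₀ ≤ i + j + m → P ^ i * Q ^ j * (P ⊔ Q) ^ m ≤ P ^ N by
    simpa using key (N + r₀) 0 0 (by omega)
  intro m
  induction m with
  | zero =>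
    intro i j hij
    rw [pow_zero, mul_one]
    by_cases hi : N ≤ i
    · exact Ideal.mul_le_left.trans (Ideal.pow_le_pow_right hi)
    · have h1 : Q ^ j ≤ P ^ (N - i) := (Ideal.pow_le_pow_right (by omega)).trans (h (N - i))
      refine (Ideal.mul_mono le_rfl h1).trans ?_
      rw [← pow_add, show i + (N - i) = N by omega]
  | succ m ih =>
    intro i j hij
    rw [pow_succ', ← mul_assoc, Ideal.mul_sup, Ideal.sup_mul]
    refine sup_le ?_ ?_
    · rw [mul_right_comm (P ^ i), ← pow_succ]
      exact ih (i + 1) j (by omega)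
    · rw [mul_assoc (P ^ i), ← pow_succ]
      exact ih i (j + 1) (by omega)

/-- The rank over a domain survives an injective base change of domains. -/
theorem finrank_baseChange_domain {V U : Type u} [CommRing V] [IsDomain V] [IsNoetherianRing V]
    [CommRing U] [IsDomain U] [Algebra V U] (hinj : Function.Injective (algebraMap V U))
    (M : Type u) [AddCommGroup M] [Module V M] [Module.Finite V M] :
    Module.finrank U (U ⊗[V] M) = Module.finrank V M := by
  obtain ⟨c, α, β, hc, hαβ, hβα⟩ := NC.exists_free_comparison V M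
  let γ := TensorProduct.piScalarRight V U U (Fin (Module.finrank V M))
  refine NC.finrank_eq_of_comparison (c := algebraMap V U c) ?_
    ((α.baseChange U).comp γ.symm.toLinearMap) (γ.toLinearMap.comp (β.baseChange U)) ?_ ?_
  · exact (map_ne_zero_iff _ hinj).2 hc
  · intro x
    simp only [LinearMap.comp_apply, LinearEquiv.coe_coe, LinearEquiv.symm_apply_apply]
    rw [← LinearMap.comp_apply, ← LinearMap.baseChange_comp,
      show α.comp β = c • LinearMap.id from LinearMap.ext hαβ, LinearMap.baseChange_smul,
      LinearMap.smul_apply, LinearMap.baseChange_id, LinearMap.id_apply, algebraMap_smul]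
  · intro v
    simp only [LinearMap.comp_apply, LinearEquiv.coe_coe]
    rw [← LinearMap.comp_apply (β.baseChange U), ← LinearMap.baseChange_comp,
      show β.comp α = c • LinearMap.id from LinearMap.ext hβα, LinearMap.baseChange_smul,
      LinearMap.smul_apply, LinearMap.baseChange_id, LinearMap.id_apply, algebraMap_smul]
    refine (γ.toLinearMap.map_smul_of_tower c _).trans (congrArg _ (γ.apply_symm_apply v))

/-- Finite colength, checked in a quotient ring. -/
theorem finite_quot_of_map {L B T : Type*} [Field L] [CommRing B] [CommRing T] [Algebra L B]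
    [Algebra L T] (χ : B →ₐ[L] T) (hχ : Function.Surjective χ) (K : Ideal B)
    (hker : RingHom.ker χ ≤ K) [Module.Finite L (T ⧸ K.map χ)] : Module.Finite L (B ⧸ K) := by
  let f : (B ⧸ K) →ₐ[L] T ⧸ K.map χ :=
    Ideal.quotientMapₐ (K.map χ) χ Ideal.le_comap_map
  refine Module.Finite.of_injective f.toLinearMap ?_
  refine Ideal.quotientMap_injective' (H := Ideal.le_comap_map) (le_of_eq ?_)
  rw [Ideal.comap_map_of_surjective' χ.toRingHom hχ]
  exact sup_eq_left.2 hker

end Vale.Agent.P202.Imperfect
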