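import Vale.Agent.P202.NC.Bounds
import Vale.Agent.P202.Diag.KoszulVars
import Vale.Agent.P202.Koszul.Dim
import Vale.Agent.P202.Koszul.Recursion

/-!
# P202 imperfect residue fields: complexes tensored with Koszul complexes

For a complex `F` and elements `z`, the Euler characteristic of `F ⊗ K(z)` on `M` is the alternating
sum of the symbols `emult z` of the homology modules of `F` on `M`.
-/

noncomputable section

namespace Vale.Agent.P202

universe u

open LinearMap

namespace FreeCx

variable {A : Type u} [CommRing A]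

/-- `F` tensored with the Koszul complexes of the members of a list, in their order. -/
def tower : FreeCx A → List A → FreeCx A
  | F, [] => F
  | F, z :: zs => tower (F.tensor (koszul1 z)) zs

theorem tower_cons (F : FreeCx A) (z : A) (zs : List A) :
    F.tower (z :: zs) = (F.tensor (koszul1 z)).tower zs := rfl

theorem tower_map {B : Type u} [CommRing B] (φ : A →+* B) : ∀ (z : List A) (F : FreeCx A),
    (F.tower z).map φ = (F.map φ).tower (z.map φ)
  | [], _ => rfl
  | z :: zs, F => by
    rw [tower_cons, tower_map φ zs, List.map_cons, tower_cons, Diag.map_tensor, Diag.map_koszul1]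

theorem tower_lengthLE : ∀ (z : List A) (F : FreeCx A) (L : ℕ), F.LengthLE L →
    (F.tower z).LengthLE (L + z.length)
  | [], _, _, h => h
  | z :: zs, F, L, h => by
    have h1 : (F.tensor (koszul1 z)).LengthLE (L + 1) := fun p => by
      have h2 := h p.1
      have h3 : (koszul1 z).pos p.2 ≤ 1 := Nat.le_of_lt_succ (p.2 : Fin 2).2
      show F.pos p.1 + (koszul1 z).pos p.2 ≤ L + 1
      omega
    have := tower_lengthLE zs _ _ h1
    rw [List.length_cons, Nat.add_comm zs.length 1, ← Nat.add_assoc]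
    exact this

section modules

variable (F : FreeCx A) (M : Type u) [AddCommGroup M] [Module A M]

/-- The homology of `F` on `M` in position `j`, over the ring. -/
abbrev HA (j : ℤ) : Type u :=
  ↥(F.cyclesA M j) ⧸ (F.bdriesA M j).comap (F.cyclesA M j).subtype

variable {F M}

theorem mem_range_posProj {j : ℤ} {f : F.ι → M} :
    f ∈ range (F.posProj M j) ↔ ∀ g, (F.pos g : ℤ) ≠ j → f g = 0 := by
  constructor
  · rintro ⟨v, rfl⟩ g hg
    rw [posProj_apply, if_neg hg]
  · intro h
    refine ⟨f, funext fun g => ?_⟩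
    rw [posProj_apply]
    split_ifs with hg
    · rfl
    · exact (h g hg).symm

theorem mem_cyclesA' {j : ℤ} {f : F.ι → M} :
    f ∈ F.cyclesA M j ↔ F.dA M f = 0 ∧ ∀ g, (F.pos g : ℤ) ≠ j → f g = 0 := by
  rw [cyclesA, Submodule.mem_inf, LinearMap.mem_ker, mem_range_posProj]

theorem mem_bdriesA' {j : ℤ} {f : F.ι → M} :
    f ∈ F.bdriesA M j ↔ ∃ w, (∀ g, (F.pos g : ℤ) ≠ j + 1 → w g = 0) ∧ F.dA M w = f := by
  simp only [bdriesA, Submodule.mem_map, mem_range_posProj]

/-- An element null-homotopic on `F` kills its homology on every module. -/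
theorem kills_of_homotopy {a : A} (s : Matrix F.ι F.ι A)
    (hs : F.mat * s + s * F.mat = a • (1 : Matrix F.ι F.ι A)) : F.Kills M a := by
  classical
  intro f hf
  refine ⟨fun h => ∑ g, s h g • f g, funext fun l => ?_⟩
  have h0 : ∑ h, s l h • F.dA M f h = 0 := by simp [hf]
  simp only [dA_apply, Finset.smul_sum, smul_smul] at h0 ⊢
  rw [Finset.sum_comm] at h0 ⊢
  simp only [← Finset.sum_smul, ← Matrix.mul_apply] at h0 ⊢
  have : ∑ g, (F.mat * s) l g • f g + ∑ g, (s * F.mat) l g • f g =
      ∑ g, (a • (1 : Matrix F.ι F.ι A)) l g • f g := by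
    rw [← Finset.sum_add_distrib, ← hs]
    exact Finset.sum_congr rfl fun g _ => by rw [Matrix.add_apply, add_smul]
  rw [h0, add_zero] at this
  rw [this, Pi.smul_apply]
  simp [Matrix.one_apply, ite_smul]

theorem kills_of_mem_annihilator {a : A} (ha : a ∈ Module.annihilator A M) : F.Kills M a :=
  fun f _ => ⟨0, by
    rw [map_zero]
    exact funext fun g => (Module.mem_annihilator.1 ha (f g)).symm⟩

variable (F M)

theorem HA_subsingleton_of_forall {j : ℤ} (hj : ∀ g, (F.pos g : ℤ) ≠ j) :
    Subsingleton (F.HA M j) := by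
  refine Submodule.Quotient.subsingleton_iff.2 (eq_top_iff.2 fun x _ => ?_)
  rw [Submodule.mem_comap, Submodule.subtype_apply,
    show (x : F.ι → M) = 0 from funext fun g => (mem_cyclesA'.1 x.2).2 g (hj g)]
  exact zero_mem _

theorem finite_HA [IsNoetherianRing A] [Module.Finite A M] (j : ℤ) :
    Module.Finite A (F.HA M j) := by
  have : IsNoetherian A M := isNoetherian_of_isNoetherianRing_of_finite A M
  infer_instance

theorem killsIdeal_le_annihilator (j : ℤ) :
    F.killsIdeal M ≤ Module.annihilator A (F.HA M j) := by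
  intro a ha
  rw [Module.mem_annihilator]
  intro q
  obtain ⟨q, rfl⟩ := Submodule.Quotient.mk_surjective _ q
  rw [← Submodule.Quotient.mk_smul, Submodule.Quotient.mk_eq_zero]
  exact Kills.mem_bdries (G := F) ha q.2

end modules

section step

variable (F : FreeCx A) (z : A) (M : Type u) [AddCommGroup M] [Module A M]

/-- Inclusion in the slot `0`. -/
def slot0 : (F.ι → M) →ₗ[A] ((F.tensor (koszul1 z)).ι → M) where
  toFun u := fun q : F.ι × Fin 2 => if q.2 = 0 then u q.1 else 0
  map_add' u v := funext fun q : F.ι × Fin 2 =>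
    show (if q.2 = 0 then (u + v) q.1 else 0) =
      (if q.2 = 0 then u q.1 else 0) + if q.2 = 0 then v q.1 else 0 by
    by_cases h : q.2 = 0 <;> simp [h]
  map_smul' c u := funext fun q : F.ι × Fin 2 =>
    show (if q.2 = 0 then (c • u) q.1 else 0) = c • if q.2 = 0 then u q.1 else 0 by
    by_cases h : q.2 = 0 <;> simp [h]

/-- The slot `1`. -/
def slot1 : ((F.tensor (koszul1 z)).ι → M) →ₗ[A] (F.ι → M) where
  toFun f g := f (g, (1 : Fin 2))
  map_add' _ _ := rfl
  map_smul' _ _ := rfl

variable {F z M}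

theorem slot0_zero (u : F.ι → M) (g : F.ι) : slot0 F z M u (g, (0 : Fin 2)) = u g := rfl

theorem slot0_one (u : F.ι → M) (g : F.ι) : slot0 F z M u (g, (1 : Fin 2)) = 0 := rfl

theorem dA_two_zero (f : (F.tensor (koszul1 z)).ι → M) (h : F.ι) :
    (F.tensor (koszul1 z)).dA M f (h, (0 : Fin 2)) =
      F.dA M (fun g => f (g, (0 : Fin 2))) h + (F.sgn h * z) • f (h, (1 : Fin 2)) :=
  by
  refine (F.dA_two z f h 0).trans ?_
  rw [if_pos rfl]
  rfl

theorem dA_two_one (f : (F.tensor (koszul1 z)).ι → M) (h : F.ι) :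
    (F.tensor (koszul1 z)).dA M f (h, (1 : Fin 2)) = F.dA M (fun g => f (g, (1 : Fin 2))) h :=
  by
  refine (F.dA_two z f h 1).trans ?_
  rw [if_neg (by decide)]
  exact add_zero _

theorem dA_slot0 (u : F.ι → M) :
    (F.tensor (koszul1 z)).dA M (slot0 F z M u) = slot0 F z M (F.dA M u) := by
  funext q
  obtain ⟨h, i⟩ := q
  rcases (show i = (0 : Fin 2) ∨ i = (1 : Fin 2) from Fin.exists_fin_two.1 ⟨i, rfl⟩) with rfl | rfl
  · erw [dA_two_zero]
    simp only [slot0_zero, slot0_one, smul_zero, add_zero]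
  · erw [dA_two_one]
    simp only [slot0_one]
    exact congrFun (map_zero (F.dA M)) h

theorem slot0_mem_deg {j : ℤ} {u : F.ι → M} (hu : ∀ g, (F.pos g : ℤ) ≠ j → u g = 0) :
    ∀ q : (F.tensor (koszul1 z)).ι, ((F.tensor (koszul1 z)).pos q : ℤ) ≠ j → slot0 F z M u q = 0 := by
  rintro ⟨g, i⟩ hne
  rcases (show i = (0 : Fin 2) ∨ i = (1 : Fin 2) from Fin.exists_fin_two.1 ⟨i, rfl⟩) with rfl | rfl
  · refine hu g fun e => hne ?_
    show ((F.pos g + 0 : ℕ) : ℤ) = j
    simpa using e
  · rfl

theorem pos_slot1 (g : F.ι) : ((F.tensor (koszul1 z)).pos (g, (1 : Fin 2)) : ℤ) = F.pos g + 1 :=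
  rfl

theorem pos_slot0 (g : F.ι) : ((F.tensor (koszul1 z)).pos (g, (0 : Fin 2)) : ℤ) = F.pos g :=
  rfl

theorem slot0_mem_cyclesA {j : ℤ} {u : F.ι → M} (hu : u ∈ F.cyclesA M j) :
    slot0 F z M u ∈ (F.tensor (koszul1 z)).cyclesA M j := by
  rw [mem_cyclesA'] at hu ⊢
  exact ⟨by rw [dA_slot0, hu.1, map_zero], slot0_mem_deg hu.2⟩

theorem slot1_mem_cyclesA {j : ℤ} {f : (F.tensor (koszul1 z)).ι → M}
    (hf : f ∈ (F.tensor (koszul1 z)).cyclesA M j) : slot1 F z M f ∈ F.cyclesA M (j - 1) := by
  rw [mem_cyclesA'] at hf ⊢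
  refine ⟨funext fun h => ?_, fun g hg => hf.2 (g, (1 : Fin 2)) ?_⟩
  · have := congrFun hf.1 (h, (1 : Fin 2))
    erw [dA_two_one] at this
    exact this
  · rw [pos_slot1]
    omega

theorem smul_slot1_mem_bdriesA {j : ℤ} {f : (F.tensor (koszul1 z)).ι → M}
    (hf : f ∈ (F.tensor (koszul1 z)).cyclesA M j) : z • slot1 F z M f ∈ F.bdriesA M (j - 1) := by
  rw [mem_cyclesA'] at hf
  rw [mem_bdriesA']
  refine ⟨fun g => F.sgn g • f (g, (0 : Fin 2)), fun g hg => ?_, funext fun h => ?_⟩
  · show F.sgn g • f (g, (0 : Fin 2)) = 0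
    erw [hf.2 (g, (0 : Fin 2)) (by rw [pos_slot0]; omega)]
    exact smul_zero _
  · rw [F.dA_sgn_smul (fun g => f (g, (0 : Fin 2))) h]
    have := congrFun hf.1 (h, (0 : Fin 2))
    erw [dA_two_zero] at this
    rw [eq_neg_of_add_eq_zero_left this, smul_neg, neg_neg, smul_smul, ← mul_assoc, sgn_mul_sgn,
      one_mul]
    rfl

variable (F z M)

/-- The induced map on homology from the slot `0`. -/
def inc (j : ℤ) : F.HA M j →ₗ[A] (F.tensor (koszul1 z)).HA M j :=
  Submodule.mapQ _ _
    (((slot0 F z M).comp (F.cyclesA M j).subtype).codRestrict _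
      fun u => slot0_mem_cyclesA (z := z) u.2)
    (by
      intro u hu
      rw [Submodule.mem_comap, Submodule.mem_comap, Submodule.subtype_apply] at *
      obtain ⟨w, hw, hwu⟩ := mem_bdriesA'.1 hu
      refine mem_bdriesA'.2 ⟨slot0 F z M w, slot0_mem_deg hw, ?_⟩
      rw [dA_slot0, hwu]
      rfl)

/-- The induced map on homology from the slot `1`. -/
def proj (j : ℤ) : (F.tensor (koszul1 z)).HA M j →ₗ[A] ker (lsmul A (F.HA M (j - 1)) z) :=
  LinearMap.codRestrict _
    (Submodule.mapQ _ _
      (((slot1 F z M).comp ((F.tensor (koszul1 z)).cyclesA M j).subtype).codRestrict _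
        fun f => slot1_mem_cyclesA f.2)
      (by
        intro f hf
        rw [Submodule.mem_comap, Submodule.mem_comap, Submodule.subtype_apply] at *
        obtain ⟨w, hw, hwf⟩ := mem_bdriesA'.1 hf
        refine mem_bdriesA'.2 ⟨slot1 F z M w, fun g hg => hw (g, (1 : Fin 2)) ?_, funext fun h => ?_⟩
        · rw [pos_slot1]
          omega
        · have := congrFun hwf (h, (1 : Fin 2))
          erw [dA_two_one] at this
          exact this))
    fun ξ => by
      obtain ⟨f, rfl⟩ := Submodule.Quotient.mk_surjective _ ξ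
      rw [LinearMap.mem_ker, lsmul_apply, Submodule.mapQ_apply, ← Submodule.Quotient.mk_smul,
        Submodule.Quotient.mk_eq_zero]
      exact smul_slot1_mem_bdriesA f.2

theorem ker_inc (j : ℤ) : ker (inc F z M j) = range (lsmul A (F.HA M j) z) := by
  ext ξ
  obtain ⟨u, rfl⟩ := Submodule.Quotient.mk_surjective _ ξ
  have hu := mem_cyclesA'.1 u.2
  rw [LinearMap.mem_ker, inc, Submodule.mapQ_apply, Submodule.Quotient.mk_eq_zero,
    Submodule.mem_comap]
  constructor
  · intro h
    obtain ⟨w, hw, hwu⟩ := mem_bdriesA'.1 h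
    have h0 : ∀ g, F.dA M (fun g => w (g, (0 : Fin 2))) g + (F.sgn g * z) • w (g, (1 : Fin 2)) = u.1 g :=
      fun g => by
        have := congrFun hwu (g, (0 : Fin 2))
        erw [dA_two_zero] at this
        exact this
    have h1 : F.dA M (fun g => w (g, (1 : Fin 2))) = 0 := funext fun g => by
      have := congrFun hwu (g, (1 : Fin 2))
      erw [dA_two_one] at this
      exact this
    have hv : (fun g => F.sgn g • w (g, (1 : Fin 2))) ∈ F.cyclesA M j := by
      refine mem_cyclesA'.2 ⟨funext fun g => ?_, fun g hg => ?_⟩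
      · rw [F.dA_sgn_smul (fun g => w (g, (1 : Fin 2))) g, h1]
        simp
      · rw [hw (g, (1 : Fin 2)) (by rw [pos_slot1]; omega), smul_zero]
    refine ⟨Submodule.Quotient.mk ⟨_, hv⟩, ?_⟩
    rw [lsmul_apply, ← Submodule.Quotient.mk_smul, Submodule.Quotient.eq, Submodule.mem_comap]
    refine mem_bdriesA'.2 ⟨-(fun g => w (g, (0 : Fin 2))), fun g hg => ?_, funext fun g => ?_⟩
    · rw [Pi.neg_apply, hw (g, (0 : Fin 2)) (by rw [pos_slot0]; omega), neg_zero]
    · rw [map_neg, Pi.neg_apply]
      show _ = z • (F.sgn g • w (g, (1 : Fin 2))) - u.1 g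
      rw [← h0 g, smul_smul, mul_comm z]
      abel
  · rintro ⟨η, hη⟩
    obtain ⟨v, rfl⟩ := Submodule.Quotient.mk_surjective _ η
    rw [lsmul_apply, ← Submodule.Quotient.mk_smul, Submodule.Quotient.eq, Submodule.mem_comap]
      at hη
    obtain ⟨w, hw, hwv⟩ := mem_bdriesA'.1 hη
    have hv := mem_cyclesA'.1 v.2
    refine mem_bdriesA'.2 ⟨fun q : F.ι × Fin 2 => if q.2 = 0 then -w q.1 else F.sgn q.1 • v.1 q.1, ?_, ?_⟩
    · rintro ⟨g, i⟩ hne
      rcases (show i = (0 : Fin 2) ∨ i = (1 : Fin 2) from Fin.exists_fin_two.1 ⟨i, rfl⟩) with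
        rfl | rfl
      · show -w g = 0
        rw [hw g (by rwa [pos_slot0] at hne), neg_zero]
      · show F.sgn g • v.1 g = 0
        rw [hv.2 g (by rw [pos_slot1] at hne; omega), smul_zero]
    · funext q
      obtain ⟨h, i⟩ := q
      rcases (show i = (0 : Fin 2) ∨ i = (1 : Fin 2) from Fin.exists_fin_two.1 ⟨i, rfl⟩) with
        rfl | rfl
      · erw [dA_two_zero]
        show F.dA M (-w) h + (F.sgn h * z) • (F.sgn h • v.1 h) = u.1 h
        rw [map_neg, hwv, Pi.neg_apply, smul_smul, mul_comm (F.sgn h) z, mul_assoc, sgn_mul_sgn,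
          mul_one]
        show -(z • v.1 h - u.1 h) + z • v.1 h = u.1 h
        abel
      · erw [dA_two_one]
        show F.dA M (fun g => F.sgn g • v.1 g) h = 0
        rw [F.dA_sgn_smul, hv.1]
        simp

theorem exact_inc_proj (j : ℤ) : Function.Exact (inc F z M j) (proj F z M j) := by
  intro ξ
  obtain ⟨f, rfl⟩ := Submodule.Quotient.mk_surjective _ ξ
  constructor
  · intro h
    have h' := congrArg Subtype.val h
    rw [proj, LinearMap.codRestrict_apply, Submodule.mapQ_apply] at h'
    have h'' := (Submodule.Quotient.mk_eq_zero _).1 h'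
    rw [Submodule.mem_comap] at h''
    obtain ⟨w, hw, hwf⟩ := mem_bdriesA'.1 h''
    have hf := mem_cyclesA'.1 f.2
    let W : (F.tensor (koszul1 z)).ι → M := fun q : F.ι × Fin 2 => if q.2 = 0 then 0 else w q.1
    have hW : ∀ q, ((F.tensor (koszul1 z)).pos q : ℤ) ≠ j + 1 → W q = 0 := by
      rintro ⟨g, i⟩ hne
      rcases (show i = (0 : Fin 2) ∨ i = (1 : Fin 2) from Fin.exists_fin_two.1 ⟨i, rfl⟩) with
        rfl | rfl
      · rfl
      · exact hw g (by rw [pos_slot1] at hne; omega)
    let u : F.ι → M := fun g => f.1 (g, (0 : Fin 2)) - (F.sgn g * z) • w g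
    have hsub : ∀ q, f.1 q - (F.tensor (koszul1 z)).dA M W q = slot0 F z M u q := by
      rintro ⟨h, i⟩
      rcases (show i = (0 : Fin 2) ∨ i = (1 : Fin 2) from Fin.exists_fin_two.1 ⟨i, rfl⟩) with
        rfl | rfl
      · erw [dA_two_zero]
        show f.1 (h, (0 : Fin 2)) - (F.dA M (0 : F.ι → M) h + (F.sgn h * z) • w h) = u h
        rw [map_zero, Pi.zero_apply, zero_add]
      · erw [dA_two_one]
        show f.1 (h, (1 : Fin 2)) - F.dA M w h = 0
        rw [hwf]
        exact sub_self _
    have hu : u ∈ F.cyclesA M j := by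
      refine mem_cyclesA'.2 ⟨funext fun h => ?_, fun g hg => ?_⟩
      · have e1 : (F.tensor (koszul1 z)).dA M (slot0 F z M u) = 0 := by
          rw [show slot0 F z M u = f.1 - (F.tensor (koszul1 z)).dA M W from
            funext fun q => (hsub q).symm, map_sub, hf.1, dA_dA, sub_zero]
        rw [dA_slot0] at e1
        exact congrFun e1 (h, (0 : Fin 2))
      · show f.1 (g, (0 : Fin 2)) - (F.sgn g * z) • w g = 0
        rw [hf.2 (g, (0 : Fin 2)) (by rw [pos_slot0]; exact hg), hw g (by omega), smul_zero, sub_zero]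
    refine ⟨Submodule.Quotient.mk ⟨u, hu⟩, ?_⟩
    rw [inc, Submodule.mapQ_apply, Submodule.Quotient.eq, Submodule.mem_comap]
    refine mem_bdriesA'.2 ⟨-W, fun q hq => by rw [Pi.neg_apply, hW q hq, neg_zero],
      funext fun q => ?_⟩
    rw [map_neg, Pi.neg_apply]
    show _ = slot0 F z M u q - f.1 q
    rw [← hsub q]
    abel
  · rintro ⟨η, hη⟩
    obtain ⟨u, rfl⟩ := Submodule.Quotient.mk_surjective _ η
    rw [← hη]
    refine Subtype.ext ?_
    rw [inc, Submodule.mapQ_apply, proj, LinearMap.codRestrict_apply, Submodule.mapQ_apply,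
      ZeroMemClass.coe_zero, Submodule.Quotient.mk_eq_zero, Submodule.mem_comap]
    exact zero_mem _

theorem proj_surjective (j : ℤ) : Function.Surjective (proj F z M j) := by
  rintro ⟨ξ, hξ⟩
  obtain ⟨u, rfl⟩ := Submodule.Quotient.mk_surjective _ ξ
  rw [LinearMap.mem_ker, lsmul_apply, ← Submodule.Quotient.mk_smul, Submodule.Quotient.mk_eq_zero,
    Submodule.mem_comap] at hξ
  obtain ⟨v, hv, hvu⟩ := mem_bdriesA'.1 hξ
  have hu := mem_cyclesA'.1 u.2
  let f : (F.tensor (koszul1 z)).ι → M := fun q : F.ι × Fin 2 => if q.2 = 0 then F.sgn q.1 • v q.1 else u.1 q.1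
  have hf : f ∈ (F.tensor (koszul1 z)).cyclesA M j := by
    refine mem_cyclesA'.2 ⟨funext fun q => ?_, ?_⟩
    · obtain ⟨h, i⟩ := q
      rcases (show i = (0 : Fin 2) ∨ i = (1 : Fin 2) from Fin.exists_fin_two.1 ⟨i, rfl⟩) with
        rfl | rfl
      · erw [dA_two_zero]
        show F.dA M (fun g => F.sgn g • v g) h + (F.sgn h * z) • u.1 h = (0 : M)
        rw [F.dA_sgn_smul, hvu, mul_smul]
        exact neg_add_cancel _
      · erw [dA_two_one]
        exact congrFun hu.1 h
    · rintro ⟨g, i⟩ hne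
      rcases (show i = (0 : Fin 2) ∨ i = (1 : Fin 2) from Fin.exists_fin_two.1 ⟨i, rfl⟩) with
        rfl | rfl
      · show F.sgn g • v g = 0
        rw [hv g (by rw [pos_slot0] at hne; omega), smul_zero]
      · exact hu.2 g (by rw [pos_slot1] at hne; omega)
  exact ⟨Submodule.Quotient.mk ⟨f, hf⟩, Subtype.ext rfl⟩

/-- The short exact sequence of a two-term tensor product, over the ring. -/
theorem exists_exact_step (j : ℤ) :
    ∃ (f : (F.HA M j ⧸ range (lsmul A (F.HA M j) z)) →ₗ[A] (F.tensor (koszul1 z)).HA M j)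
      (g : (F.tensor (koszul1 z)).HA M j →ₗ[A] ker (lsmul A (F.HA M (j - 1)) z)),
      Function.Injective f ∧ Function.Surjective g ∧ Function.Exact f g := by
  refine ⟨Submodule.liftQ _ (inc F z M j) (ker_inc F z M j).ge, proj F z M j, ?_,
    proj_surjective F z M j, ?_⟩
  · rw [← LinearMap.ker_eq_bot, Submodule.ker_liftQ, ker_inc, Submodule.mkQ_map_self]
  · rw [LinearMap.exact_iff, Submodule.range_liftQ]
    exact LinearMap.exact_iff.1 (exact_inc_proj F z M j)

end step

section chi

variable {k : Type*} [Field k] [Algebra k A] [IsNoetherianRing A]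

omit [IsNoetherianRing A] in
theorem finite_support_HA (F : FreeCx A) (M : Type u) [AddCommGroup M] [Module A M]
    (φ : ∀ (N : Type u) [AddCommGroup N] [Module A N], ℤ)
    (hφ : ∀ (N : Type u) [AddCommGroup N] [Module A N] [Subsingleton N], φ N = 0) :
    (Function.support fun j : ℤ => (j.negOnePow : ℤ) * φ (F.HA M j)).Finite := by
  refine Set.Finite.subset (Set.finite_range fun g : F.ι => (F.pos g : ℤ)) fun j hj => ?_
  by_contra hc
  have : Subsingleton (F.HA M j) :=
    F.HA_subsingleton_of_forall M fun g e => hc ⟨g, e⟩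
  exact hj (by simp [hφ (F.HA M j)])

/-- The Euler characteristic of the tower is the alternating sum of the symbols of the homology. -/
theorem tower_chi : ∀ (z : List A) (F : FreeCx A) (M : Type u) [AddCommGroup M] [Module A M]
    [Module k M] [IsScalarTower k A M], (∀ j, Vale.Agent.P202.Good k z (F.HA M j)) →
    (F.tower z).FiniteHom M k ∧
      (F.tower z).chi M k = ∑ᶠ j : ℤ, (j.negOnePow : ℤ) * emult k z (F.HA M j) := by
  intro z
  induction z with
  | nil =>
    intro F M _ _ _ _ h
    refine ⟨fun j => ?_, ?_⟩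
    · have := (h j).finiteDimensional (M := F.HA M j)
      exact Module.Finite.equiv (homEquiv (G := F) (k := k) (M := M) j)
    · show F.chi M k = _
      refine finsum_congr fun j => ?_
      congr 1
      change (Diff.betti _ _ _ _ : ℤ) = (Module.finrank k (RestrictScalars k A (F.HA M j)) : ℤ)
      let e : RestrictScalars k A (F.HA M j) ≃ₗ[k] F.HA M j :=
        { RestrictScalars.addEquiv k A (F.HA M j) with
          map_smul' := fun c m => by simp [algebraMap_smul] }
      rw [Diff.betti, e.finrank_eq, (homEquiv (G := F) (k := k) (M := M) j).finrank_eq]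
  | cons x zs ih =>
    intro F M _ _ _ _ h
    have hstep := fun j => exists_exact_step F x M j
    choose f g hf hg hfg using hstep
    have hG : ∀ j, Vale.Agent.P202.Good k zs ((F.tensor (koszul1 x)).HA M j) := fun j =>
      Vale.Agent.P202.Good.of_exact (hfg j) (h j).cons_quot (h (j - 1)).cons_ker
    obtain ⟨t1, t2⟩ := ih (F.tensor (koszul1 x)) M hG
    refine ⟨t1, ?_⟩
    rw [tower_cons, t2]
    have e : ∀ j : ℤ, (j.negOnePow : ℤ) * emult k zs ((F.tensor (koszul1 x)).HA M j) =
        (j.negOnePow : ℤ) * emult k zs (F.HA M j ⧸ range (lsmul A (F.HA M j) x)) +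
          -(((j - 1).negOnePow : ℤ) * emult k zs (ker (lsmul A (F.HA M (j - 1)) x))) := by
      intro j
      rw [emult_exact zs _ _ _ (f j) (g j) (hf j) (hg j) (hfg j) (hG j), mul_add, Int.negOnePow_sub,
        Int.negOnePow_one]
      simp
    have s1 := F.finite_support_HA M
      (fun N _ _ => emult k zs (N ⧸ range (lsmul A N x))) (fun N _ _ _ => emult_subsingleton k _ _)
    have s2 := F.finite_support_HA M
      (fun N _ _ => emult k zs (ker (lsmul A N x))) (fun N _ _ _ => emult_subsingleton k _ _)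
    set φ₁ : ℤ → ℤ := fun j =>
      (j.negOnePow : ℤ) * emult k zs (F.HA M j ⧸ range (lsmul A (F.HA M j) x))
    set φ₂ : ℤ → ℤ := fun j =>
      (j.negOnePow : ℤ) * emult k zs (ker (lsmul A (F.HA M j) x))
    have s2' : (Function.support fun j => φ₂ (j - 1)).Finite :=
      (s2.image (· + 1)).subset fun j hj => ⟨j - 1, hj, by simp⟩
    have hsub : (fun j : ℤ => (j.negOnePow : ℤ) * emult k (x :: zs) (F.HA M j)) =
        fun j => φ₁ j + -φ₂ j := funext fun j => by
      simp only [φ₁, φ₂, emult_cons]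
      ring
    rw [finsum_congr e, hsub]
    rw [finsum_add_distrib (g := fun j => -φ₂ (j - 1)) s1
        (s2'.subset fun j hj => by simpa using hj),
      finsum_add_distrib (g := fun j => -φ₂ j) s1 (s2.subset fun j hj => by simpa using hj)]
    congr 1
    rw [finsum_neg_distrib, finsum_neg_distrib]
    exact congrArg Neg.neg (finsum_comp_equiv (Equiv.subRight (1 : ℤ)) (f := φ₂))

variable {F : FreeCx A} {M : Type u} [AddCommGroup M] [Module A M] [Module k M]
  [IsScalarTower k A M]

omit [Module k M] [IsScalarTower k A M] in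
theorem good_HA [Module.Finite A M] (I : Ideal A) (hI : ∀ a ∈ I, F.Kills M a) {z : List A}
    [Module.Finite k (A ⧸ (I ⊔ Module.annihilator A M ⊔ Ideal.ofList z))] (j : ℤ) :
    Vale.Agent.P202.Good k z (F.HA M j) :=
  ⟨F.finite_HA M j, finite_quot_of_le (I := I ⊔ Module.annihilator A M ⊔ Ideal.ofList z)
    (sup_le_sup_right ((sup_le (show I ≤ F.killsIdeal M from hI)
      fun _ ha => kills_of_mem_annihilator ha).trans (F.killsIdeal_le_annihilator M j)) _)⟩

/-- The tower has vanishing Euler characteristic when the homology of `F` is too small. -/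
theorem tower_chi_eq_zero [Module.Finite A M] (I : Ideal A) (hI : ∀ a ∈ I, F.Kills M a)
    {z : List A} [Module.Finite k (A ⧸ (I ⊔ Module.annihilator A M ⊔ Ideal.ofList z))]
    (hdim : ringKrullDim (A ⧸ (I ⊔ Module.annihilator A M)) < (z.length : WithBot ℕ∞)) :
    (F.tower z).FiniteHom M k ∧ (F.tower z).chi M k = 0 := by
  have hG : ∀ j, Vale.Agent.P202.Good k z (F.HA M j) := fun j => F.good_HA I hI j
  obtain ⟨h1, h2⟩ := tower_chi z F M hG
  refine ⟨h1, h2.trans (finsum_eq_zero_of_forall_eq_zero fun j => ?_)⟩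
  rw [emult_eq_zero z _ (hG j) (lt_of_le_of_lt ?_ hdim), mul_zero]
  exact ringKrullDim_quotient_mono ((sup_le (show I ≤ F.killsIdeal M from hI)
    fun _ ha => kills_of_mem_annihilator ha).trans (F.killsIdeal_le_annihilator M j))

theorem tower_finiteHom [Module.Finite A M] (I : Ideal A) (hI : ∀ a ∈ I, F.Kills M a)
    {z : List A} [Module.Finite k (A ⧸ (I ⊔ Module.annihilator A M ⊔ Ideal.ofList z))] :
    (F.tower z).FiniteHom M k :=
  (tower_chi z F M fun j => F.good_HA I hI j).1

omit [IsNoetherianRing A] [Algebra k A] [Module k M] [IsScalarTower k A M] in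
/-- The tower of a complex with nonzero bottom homology has nonzero bottom homology. -/
theorem nontrivial_tower_HA_zero [IsNoetherianRing A] [IsLocalRing A] [Module.Finite A M] :
    ∀ (z : List A) (F : FreeCx A), (∀ x ∈ z, x ∈ IsLocalRing.maximalIdeal A) →
      Nontrivial (F.HA M 0) → Nontrivial ((F.tower z).HA M 0) := by
  intro z
  induction z with
  | nil => exact fun F _ h => h
  | cons x zs ih =>
    intro F hz h
    refine ih _ (fun a ha => hz a (List.mem_cons_of_mem _ ha)) ?_
    obtain ⟨f, g, hf, -, -⟩ := exists_exact_step F x M 0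
    have : Nontrivial (F.HA M 0 ⧸ range (lsmul A (F.HA M 0) x)) := by
      rw [Submodule.Quotient.nontrivial_iff]
      intro htop
      have := F.finite_HA M 0
      have hle : (⊤ : Submodule A (F.HA M 0)) ≤ Ideal.span {x} • ⊤ := fun q _ => by
        obtain ⟨q', rfl⟩ := (htop.ge trivial : q ∈ range (lsmul A (F.HA M 0) x))
        exact Submodule.smul_mem_smul (Ideal.mem_span_singleton_self x) trivial
      have := Submodule.eq_bot_of_le_smul_of_le_jacobson_bot (Ideal.span {x}) _
        Module.Finite.fg_top hle (by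
          rw [IsLocalRing.jacobson_eq_maximalIdeal ⊥ bot_ne_top, Ideal.span_singleton_le_iff_mem]
          exact hz x List.mem_cons_self)
      exact (nontrivial_iff.1 h).elim fun a ⟨b, hab⟩ => hab <| by
        rw [(Submodule.eq_bot_iff _).1 this a trivial, (Submodule.eq_bot_iff _).1 this b trivial]
    exact hf.nontrivial

end chi

end FreeCx

end Vale.Agent.P202
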