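import Vale.Agent.P202.NC.Witness
import Vale.Agent.P202.Imperfect.Tower

/-!
# P202 imperfect residue fields: bounded data from Frobenius scaling on the ring

A complex over a local ring finite over `k[[X]]` whose Frobenius twists have Euler characteristic
`q ^ D * E` on the ring gives bounded data; on modules of smaller dimension only the size of the
homology is used.
-/

noncomputable section

namespace Vale.Agent.P202.Imperfect

open IsLocalRing

universe u

section sizes

/-- The Euler characteristic is bounded by the sizes of the homology. -/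
theorem abs_chi_le {A : Type*} [CommRing A] {k : Type*} [Field k] [Algebra k A] (G : FreeCx A)
    {L : ℕ} (hL : G.LengthLE L) (M : Type*) [AddCommGroup M] [Module A M] [Module k M]
    [IsScalarTower k A M] {b : ℕ} (hb : ∀ j, G.homDim M k j ≤ b) :
    |G.chi M k| ≤ (((2 * L + 1) * b : ℕ) : ℤ) := by
  have hsub : ∀ j : ℤ, (j < -(L : ℤ) ∨ (L : ℤ) < j) → Subsingleton ((G.diff M k).H ⊤ ⊥ j) := by
    intro j hj
    have hs : Subsingleton ((G.diff M k).cycles ⊤ ⊥ j) := by
      refine ⟨fun f f' => Subtype.ext (funext fun g => ?_)⟩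
      have := hL g
      rw [((G.diff M k).mem_cycles.mp f.2).2.1 g (by omega),
        ((G.diff M k).mem_cycles.mp f'.2).2.1 g (by omega)]
    exact (Submodule.Quotient.mk_surjective _).subsingleton
  rw [FreeCx.chi, Diff.chi_eq_sum_Icc _ L hsub]
  refine (Finset.abs_sum_le_sum_abs _ _).trans ?_
  have h : ∀ j ∈ Finset.Icc (-(L : ℤ)) L,
      |(j.negOnePow : ℤ) * ((G.diff M k).betti ⊤ ⊥ j : ℤ)| ≤ (b : ℤ) := fun j _ => by
    rw [abs_mul, Int.abs_negOnePow, one_mul, Nat.abs_cast]
    exact Nat.cast_le.2 (hb j)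
  refine (Finset.sum_le_card_nsmul _ _ _ h).trans (le_of_eq ?_)
  rw [Int.card_Icc, nsmul_eq_mul, show ((L : ℤ) + 1 - -(L : ℤ)).toNat = 2 * L + 1 by omega]
  push_cast
  rfl

end sizes

variable (p : ℕ) [Fact p.Prime] {L : Type u} [Field L]
  {B : Type u} [CommRing B] [IsNoetherianRing B] [IsLocalRing B] [CharP B p] [Algebra L B]
  [Module.Finite L (ResidueField B)]

/-- Twisted Euler characteristics agree up to lower order across a map whose kernel and cokernel
have smaller dimension. -/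
theorem exists_chi_close (G : FreeCx B) (hG : G.FiniteHom B L) {D t : ℕ} (hlen : G.LengthLE D)
    (M N : Type u) [AddCommGroup M] [Module B M] [Module L M] [IsScalarTower L B M]
    [Module.Finite B M] [AddCommGroup N] [Module B N] [Module L N] [IsScalarTower L B N]
    [Module.Finite B N] (f : M →ₗ[B] N) (hker : sdim B (LinearMap.ker f) ≤ (t : WithBot ℕ∞))
    (hcoker : sdim B (N ⧸ LinearMap.range f) ≤ (t : WithBot ℕ∞)) :
    ∃ C : ℕ, ∀ n, |(G.map (iterateFrobenius B p n)).chi N L -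
      (G.map (iterateFrobenius B p n)).chi M L| ≤ ((C * (p ^ n) ^ t : ℕ) : ℤ) := by
  obtain ⟨C₁, h₁⟩ := exists_homDim_bound p G hG t (LinearMap.ker f) (k := L) hker
  obtain ⟨C₂, h₂⟩ := exists_homDim_bound p G hG t (N ⧸ LinearMap.range f) (k := L) hcoker
  refine ⟨(2 * D + 1) * C₁ + (2 * D + 1) * C₂, fun n => ?_⟩
  set H := G.map (iterateFrobenius B p n)
  have fin : ∀ (M' : Type u) [AddCommGroup M'] [Module B M'] [Module L M'] [IsScalarTower L B M']
      [Module.Finite B M'], H.FiniteHom M' L := fun M' _ _ _ _ _ =>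
    finiteHom_map_frobenius p G hG n M'
  have : IsNoetherian B M := isNoetherian_of_isNoetherianRing_of_finite B M
  have : IsNoetherian B N := isNoetherian_of_isNoetherianRing_of_finite B N
  have e1 : H.chi M L = H.chi (LinearMap.ker f) L + H.chi (LinearMap.range f) L :=
    H.chi_additive (f := (LinearMap.ker f).subtype) (g := f.rangeRestrict)
      (Submodule.injective_subtype _) f.surjective_rangeRestrict
      (by rw [LinearMap.exact_iff, LinearMap.ker_rangeRestrict, Submodule.range_subtype])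
      (fin _) (fin _)
  have e2 : H.chi N L = H.chi (LinearMap.range f) L + H.chi (N ⧸ LinearMap.range f) L :=
    H.chi_additive (f := (LinearMap.range f).subtype) (g := (LinearMap.range f).mkQ)
      (Submodule.injective_subtype _) (Submodule.mkQ_surjective _)
      (LinearMap.exact_subtype_mkQ _) (fin _) (fin _)
  have hl : H.LengthLE D := fun g => hlen g
  have b1 := abs_chi_le H hl (LinearMap.ker f) (k := L) (h₁ n)
  have b2 := abs_chi_le H hl (N ⧸ LinearMap.range f) (k := L) (h₂ n)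
  rw [e1, e2]
  have h := abs_sub (H.chi (N ⧸ LinearMap.range f) L) (H.chi (LinearMap.ker f) L)
  rw [add_sub_add_comm] at *
  push_cast at b1 b2 ⊢
  rw [show H.chi (LinearMap.range f) L - H.chi (LinearMap.ker f) L +
    (H.chi (N ⧸ LinearMap.range f) L - H.chi (LinearMap.range f) L) =
      H.chi (N ⧸ LinearMap.range f) L - H.chi (LinearMap.ker f) L by ring]
  refine h.trans ?_
  rw [add_mul, add_comm]
  refine add_le_add (b1.trans (le_of_eq ?_)) (b2.trans (le_of_eq ?_)) <;> ring

variable [CharP L p] [PerfectRing L p]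

/-- The witness of boundedness from scaling on the ring alone. -/
theorem exists_bounded_of_scaling {D : ℕ} (hD : 1 ≤ D) [Algebra (PS L D) B]
    [IsScalarTower L (PS L D) B] [Module.Finite (PS L D) B]
    (hX : ∀ i, algebraMap (PS L D) B (MvPowerSeries.X i) ∈ maximalIdeal B) {r : ℕ}
    (hpow : ∀ n, maximalIdeal B ^ (n + r) ≤
      (maximalIdeal (PS L D) ^ n).map (algebraMap (PS L D) B))
    (G : FreeCx B) (hlen : G.LengthLE D) (hH0 : Nontrivial (G.HA B 0)) (hfin : G.FiniteHom B L)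
    {E : ℤ} (hE : 1 ≤ E)
    (hchi : ∀ n, (G.map (iterateFrobenius B p n)).chi B L = ((p ^ n : ℕ) : ℤ) ^ D * E) :
    NC.Bounded L D E (Module.finrank (PS L D) B) := by
  classical
  have : IsDomain (PS L D) := NoZeroDivisors.to_isDomain _
  -- the minimal complex
  obtain ⟨H, hHlen', hHm, hiso⟩ := FreeCx.exists_minimal (Fintype.card G.ι) G le_rfl
  have hHlen : H.LengthLE D := hHlen' D hlen
  have hHfin : H.FiniteHom B L := FreeCx.finiteHom_congr_homology (fun j => hiso L B j) hfin
  have hscal : ∀ n, (H.map (iterateFrobenius B p n)).chi B L = ((p ^ n : ℕ) : ℤ) ^ D * E := by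
    intro n
    rw [(H.map_frobenius_hom p n (k := L) B).2,
      ← FreeCx.chi_congr_homology (fun j => hiso L (Pull (iterateFrobenius B p n) B) j),
      ← (G.map_frobenius_hom p n (k := L) B).2, hchi]
  have hrank : 1 ≤ H.rank 0 := by
    obtain ⟨e₁⟩ := hiso L B 0
    have : Nontrivial ((G.diff B L).H ⊤ ⊥ 0) :=
      ((FreeCx.homEquiv (G := G) (k := L) (M := B) 0).toEquiv.nontrivial_congr).1 hH0
    have : Nontrivial ((H.diff B L).H ⊤ ⊥ 0) := e₁.toEquiv.nontrivial_congr.1 this
    by_contra h0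
    have hpos : ∀ g, (H.pos g : ℤ) ≠ 0 := fun g hg => h0 (Finset.card_pos.2
      ⟨g, Finset.mem_filter.2 ⟨Finset.mem_univ _, by exact_mod_cast hg⟩⟩)
    have hs : Subsingleton ((H.diff B L).cycles ⊤ ⊥ 0) := by
      refine ⟨fun f f' => Subtype.ext (funext fun g => ?_)⟩
      rw [((H.diff B L).mem_cycles.mp f.2).2.1 g (hpos g),
        ((H.diff B L).mem_cycles.mp f'.2).2.1 g (hpos g)]
    exact not_subsingleton _ ((Submodule.Quotient.mk_surjective _).subsingleton :
      Subsingleton ((H.diff B L).H ⊤ ⊥ 0))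
  -- the comparison and the resolved module
  obtain ⟨c, α, β, hc, hαβ, hβα⟩ := NC.exists_free_comparison (PS L D) B
  generalize he : Module.finrank (PS L D) B = e at α β hαβ hβα ⊢
  obtain ⟨α', β', hαβ', hβα'⟩ := NC.DualMod.exists_comparison (R := B) α β hαβ hβα
  obtain ⟨Φ, c₀, hdata⟩ :=
    NC.exists_datum (R := B) (N := NC.DualMod (PS L D) B B) hc α' β' hαβ' hβα'
  obtain ⟨N₀, hN₀⟩ := FreeCx.exists_pow_kills hHfin hHlen
  -- modules of smaller dimension
  have hsmall : ∀ (M : Type u) [AddCommGroup M] [Module B M],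
      (∀ x : M, algebraMap (PS L D) B c • x = 0) →
        sdim B M ≤ ((D - 1 : ℕ) : WithBot ℕ∞) := fun M _ _ h =>
    sdim_le_pred (sdim_lt_of_killed (V := PS L D) (ringKrullDim_mvPowerSeries_le D) M hc h)
  have hlow : ∀ q, ∃ C : ℕ, q < D → ∀ (n : ℕ) (j : ℤ),
      (H.map (iterateFrobenius B p n)).homDim (NC.Coh B Φ D q) L j ≤ C * (p ^ n) ^ (D - 1) := by
    intro q
    by_cases hq : q < D
    · obtain ⟨C, hC⟩ := exists_homDim_bound p H hHfin (D - 1) (NC.Coh B Φ D q) (k := L)
        (hsmall _ fun x => by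
          rw [algebraMap_smul]
          exact NC.Coh.smul_eq_zero_of_lt α' β' hαβ' hβα' hq x)
      exact ⟨C, fun _ => hC⟩
    · exact ⟨0, fun h => absurd h hq⟩
  choose Cq hCq using hlow
  obtain ⟨hker, hcoker⟩ := NC.DualMod.eval_ker_coker (R := B) α β hαβ
  let f : B →ₗ[B] NC.Coh B Φ D D :=
    (NC.Coh.topEquiv B Φ D).toLinearMap.comp (NC.DualMod.eval (PS L D) B)
  obtain ⟨C₁, hC₁⟩ := exists_chi_close p H hHfin hHlen B (NC.Coh B Φ D D) f
    (hsmall _ fun x => Subtype.ext (by
      have hx : NC.DualMod.eval (PS L D) B (x : B) = 0 :=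
        (NC.Coh.topEquiv B Φ D).injective ((LinearMap.mem_ker.1 x.2).trans (map_zero _).symm)
      show algebraMap (PS L D) B c • (x : B) = 0
      rw [algebraMap_smul]
      exact hker _ hx))
    (hsmall _ fun ξ => by
      obtain ⟨ξ, rfl⟩ := Submodule.Quotient.mk_surjective _ ξ
      rw [← Submodule.Quotient.mk_smul, Submodule.Quotient.mk_eq_zero]
      obtain ⟨η, rfl⟩ := (NC.Coh.topEquiv B Φ D).surjective ξ
      obtain ⟨x, hx⟩ := hcoker η
      refine ⟨x, ?_⟩
      show NC.Coh.topEquiv B Φ D (NC.DualMod.eval (PS L D) B x) = _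
      rw [hx, ← map_smul, algebraMap_smul])
  set C' := (∑ q ∈ Finset.range D, (2 * D + 1) * Cq q) + C₁ with hC'
  set B₀ := 1 + r + c₀ with hB
  set C := Fintype.card H.ι * Fintype.card Φ.F.ι + Fintype.card H.ι * e + B₀ + C' +
    N₀ * (D + 1) * (D + 1) * B₀ with hC
  refine ⟨c, D, C, fun Q => ?_⟩
  obtain ⟨n, hn⟩ : ∃ n, Q + r + c₀ + 1 ≤ p ^ n :=
    ⟨_, (Nat.lt_pow_self (Fact.out : p.Prime).one_lt).le⟩
  set Hn := H.map (iterateFrobenius B p n)
  set K := p ^ n - r - c₀ with hK
  have hK1 : 1 ≤ K := by omega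
  obtain ⟨X, hXc, hXm, hgood, hcard, hfree, hfrank, -, hXchi, hkills⟩ := hdata K Hn
    (fun g => hHlen g) (NC.entriesIn_map_frobenius p hpow hHm (by omega))
    (fun q _ => finiteHom_map_frobenius p H hHfin n _)
  refine ⟨K, by omega, hK1, X, hXc, hXm, hgood, ?_, ?_, ?_, ?_, fun i => ?_⟩
  · rw [hcard]
    show Fintype.card H.ι * _ ≤ C
    omega
  · rw [hfree]
    show Fintype.card H.ι * _ ≤ C
    omega
  · rw [hfrank 0]
    exact Nat.le_mul_of_pos_left e hrank
  · -- Euler characteristic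
    have hrest : |∑ q ∈ Finset.range D, (-1 : ℤ) ^ q * Hn.chi (NC.Coh B Φ D q) L| ≤
        (((∑ q ∈ Finset.range D, (2 * D + 1) * Cq q) * (p ^ n) ^ (D - 1) : ℕ) : ℤ) := by
      rw [Finset.sum_mul, Nat.cast_sum]
      refine (Finset.abs_sum_le_sum_abs _ _).trans (Finset.sum_le_sum fun q hq => ?_)
      rw [abs_mul, abs_pow, abs_neg, abs_one, one_pow, one_mul]
      refine (abs_chi_le Hn (fun g => hHlen g) _ (hCq q (Finset.mem_range.1 hq) n)).trans
        (le_of_eq ?_)
      push_cast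
      ring
    have htop := hC₁ n
    rw [hscal n] at htop
    rw [hXchi, Finset.sum_range_succ]
    refine (abs_add_le _ _).trans ?_
    rw [abs_mul, abs_pow, abs_neg, abs_one, one_pow, one_mul]
    have htop' : |Hn.chi (NC.Coh B Φ D D) L| ≤
        ((p ^ n : ℕ) : ℤ) ^ D * E + ((C₁ * (p ^ n) ^ (D - 1) : ℕ) : ℤ) := by
      have h0 : (0 : ℤ) ≤ ((p ^ n : ℕ) : ℤ) ^ D * E := by positivity
      have := abs_add_le (Hn.chi (NC.Coh B Φ D D) L - ((p ^ n : ℕ) : ℤ) ^ D * E)
        (((p ^ n : ℕ) : ℤ) ^ D * E)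
      rw [sub_add_cancel, abs_of_nonneg h0] at this
      linarith
    refine (add_le_add hrest htop').trans ?_
    obtain ⟨D', rfl⟩ : ∃ D', D = D' + 1 := ⟨D - 1, by omega⟩
    rw [Nat.add_sub_cancel]
    set q : ℤ := ((p ^ n : ℕ) : ℤ) with hqdef
    have hqK : q + (C' : ℤ) ≤ ((K + C : ℕ) : ℤ) := by
      rw [hqdef]
      exact_mod_cast (show p ^ n + C' ≤ K + C by omega)
    have hq0 : 0 ≤ q := Int.natCast_nonneg _
    have step1 : (((∑ x ∈ Finset.range (D' + 1), (2 * (D' + 1) + 1) * Cq x) * (p ^ n) ^ D' : ℕ) : ℤ)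
        + (q ^ (D' + 1) * E + ((C₁ * (p ^ n) ^ D' : ℕ) : ℤ)) =
          q ^ (D' + 1) * E + (C' : ℤ) * q ^ D' := by
      rw [hC', hqdef]
      push_cast
      ring
    rw [step1]
    calc q ^ (D' + 1) * E + (C' : ℤ) * q ^ D'
        ≤ q ^ (D' + 1) * E + (C' : ℤ) * E * q ^ D' := by
          have : (C' : ℤ) * 1 ≤ (C' : ℤ) * E := mul_le_mul_of_nonneg_left hE (Int.natCast_nonneg _)
          have := mul_le_mul_of_nonneg_right this (pow_nonneg hq0 D')
          linarith
      _ = E * ((q + (C' : ℤ)) * q ^ D') := by ring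
      _ ≤ E * (((K + C : ℕ) : ℤ) * ((K + C : ℕ) : ℤ) ^ D') := by
          refine mul_le_mul_of_nonneg_left (mul_le_mul hqK ?_ (pow_nonneg hq0 _)
            (Int.natCast_nonneg _)) (by omega)
          exact pow_le_pow_left₀ hq0 (le_trans (le_add_of_nonneg_right (Int.natCast_nonneg _)) hqK) _
      _ = E * ((K + C : ℕ) : ℤ) ^ (D' + 1) := by rw [pow_succ']
  · -- powers of the variables
    have hq : p ^ n ≤ B₀ * K := by
      have : r + c₀ ≤ (r + c₀) * K := Nat.le_mul_of_pos_right _ hK1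
      rw [hB, add_assoc, add_mul, one_mul]
      omega
    have hkill : ∀ q ≤ D, Hn.Kills (NC.Coh B Φ D q)
        (algebraMap (PS L D) B (MvPowerSeries.X i ^ (N₀ * (D + 1) * p ^ n))) := fun q _ => by
      have h := H.kills_map (φ := iterateFrobenius B p n)
        (hN₀ _ (Ideal.pow_mem_pow (hX i) N₀)) hHlen (NC.Coh B Φ D q)
      rwa [iterateFrobenius_def, ← pow_mul, ← pow_mul, ← map_pow, ← mul_assoc] at h
    have h1 : (N₀ * (D + 1) * p ^ n) * (D + 1) ≤ C * K :=
      calc (N₀ * (D + 1) * p ^ n) * (D + 1) = N₀ * (D + 1) * (D + 1) * p ^ n := by ring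
        _ ≤ N₀ * (D + 1) * (D + 1) * (B₀ * K) := Nat.mul_le_mul_left _ hq
        _ = (N₀ * (D + 1) * (D + 1) * B₀) * K := by ring
        _ ≤ C * K := Nat.mul_le_mul_right _ (by omega)
    have h2 := hkills _ hkill
    rw [← pow_mul] at h2
    rw [← Nat.sub_add_cancel h1, pow_add]
    exact Ideal.mul_mem_left (X.G.killsIdeal (PS L D)) _ h2

end Vale.Agent.P202.Imperfect
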