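import Vale.Agent.P202.Imperfect.Scaling
import Vale.Agent.P202.Imperfect.Witness
import Vale.Agent.P202.Imperfect.Resolution
import Vale.Agent.P202.Imperfect.Tools
import Vale.Agent.P202.Imperfect.Base
import Vale.Agent.P202.NC.Window.Weak
import Vale.Agent.P202.NC.Square
import Vale.Agent.P202.Main.RingFacts
import Vale.Agent.P202.NC.Amplify

/-!
# P202 imperfect residue fields: the inequality in a chart

`B = L[[X₁, ..., X_D]] ⊗[k[[X₁, ..., X_d]]] A` maps onto `T`, which has a short resolution over `B`;
Frobenius scaling of the resolution tensored with the Koszul complex of a lifted reduction gives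
bounded data of rank `finrank A`.
-/

noncomputable section

namespace Vale.Agent.P202.Imperfect

open IsLocalRing TensorProduct

universe u

/-- The rank of the parametrisation of `A` is at most the symbol on `T`. -/
theorem finrank_le_emult_of_chart (p : ℕ) [Fact p.Prime] {k L A T : Type u} [Field k] [CharP k p]
    [Field L] [CharP L p] [PerfectRing L p] [CommRing A] [IsNoetherianRing A] [IsLocalRing A]
    [CharP A p] {d s : ℕ} (hD : 1 ≤ d + s) [Algebra (PS k d) (PS L (d + s))]
    [Module.Flat (PS k d) (PS L (d + s))] [IsLocalHom (algebraMap (PS k d) (PS L (d + s)))]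
    [Algebra (PS k d) A] [Module.Finite (PS k d) A] [IsLocalRing (PS L (d + s) ⊗[PS k d] A)]
    (hBmax : maximalIdeal (PS L (d + s) ⊗[PS k d] A) =
      (maximalIdeal (PS L (d + s))).map (algebraMap (PS L (d + s)) (PS L (d + s) ⊗[PS k d] A)) ⊔
        (maximalIdeal A).map
          (Algebra.TensorProduct.includeRight : A →ₐ[PS k d] PS L (d + s) ⊗[PS k d] A).toRingHom)
    (hresA : ∀ a : A, ∃ c : PS k d, a - algebraMap (PS k d) A c ∈ maximalIdeal A) {r₀ : ℕ}
    (hpow : ∀ N, maximalIdeal A ^ (N + r₀) ≤
      (maximalIdeal (PS k d) ^ N).map (algebraMap (PS k d) A))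
    [CommRing T] [IsLocalRing T] [Algebra L T] [Algebra (PS L (d + s) ⊗[PS k d] A) T]
    [IsScalarTower L (PS L (d + s) ⊗[PS k d] A) T]
    (hsurj : Function.Surjective (algebraMap (PS L (d + s) ⊗[PS k d] A) T))
    (hres : Diag.FinRes (PS L (d + s) ⊗[PS k d] A) s T)
    [Module.Finite L (T ⧸ ((maximalIdeal (PS k d)).map
      (algebraMap (PS k d) (PS L (d + s) ⊗[PS k d] A))).map
        (algebraMap (PS L (d + s) ⊗[PS k d] A) T))]
    {y : Fin d → T} (hy : ∀ i, y i ∈ maximalIdeal T)
    [Module.Finite L (T ⧸ Ideal.span (Set.range y))] (hE : 1 ≤ emult L (List.ofFn y) T) :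
    (Module.finrank (PS k d) A : ℤ) ≤ emult L (List.ofFn y) T := by
  classical
  let V := PS k d
  let W := PS L (d + s)
  let B := W ⊗[V] A
  have : IsNoetherianRing B := IsNoetherianRing.of_finite W B
  have : CharP V p := charP_of_injective_algebraMap (algebraMap k V).injective p
  have : CharP B p := charP_of_injective_algebraMap (algebraMap L B).injective p
  have : ExpChar V p := ExpChar.prime Fact.out
  have : ExpChar W p := ExpChar.prime Fact.out
  have : ExpChar A p := ExpChar.prime Fact.out
  have : ExpChar B p := ExpChar.prime Fact.out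
  let χ : B →ₐ[L] T := IsScalarTower.toAlgHom L B T
  -- the lifts of the reduction
  choose yB hyB using fun i => hsurj (y i)
  set z := List.ofFn yB with hz
  have hzmap : z.map (algebraMap B T) = List.ofFn y := by
    rw [hz, List.map_ofFn]
    exact congrArg List.ofFn (funext hyB)
  have hzm : ∀ x ∈ z, x ∈ maximalIdeal B := by
    intro x hx
    rw [hz, List.mem_ofFn] at hx
    obtain ⟨i, rfl⟩ := hx
    exact fun hu => hy i (hyB i ▸ hu.map _)
  have hlen : z.length = d := by rw [hz, List.length_ofFn]
  have : Module.Finite B T := Module.Finite.of_surjective (Algebra.linearMap B T) hsurj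
  -- the annihilator of `T`
  let J := Module.annihilator B T
  have hker : RingHom.ker χ ≤ J := fun a ha => Module.mem_annihilator.2 fun t => by
    rw [Algebra.smul_def, show algebraMap B T a = 0 from ha, zero_mul]
  have hquot : ∀ K : Ideal B, Module.Finite L (T ⧸ K.map (algebraMap B T)) →
      Module.Finite L (B ⧸ (J ⊔ K)) := fun K hK => by
    have : Module.Finite L (T ⧸ (J ⊔ K).map χ) :=
      finite_quot_of_le (I := K.map (algebraMap B T))
        (show K.map (algebraMap B T) ≤ (J ⊔ K).map (algebraMap B T) from
          Ideal.map_mono le_sup_right)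
    exact finite_quot_of_map χ hsurj (J ⊔ K) (hker.trans le_sup_left)
  have hJz : Module.Finite L (B ⧸ (J ⊔ Ideal.ofList z)) := by
    refine hquot _ ?_
    rw [Ideal.map_ofList, hzmap, ofList_ofFn]
    infer_instance
  have : Module.Finite L (B ⧸ (J ⊔ (maximalIdeal V).map (algebraMap V B))) :=
    hquot _ inferInstance
  have hgood : Vale.Agent.P202.Good L z T := ⟨inferInstance, hJz⟩
  have hem : emult L z T = emult L (List.ofFn y) T := by
    rw [← hzmap]
    exact emult_semilinear (RingEquiv.refl L) (algebraMap B T)
      (fun c => (IsScalarTower.algebraMap_apply L B T c).symm) z T T (AddEquiv.refl T)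
      fun a m => Algebra.smul_def a m
  -- the complex
  obtain ⟨Φ, hΦ⟩ := exists_reso' s T hres
  obtain ⟨e⟩ := exists_HA_zero_equiv Φ
  obtain ⟨hfin, hchi⟩ := tower_chi_resolution Φ (k := L) hgood
  rw [hem] at hchi
  have hH0 : Nontrivial ((Φ.F.tower z).HA B 0) :=
    FreeCx.nontrivial_tower_HA_zero z Φ.F hzm e.toEquiv.nontrivial
  have hlenG : (Φ.F.tower z).LengthLE (d + s) := by
    have := FreeCx.tower_lengthLE z Φ.F s hΦ
    exact fun g => (this g).trans (by omega)
  have hγ : ∀ v ∈ maximalIdeal V, algebraMap V B v ∈ maximalIdeal B := fun v hv => by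
    rw [IsScalarTower.algebraMap_apply V W B, hBmax]
    exact Ideal.mem_sup_left (Ideal.mem_map_of_mem _ (map_nonunit _ v hv))
  have hscal : ∀ n, ((Φ.F.tower z).map (iterateFrobenius B p n)).chi B L =
      ((p ^ n : ℕ) : ℤ) ^ (d + s) * emult L (List.ofFn y) T := fun n => by
    obtain ⟨b⟩ := exists_basis_frob p n L (d + s)
    rw [chi_tower_frobenius p n b Φ.F z J
      (fun a ha B' _ φ M _ _ => kills_map_of_mem_annihilator Φ ha φ M) hγ hlen, card_index, hchi]
    push_cast
    rfl
  -- the size of `B`
  have hresB : ∀ b : B, ∃ c : L, b - algebraMap L B c ∈ maximalIdeal B := by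
    intro b
    induction b using TensorProduct.induction_on with
    | zero => exact ⟨0, by simp⟩
    | tmul w a =>
      obtain ⟨c, hc⟩ := hresA a
      refine ⟨MvPowerSeries.constantCoeff (w * algebraMap V W c), ?_⟩
      set w' := w * algebraMap V W c
      have h1 : w ⊗ₜ[V] a - algebraMap W B w' =
          algebraMap W B w *
            (Algebra.TensorProduct.includeRight : A →ₐ[V] B) (a - algebraMap V A c) := by
        rw [map_sub, AlgHom.commutes, IsScalarTower.algebraMap_apply V W B, mul_sub, map_mul,
          Algebra.TensorProduct.includeRight_apply, Algebra.TensorProduct.algebraMap_apply,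
          Algebra.algebraMap_self, RingHom.id_apply, Algebra.TensorProduct.tmul_mul_tmul, mul_one,
          one_mul]
      have h2 : w' - algebraMap L W (MvPowerSeries.constantCoeff w') ∈ maximalIdeal W := by
        rw [mem_maximalIdeal, mem_nonunits_iff, MvPowerSeries.isUnit_iff_constantCoeff,
          show algebraMap L W (MvPowerSeries.constantCoeff w') =
            MvPowerSeries.C (MvPowerSeries.constantCoeff w') from rfl]
        simp
      have h3 := Ideal.mem_map_of_mem (algebraMap W B) h2
      rw [map_sub, ← IsScalarTower.algebraMap_apply L W B] at h3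
      have h4 : w ⊗ₜ[V] a - algebraMap W B w' ∈ maximalIdeal B := by
        rw [h1, hBmax]
        exact Ideal.mul_mem_left _ _ (Ideal.mem_sup_right (Ideal.mem_map_of_mem _ hc))
      have h5 := add_mem h4 (hBmax.ge (Ideal.mem_sup_left h3))
      rwa [sub_add_sub_cancel] at h5
    | add b b' hb hb' =>
      obtain ⟨c, hc⟩ := hb
      obtain ⟨c', hc'⟩ := hb'
      refine ⟨c + c', ?_⟩
      rw [map_add, add_sub_add_comm]
      exact add_mem hc hc'
  have : Module.Finite L (ResidueField B) :=
    Module.Finite.of_surjective (Algebra.linearMap L (ResidueField B)) fun q => by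
      obtain ⟨b, rfl⟩ := residue_surjective q
      obtain ⟨c, hc⟩ := hresB b
      refine ⟨c, ?_⟩
      rw [Algebra.linearMap_apply, IsScalarTower.algebraMap_apply L B (ResidueField B),
        ResidueField.algebraMap_eq, eq_comm, ← sub_eq_zero, ← map_sub, residue_eq_zero_iff]
      exact hc
  have hpowB : ∀ N, maximalIdeal B ^ (N + r₀) ≤
      (maximalIdeal W ^ N).map (algebraMap W B) := fun N => by
    rw [hBmax, Ideal.map_pow]
    refine pow_sup_le (fun j => ?_) N
    rw [← Ideal.map_pow, ← Ideal.map_pow]
    refine (Ideal.map_mono (hpow j)).trans ?_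
    rw [Ideal.map_map, show (Algebra.TensorProduct.includeRight : A →ₐ[V] B).toRingHom.comp
      (algebraMap V A) = algebraMap V B from RingHom.ext fun v =>
        (Algebra.TensorProduct.includeRight : A →ₐ[V] B).commutes v,
      IsScalarTower.algebraMap_eq V W B, ← Ideal.map_map, Ideal.map_pow]
    exact Ideal.map_mono (Ideal.pow_right_mono
      (((IsLocalRing.local_hom_TFAE (algebraMap V W)).out 0 2).1
        (inferInstance : IsLocalHom (algebraMap V W))) j)
  have hX : ∀ i, algebraMap W B (MvPowerSeries.X i) ∈ maximalIdeal B := fun i => by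
    rw [hBmax]
    refine Ideal.mem_sup_left (Ideal.mem_map_of_mem _ ?_)
    rw [maximalIdeal_mvPowerSeries]
    exact Ideal.subset_span ⟨i, rfl⟩
  have hBd := exists_bounded_of_scaling (L := L) (B := B) p hD hX hpowB (Φ.F.tower z) hlenG hH0
    hfin hE hscal
  have hrank : Module.finrank W B = Module.finrank V A := by
    have : IsDomain V := NoZeroDivisors.to_isDomain _
    have : IsDomain W := NoZeroDivisors.to_isDomain _
    have : Module.FaithfullyFlat V W := Module.FaithfullyFlat.of_flat_of_isLocalHom
    exact finrank_baseChange_domain (FaithfulSMul.algebraMap_injective V W) A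
  rw [hrank] at hBd
  exact NC.le_of_bounded (fun _ hn _ _ h => NC.weak hn h) (fun _ _ _ hD h => NC.Bounded.square hD h)
    hD hBd

end Vale.Agent.P202.Imperfect
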