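import Mathlib

/-!
# P202 imperfect residue fields: the local criterion of flatness, by relations

If the relations on a generating family of the maximal ideal of a Noetherian local ring `V` in a
finite module over a Noetherian local `V`-algebra are trivial, the module is flat over `V`.
-/

noncomputable section

namespace Vale.Agent.P202.Imperfect

set_option linter.unusedSectionVars false

open IsLocalRing

variable {V : Type*} (W : Type*) {M : Type*} [CommRing V] [CommRing W] [Algebra V W]
  [AddCommGroup M] [Module V M] [Module W M] [IsScalarTower V W M]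

/-- The submodule of trivial relations on `f`. -/
def trivRel {l : ℕ} (f : Fin l → V) : Submodule W (Fin l → M) :=
  Submodule.span W {x | ∃ (a : Fin l → V) (y : M), ∑ i, f i * a i = 0 ∧ x = fun i => a i • y}

/-- All relations on `f` are trivial. -/
def TrivialOn (M : Type*) [AddCommGroup M] [Module V M] [Module W M] [IsScalarTower V W M]
    {l : ℕ} (f : Fin l → V) : Prop :=
  ∀ x : Fin l → M, ∑ i, f i • x i = 0 → x ∈ trivRel W f

variable {W}

theorem smul_mem_trivRel {l : ℕ} {f : Fin l → V} (a : Fin l → V) (y : M)
    (h : ∑ i, f i * a i = 0) : (fun i => a i • y) ∈ trivRel W f :=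
  Submodule.subset_span ⟨a, y, h, rfl⟩

theorem isTrivialRelation_of_mem {l : ℕ} {f : Fin l → V} {x : Fin l → M}
    (hx : x ∈ trivRel W f) : Module.IsTrivialRelation f x := by
  induction hx using Submodule.span_induction with
  | mem x hx =>
    obtain ⟨a, y, h, rfl⟩ := hx
    exact ⟨1, fun i _ => a i, fun _ => y, fun i => by simp, fun _ => h⟩
  | zero => exact ⟨0, fun _ => Fin.elim0, Fin.elim0, fun i => by simp, fun j => j.elim0⟩
  | add x x' _ _ hx hx' =>
    obtain ⟨n, a, y, h1, h2⟩ := hx
    obtain ⟨n', a', y', h1', h2'⟩ := hx'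
    refine ⟨n + n', fun i => Fin.append (a i) (a' i), Fin.append y y', fun i => ?_, fun j => ?_⟩
    · rw [Pi.add_apply, h1, h1', Fin.sum_univ_add]
      simp
    · induction j using Fin.addCases with
      | left j => simpa using h2 j
      | right j => simpa using h2' j
  | smul w x _ hx =>
    obtain ⟨n, a, y, h1, h2⟩ := hx
    refine ⟨n, a, fun j => w • y j, fun i => ?_, h2⟩
    rw [Pi.smul_apply, h1, Finset.smul_sum]
    exact Finset.sum_congr rfl fun j _ => smul_comm w (a i j) (y j)

/-- Triviality does not depend on the generators of the ideal. -/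
theorem TrivialOn.of_span_eq {l n : ℕ} {f : Fin l → V} {g : Fin n → V}
    (hg : TrivialOn W M g) (h : Ideal.span (Set.range f) = Ideal.span (Set.range g)) :
    TrivialOn W M f := by
  have hP : ∀ i, ∃ c : Fin n → V, ∑ j, c j * g j = f i := fun i =>
    Ideal.mem_span_range_iff_exists_fun.1 (h ▸ Ideal.subset_span ⟨i, rfl⟩)
  have hQ : ∀ j, ∃ c : Fin l → V, ∑ i, c i * f i = g j := fun j =>
    Ideal.mem_span_range_iff_exists_fun.1 (h.symm ▸ Ideal.subset_span ⟨j, rfl⟩)
  choose P hP using hP
  choose Q hQ using hQ
  intro x hx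
  let u : Fin n → M := fun j => ∑ i, P i j • x i
  have hu : u ∈ trivRel W g := hg u (by
    simp only [u, Finset.smul_sum, smul_smul]
    rw [Finset.sum_comm, ← hx]
    refine Finset.sum_congr rfl fun i _ => ?_
    rw [← Finset.sum_smul, ← hP i]
    congr 1
    exact Finset.sum_congr rfl fun j _ => mul_comm _ _)
  let Qm : (Fin n → M) →ₗ[W] (Fin l → M) :=
    { toFun := fun v i => ∑ j, Q j i • v j
      map_add' := fun v v' => funext fun i => by simp [smul_add, Finset.sum_add_distrib]
      map_smul' := fun w v => funext fun i => by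
        simp only [Pi.smul_apply, RingHom.id_apply, Finset.smul_sum]
        exact Finset.sum_congr rfl fun j _ => smul_comm _ _ _ }
  have hQu : Qm u ∈ trivRel W f := by
    have := Submodule.mem_map_of_mem (f := Qm) hu
    rw [trivRel, Submodule.map_span] at this
    refine (Submodule.span_le.2 ?_) this
    rintro _ ⟨_, ⟨a, y, ha, rfl⟩, rfl⟩
    have heq : Qm (fun j => a j • y) = fun i => (∑ j, Q j i * a j) • y :=
      funext fun i => by simp [Qm, Finset.sum_smul, smul_smul]
    rw [heq]
    refine smul_mem_trivRel _ y ?_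
    simp only [Finset.mul_sum]
    rw [Finset.sum_comm, ← ha]
    refine Finset.sum_congr rfl fun j _ => ?_
    rw [← hQ j, Finset.sum_mul]
    exact Finset.sum_congr rfl fun i _ => by ring
  let e : Fin l → Fin l → V := fun k i => (if i = k then 1 else 0) - ∑ j, Q j i * P k j
  have he : ∀ k, (fun i => e k i • x k) ∈ trivRel W f := fun k => by
    refine smul_mem_trivRel _ _ ?_
    simp only [e, mul_sub, Finset.sum_sub_distrib, mul_ite, mul_one, mul_zero,
      Finset.sum_ite_eq', Finset.mem_univ, if_true, Finset.mul_sum]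
    rw [Finset.sum_comm, sub_eq_zero]
    calc f k = ∑ j, P k j * g j := (hP k).symm
      _ = _ := Finset.sum_congr rfl fun j _ => by
        rw [← hQ j, Finset.mul_sum]
        exact Finset.sum_congr rfl fun i _ => by ring
  have hx' : x = Qm u + ∑ k, (fun i => e k i • x k) := funext fun i => by
    simp only [Pi.add_apply, Finset.sum_apply, Qm, u, LinearMap.coe_mk, AddHom.coe_mk, e, sub_smul,
      Finset.sum_sub_distrib, ite_smul, one_smul, zero_smul, Finset.sum_ite_eq, Finset.mem_univ,
      if_true, Finset.sum_smul, Finset.smul_sum, smul_smul]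
    rw [Finset.sum_comm]
    simp
  rw [hx']
  exact add_mem hQu (Submodule.sum_mem _ fun k _ => he k)

theorem trivialOn_of_isUnit {l : ℕ} {f : Fin l → V} (h : Ideal.span (Set.range f) = ⊤) :
    TrivialOn W M f := by
  refine TrivialOn.of_span_eq (g := fun _ : Fin 1 => (1 : V)) (fun x hx => ?_) (by simp [h])
  have h0 : x = 0 := funext fun i => by
    fin_cases i
    simpa using hx
  rw [h0]
  exact zero_mem _

/-- The inductive step: relations on `(f)` from those on `(f, a)` and on `((f) : a)`. -/
theorem mem_trivRel_sup_smul {l n : ℕ} {f : Fin l → V} {g : Fin n → V} {a : V}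
    (hg : ∀ b, b * a ∈ Ideal.span (Set.range f) ↔ b ∈ Ideal.span (Set.range g))
    (hfa : TrivialOn W M (Fin.cons a f)) {x : Fin l → M} (hx : ∑ i, f i • x i = 0) :
    ∃ (c : Fin n → Fin l → V) (u : Fin n → M),
      (∀ k, a * g k = ∑ i, f i * c k i) ∧ ∑ k, g k • u k = 0 ∧
      x + (fun i => ∑ k, c k i • u k) ∈ trivRel W f := by
  obtain ⟨m, b, y, h1, h2⟩ := isTrivialRelation_of_mem (hfa (Fin.cons 0 x) (by
    rw [Fin.sum_univ_succ]
    simp [hx]))
  have hb : ∀ j, b 0 j ∈ Ideal.span (Set.range g) := fun j => by
    refine (hg _).1 ?_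
    have := h2 j
    rw [Fin.sum_univ_succ] at this
    simp only [Fin.cons_zero, Fin.cons_succ] at this
    rw [mul_comm, eq_neg_of_add_eq_zero_left this]
    exact neg_mem (Submodule.sum_mem _ fun i _ =>
      Ideal.mul_mem_right _ _ (Ideal.subset_span ⟨i, rfl⟩))
  choose e he using fun j => Ideal.mem_span_range_iff_exists_fun.1 (hb j)
  have hc : ∀ k, ∃ c : Fin l → V, ∑ i, c i * f i = g k * a := fun k =>
    Ideal.mem_span_range_iff_exists_fun.1 ((hg _).2 (Ideal.subset_span ⟨k, rfl⟩))
  choose c hc using hc
  refine ⟨c, fun k => ∑ j, e j k • y j, fun k => ?_, ?_, ?_⟩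
  · rw [mul_comm, ← hc k]
    exact Finset.sum_congr rfl fun i _ => mul_comm _ _
  · have h0 := h1 0
    simp only [Fin.cons_zero] at h0
    simp only [Finset.smul_sum, smul_smul]
    rw [Finset.sum_comm, h0]
    refine Finset.sum_congr rfl fun j _ => ?_
    rw [← Finset.sum_smul, ← he j]
    congr 1
    exact Finset.sum_congr rfl fun k _ => mul_comm _ _
  · have key : (x + fun i => ∑ k, c k i • ∑ j, e j k • y j) =
        ∑ j, fun i => (b (Fin.succ i) j + ∑ k, c k i * e j k) • y j := funext fun i => by
      have h0 := h1 (Fin.succ i)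
      simp only [Fin.cons_succ] at h0
      simp only [Pi.add_apply, Finset.sum_apply, h0, add_smul, Finset.sum_add_distrib,
        Finset.smul_sum, smul_smul, Finset.sum_smul]
      rw [Finset.sum_comm]
    rw [key]
    refine Submodule.sum_mem _ fun j _ => smul_mem_trivRel _ _ ?_
    simp only [mul_add, Finset.sum_add_distrib, Finset.mul_sum]
    have := h2 j
    rw [Fin.sum_univ_succ] at this
    simp only [Fin.cons_zero, Fin.cons_succ] at this
    rw [Finset.sum_comm, show ∑ k, ∑ i, f i * (c k i * e j k) = a * b 0 j by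
      rw [← he j, Finset.mul_sum]
      refine Finset.sum_congr rfl fun k _ => ?_
      calc ∑ i, f i * (c k i * e j k) = (∑ i, c k i * f i) * e j k := by
            rw [Finset.sum_mul]
            exact Finset.sum_congr rfl fun i _ => by ring
        _ = _ := by rw [hc k]; ring, add_comm]
    exact this

/-- The local criterion of flatness. -/
theorem flat_of_trivialOn_maximalIdeal [IsNoetherianRing V] [IsLocalRing V] [IsNoetherianRing W]
    [IsLocalRing W] [IsLocalHom (algebraMap V W)] [Module.Finite W M] {d : ℕ} {x₀ : Fin d → V}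
    (hx₀ : Ideal.span (Set.range x₀) = maximalIdeal V) (h : TrivialOn W M x₀) :
    Module.Flat V M := by
  suffices key : ∀ (I : Ideal V) {l : ℕ} (f : Fin l → V), Ideal.span (Set.range f) = I →
      TrivialOn W M f from
    Module.Flat.of_forall_isTrivialRelation fun {l f x} hx =>
      isTrivialRelation_of_mem (key _ f rfl x hx)
  intro I
  induction I using IsNoetherian.induction with
  | hgt I ih =>
  intro l f hf
  by_cases htop : I = ⊤
  · exact trivialOn_of_isUnit (hf.trans htop)
  by_cases hmax : I = maximalIdeal V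
  · exact h.of_span_eq (by rw [hf, hmax, hx₀])
  obtain ⟨a, ham, haI⟩ : ∃ a ∈ maximalIdeal V, a ∉ I :=
    SetLike.not_le_iff_exists.1 fun hle =>
      hmax (le_antisymm (IsLocalRing.le_maximalIdeal htop) hle)
  have hbig : ∀ {J : Ideal V}, I ≤ J → a ∈ J → I < J := fun hle ha =>
    lt_of_le_of_ne hle fun e => haI (e ▸ ha)
  have hfa : TrivialOn W M (Fin.cons a f) := by
    refine ih (Ideal.span (Set.range (Fin.cons a f : Fin (l + 1) → V))) ?_ _ rfl
    refine hbig (hf ▸ Ideal.span_mono ?_) (Ideal.subset_span ⟨0, by simp⟩)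
    rintro _ ⟨i, rfl⟩
    exact ⟨i.succ, by simp⟩
  let J : Ideal V := Submodule.comap (LinearMap.mulRight V a) I
  have hIJ : I ≤ J := fun b hb => Ideal.mul_mem_right a I hb
  intro x hx
  by_cases hJ : J = I
  · -- `a` is regular modulo `I`: Nakayama
    let φ : (Fin l → M) →ₗ[W] M :=
      { toFun := fun v => ∑ i, f i • v i
        map_add' := fun v v' => by simp [smul_add, Finset.sum_add_distrib]
        map_smul' := fun w v => by
          simp only [Pi.smul_apply, RingHom.id_apply, Finset.smul_sum]
          exact Finset.sum_congr rfl fun i _ => smul_comm _ _ _ }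
    have hR : LinearMap.ker φ ≤
        trivRel W f ⊔ Ideal.span {algebraMap V W a} • LinearMap.ker φ := by
      intro x hx
      obtain ⟨c, u, hc, hu, hmem⟩ := mem_trivRel_sup_smul (g := f)
        (fun b => by
          rw [hf]
          exact (show b ∈ J ↔ b ∈ I by rw [hJ])) hfa (LinearMap.mem_ker.1 hx)
      -- `a f = f c`, so `c - a` consists of relations
      have h1 : ∀ k, (fun i => (c k i - (if i = k then a else 0)) • u k) ∈ trivRel W f :=
        fun k => smul_mem_trivRel _ _ (by
          simp only [mul_sub, Finset.sum_sub_distrib, mul_ite, mul_zero, Finset.sum_ite_eq',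
            Finset.mem_univ, if_true, ← hc k]
          ring)
      refine Submodule.mem_sup.2 ⟨(x + fun i => ∑ k, c k i • u k) -
        ∑ k, (fun i => (c k i - (if i = k then a else 0)) • u k),
        sub_mem hmem (Submodule.sum_mem _ fun k _ => h1 k),
        -(algebraMap V W a • u), ?_, funext fun i => ?_⟩
      · exact neg_mem (Submodule.smul_mem_smul (Ideal.mem_span_singleton_self _)
          (LinearMap.mem_ker.2 hu))
      · simp only [Pi.add_apply, Pi.sub_apply, Finset.sum_apply, sub_smul, ite_smul, zero_smul,
          Finset.sum_sub_distrib, Finset.sum_ite_eq, Finset.mem_univ, if_true, Pi.neg_apply,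
          Pi.smul_apply, algebraMap_smul]
        abel
    have hle : Ideal.span {algebraMap V W a} ≤ Ideal.jacobson ⊥ := by
      rw [IsLocalRing.jacobson_eq_maximalIdeal ⊥ bot_ne_top, Ideal.span_singleton_le_iff_mem]
      exact map_nonunit _ a ham
    exact Submodule.le_of_le_smul_of_le_jacobson_bot (IsNoetherian.noetherian _) hle hR
      (LinearMap.mem_ker.2 hx)
  · have hJlt : I < J := lt_of_le_of_ne hIJ (Ne.symm hJ)
    obtain ⟨n, g, hg⟩ := Submodule.fg_iff_exists_fin_generating_family.1
      (IsNoetherian.noetherian J)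
    obtain ⟨c, u, hc, hu, hmem⟩ := mem_trivRel_sup_smul (g := g)
      (fun b => by
        rw [hf]
        exact (show b ∈ J ↔ b ∈ Ideal.span (Set.range g) by rw [← hg])) hfa hx
    have hut : u ∈ trivRel W g := ih J hJlt g hg u hu
    let C : (Fin n → M) →ₗ[W] (Fin l → M) :=
      { toFun := fun v i => ∑ k, c k i • v k
        map_add' := fun v v' => funext fun i => by simp [smul_add, Finset.sum_add_distrib]
        map_smul' := fun w v => funext fun i => by
          simp only [Pi.smul_apply, RingHom.id_apply, Finset.smul_sum]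
          exact Finset.sum_congr rfl fun j _ => smul_comm _ _ _ }
    have hCu : C u ∈ trivRel W f := by
      have := Submodule.mem_map_of_mem (f := C) hut
      rw [trivRel, Submodule.map_span] at this
      refine (Submodule.span_le.2 ?_) this
      rintro _ ⟨_, ⟨b, y, hb, rfl⟩, rfl⟩
      have heq : C (fun j => b j • y) = fun i => (∑ k, c k i * b k) • y :=
        funext fun i => by simp [C, Finset.sum_smul, smul_smul]
      rw [heq]
      refine smul_mem_trivRel _ y ?_
      simp only [Finset.mul_sum]
      rw [Finset.sum_comm, ← mul_zero a, ← hb, Finset.mul_sum]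
      refine Finset.sum_congr rfl fun k _ => ?_
      rw [← mul_assoc a, hc k, Finset.sum_mul]
      exact Finset.sum_congr rfl fun i _ => by ring
    exact (Submodule.add_mem_iff_left _ hCu).1 hmem

end Vale.Agent.P202.Imperfect
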