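import Vale.Agent.P202.Imperfect.Resolution
import Vale.Agent.P202.Imperfect.Base
import Vale.Agent.P202.Reduce.FlatInvariant

/-!
# P202 imperfect residue fields: resolutions over the base change of the parameter rings

The closed fibre of `A → L[[X₁, ..., X_D]] ⊗[k[[X₁, ..., X_d]]] A` is a power series ring in
`D - d` variables, so a finite module flat over `A` has a resolution of that length.
-/

noncomputable section

namespace Vale.Agent.P202.Imperfect

open IsLocalRing TensorProduct MvPowerSeries

attribute [local instance] Algebra.TensorProduct.rightAlgebra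

universe u

/-- A factor of a flat map through a map generating the maximal ideal is flat. -/
theorem flat_of_comp_flat {R A T : Type u} [CommRing R] [IsNoetherianRing R] [IsLocalRing R]
    [CommRing A] [IsNoetherianRing A] [IsLocalRing A] [CommRing T] [IsNoetherianRing T]
    [IsLocalRing T] (f : R →+* A) (g : A →+* T) (hm : (maximalIdeal R).map f = maximalIdeal A)
    (hloc : IsLocalHom g) (hflat : (g.comp f).Flat) : g.Flat := by
  let : Algebra R T := (g.comp f).toAlgebra
  let : Algebra A T := g.toAlgebra
  have : Module.Flat R T := hflat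
  have : IsLocalHom (algebraMap A T) := hloc
  obtain ⟨n, x, hx⟩ := Submodule.fg_iff_exists_fin_generating_family.1
    (IsNoetherian.noetherian (maximalIdeal R))
  have hx' : Ideal.span (Set.range fun i => f (x i)) = maximalIdeal A := by
    rw [← hm, ← hx, show Submodule.span R (Set.range x) = Ideal.span (Set.range x) from rfl,
      Ideal.map_span, ← Set.range_comp]
    rfl
  have hsm : ∀ (a : R) (t : T), f a • t = a • t := fun a t => by
    rw [Algebra.smul_def, Algebra.smul_def, RingHom.algebraMap_toAlgebra,
      RingHom.algebraMap_toAlgebra, RingHom.comp_apply]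
  show Module.Flat A T
  refine flat_of_trivialOn_maximalIdeal (W := T) hx' fun m hm' => ?_
  have h0 : ∑ i, x i • m i = 0 :=
    (Finset.sum_congr rfl fun i _ => (hsm (x i) (m i)).symm).trans hm'
  have htr : Module.IsTrivialRelation x m :=
    Module.Flat.isTrivialRelation_of_sum_smul_eq_zero (R := R) (M := T) h0
  obtain ⟨k, a, y, h1, h2⟩ := htr
  have hmeq : m = ∑ j, fun i => f (a i j) • y j := funext fun i => by
    rw [Finset.sum_apply, h1]
    exact Finset.sum_congr rfl fun j _ => (hsm (a i j) (y j)).symm
  rw [hmeq]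
  refine Submodule.sum_mem _ fun j _ =>
    smul_mem_trivRel (W := T) (M := T) (fun i => f (a i j)) (y j) ?_
  rw [← map_zero f, ← h2 j, map_sum]
  simp only [map_mul]

/-- The projection to the last variables; maps killing the first variables factor through it. -/
theorem exists_projection (L : Type u) [Field L] (d s : ℕ) :
    ∃ ρ : PS L (d + s) →+* PS L s, Function.Surjective ρ ∧
      (∀ i, ρ (X (Fin.castAdd s i)) = 0) ∧
      ∀ (Q : Type u) [CommRing Q] [IsLocalRing Q] [IsNoetherianRing Q] (f : PS L (d + s) →+* Q),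
        (∀ i, f (X (Fin.castAdd s i)) = 0) → (∀ i, f (X i) ∈ maximalIdeal Q) →
        ∀ w, ρ w = 0 → f w = 0 := by
  classical
  let W := PS L (d + s)
  let F := PS L s
  have hFc : IsAdicComplete (maximalIdeal F) F := by
    rw [maximalIdeal_mvPowerSeries]; infer_instance
  let x : Fin (d + s) → F := Fin.append (0 : Fin d → F) X
  have hxm : ∀ i, x i ∈ maximalIdeal F := by
    refine Fin.addCases (fun i => ?_) fun i => ?_
    · rw [show x (Fin.castAdd s i) = 0 from Fin.append_left _ _ i]
      exact zero_mem _
    · rw [show x (Fin.natAdd d i) = X i from Fin.append_right _ _ i, maximalIdeal_mvPowerSeries]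
      exact Ideal.subset_span ⟨i, rfl⟩
  obtain ⟨ρ, hρC, hρX, -⟩ := exists_evalHom (C : L →+* F) x hxm
  have hρl : ∀ i, ρ (X (Fin.castAdd s i)) = 0 := fun i =>
    (hρX _).trans (Fin.append_left _ _ i)
  have hρr : ∀ i, ρ (X (Fin.natAdd d i)) = X i := fun i =>
    (hρX _).trans (Fin.append_right _ _ i)
  refine ⟨ρ, ?_, hρl, fun Q _ _ _ f hf hfm w hw => ?_⟩
  · refine surjective_powerSeriesHom ρ (fun a => ⟨constantCoeff a, ?_⟩) (le_antisymm ?_ ?_)
    · rw [hρC, mem_maximalIdeal, mem_nonunits_iff, isUnit_iff_constantCoeff]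
      simp
    · rw [maximalIdeal_mvPowerSeries, Ideal.span_le]
      rintro _ ⟨i, rfl⟩
      exact Ideal.subset_span ⟨Fin.natAdd d i, hρr i⟩
    · rw [Ideal.span_le]
      rintro _ ⟨i, rfl⟩
      show ρ (X i) ∈ maximalIdeal F
      rw [hρX]
      exact hxm i
  · have hWc : IsAdicComplete (maximalIdeal W) W := by
      rw [maximalIdeal_mvPowerSeries]; infer_instance
    obtain ⟨sec, hsC, hsX, -⟩ := exists_evalHom (C : L →+* W)
      (fun i : Fin s => (X (Fin.natAdd d i) : W)) fun i => by
        rw [maximalIdeal_mvPowerSeries]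
        exact Ideal.subset_span ⟨_, rfl⟩
    have hmk : f = f.comp (sec.comp ρ) := by
      refine ringHom_ext_powerSeries (T := Q) (fun c => ?_) (fun i => ?_) hfm
      · rw [RingHom.comp_apply f, RingHom.comp_apply sec, hρC, hsC]
      · refine Fin.addCases (fun i => ?_) (fun i => ?_) i
        · rw [RingHom.comp_apply f (sec.comp ρ), RingHom.comp_apply sec, hρl, map_zero, map_zero,
            hf]
        · rw [RingHom.comp_apply f (sec.comp ρ), RingHom.comp_apply sec, hρr, hsX]
    rw [hmk, RingHom.comp_apply, RingHom.comp_apply, hw, map_zero, map_zero]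

/-- Finite modules flat over `A` have resolutions of length `D - d`. -/
theorem finRes_baseChange {L A T : Type u} [Field L] [CommRing A] [IsNoetherianRing A]
    [IsLocalRing A] {d s : ℕ} [Algebra (PS (ResidueField A) d) (PS L (d + s))]
    [Module.Flat (PS (ResidueField A) d) (PS L (d + s))]
    [Algebra (PS (ResidueField A) d) A] [Module.Finite (PS (ResidueField A) d) A]
    [IsLocalRing (PS L (d + s) ⊗[PS (ResidueField A) d] A)]
    (hBmax : maximalIdeal (PS L (d + s) ⊗[PS (ResidueField A) d] A) =
      (maximalIdeal (PS L (d + s))).map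
          (algebraMap (PS L (d + s)) (PS L (d + s) ⊗[PS (ResidueField A) d] A)) ⊔
        (maximalIdeal A).map (Algebra.TensorProduct.includeRight :
          A →ₐ[PS (ResidueField A) d] PS L (d + s) ⊗[PS (ResidueField A) d] A).toRingHom)
    (hvX : ∀ i, algebraMap (PS (ResidueField A) d) (PS L (d + s)) (X i) = X (Fin.castAdd s i))
    (hAC : ∀ c, residue A (algebraMap (PS (ResidueField A) d) A (C c)) = c)
    (hAX : ∀ i, algebraMap (PS (ResidueField A) d) A (X i) ∈ maximalIdeal A)
    [CommRing T] [Algebra A T] [Algebra (PS L (d + s) ⊗[PS (ResidueField A) d] A) T]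
    [IsScalarTower A (PS L (d + s) ⊗[PS (ResidueField A) d] A) T]
    [Module.Finite (PS L (d + s) ⊗[PS (ResidueField A) d] A) T] [Module.Flat A T] :
    Diag.FinRes (PS L (d + s) ⊗[PS (ResidueField A) d] A) s T := by
  classical
  let V := PS (ResidueField A) d
  let W := PS L (d + s)
  let B := W ⊗[V] A
  let F := PS L s
  have : IsNoetherianRing B := IsNoetherianRing.of_finite W B
  have : Module.Flat A B :=
    Module.Flat.isBaseChange V A W B (inferInstance : Algebra.IsPushout V A W B).out
  obtain ⟨ρ, hρsurj, hρl, hfac⟩ := exists_projection L d s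
  let σ : ResidueField A →+* F := (ρ.comp (algebraMap V W)).comp C
  have hρv : ρ.comp (algebraMap V W) = (σ.comp (residue A)).comp (algebraMap V A) := by
    refine ringHom_ext_powerSeries (fun c => ?_) (fun i => ?_) fun i => ?_
    · exact congrArg (fun q => ρ (algebraMap V W (C q))) (hAC c).symm
    · simp only [RingHom.comp_apply]
      rw [hvX, hρl, (residue_eq_zero_iff _).2 (hAX i), map_zero]
    · rw [RingHom.comp_apply, hvX, hρl]
      exact zero_mem _
  let : Algebra V F := (ρ.comp (algebraMap V W)).toAlgebra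
  let ρW : W →ₐ[V] F := { ρ with commutes' := fun _ => rfl }
  let ρA : A →ₐ[V] F :=
    { σ.comp (residue A) with commutes' := fun v => (RingHom.congr_fun hρv v).symm }
  let π : B →+* F := (Algebra.TensorProduct.productMap ρW ρA).toRingHom
  have hπW : ∀ w, π (algebraMap W B w) = ρ w := fun w => by
    show Algebra.TensorProduct.productMap ρW ρA (w ⊗ₜ[V] 1) = _
    rw [Algebra.TensorProduct.productMap_apply_tmul, map_one, mul_one]
    rfl
  have hπA : ∀ a, π (algebraMap A B a) = σ (residue A a) := fun a => by
    show Algebra.TensorProduct.productMap ρW ρA ((1 : W) ⊗ₜ[V] a) = _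
    rw [Algebra.TensorProduct.productMap_apply_tmul, map_one, one_mul]
    rfl
  have hπsurj : Function.Surjective π := fun f => by
    obtain ⟨w, hw⟩ := hρsurj f
    exact ⟨algebraMap W B w, (hπW w).trans hw⟩
  -- the kernel
  let J : Ideal B := (maximalIdeal A).map (algebraMap A B)
  have hJ : J ≤ maximalIdeal B := by
    rw [hBmax]
    exact le_sup_right
  have : IsLocalRing (B ⧸ J) :=
    have : Nontrivial (B ⧸ J) := Ideal.Quotient.nontrivial_iff.2
      (ne_top_of_le_ne_top (maximalIdeal.isMaximal B).ne_top hJ)
    IsLocalRing.of_surjective' (Ideal.Quotient.mk J) Ideal.Quotient.mk_surjective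
  have hJπ : J ≤ RingHom.ker π := Ideal.map_le_iff_le_comap.2 fun a ha => by
    rw [Ideal.mem_comap, RingHom.mem_ker, hπA, (residue_eq_zero_iff a).2 ha, map_zero]
  have hdec : ∀ b : B, ∃ w : W, b - algebraMap W B w ∈ J := by
    intro b
    induction b using TensorProduct.induction_on with
    | zero => exact ⟨0, by simp⟩
    | tmul w a =>
      refine ⟨w * algebraMap V W (C (residue A a)), ?_⟩
      have h1 : w ⊗ₜ[V] a - algebraMap W B (w * algebraMap V W (C (residue A a))) =
          algebraMap W B w * algebraMap A B (a - algebraMap V A (C (residue A a))) := by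
        rw [map_mul, map_sub, mul_sub, ← IsScalarTower.algebraMap_apply V W B,
          ← IsScalarTower.algebraMap_apply V A B]
        congr 1
        show _ = (w ⊗ₜ[V] (1 : A)) * ((1 : W) ⊗ₜ[V] a)
        rw [Algebra.TensorProduct.tmul_mul_tmul, mul_one, one_mul]
      rw [h1]
      refine Ideal.mul_mem_left _ _ (Ideal.mem_map_of_mem _ ((residue_eq_zero_iff _).1 ?_))
      rw [map_sub, hAC, sub_self]
    | add b b' hb hb' =>
      obtain ⟨w, hw⟩ := hb
      obtain ⟨w', hw'⟩ := hb'
      refine ⟨w + w', ?_⟩
      rw [map_add, add_sub_add_comm]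
      exact add_mem hw hw'
  let mkW : W →+* B ⧸ J := (Ideal.Quotient.mk J).comp (algebraMap W B)
  have hmk0 : ∀ i, mkW (X (Fin.castAdd s i)) = 0 := fun i => by
    show Ideal.Quotient.mk J (algebraMap W B (X (Fin.castAdd s i))) = 0
    rw [Ideal.Quotient.eq_zero_iff_mem, ← hvX, ← IsScalarTower.algebraMap_apply V W B,
      IsScalarTower.algebraMap_apply V A B]
    exact Ideal.mem_map_of_mem _ (hAX i)
  have hmkm : ∀ i, mkW (X i) ∈ maximalIdeal (B ⧸ J) := fun i => by
    have hmap := IsLocalRing.map_maximalIdeal_of_surjective (R := B) (S := B ⧸ J)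
      (Ideal.Quotient.mk J) Ideal.Quotient.mk_surjective
    refine hmap ▸ Ideal.mem_map_of_mem (Ideal.Quotient.mk J) ?_
    rw [hBmax]
    refine Ideal.mem_sup_left (Ideal.mem_map_of_mem _ ?_)
    rw [maximalIdeal_mvPowerSeries]
    exact Ideal.subset_span ⟨i, rfl⟩
  have hker : RingHom.ker π = J := le_antisymm (fun b hb => by
    obtain ⟨w, hw⟩ := hdec b
    have h0 : ρ w = 0 := by
      have := RingHom.mem_ker.1 (hJπ hw)
      rw [map_sub, RingHom.mem_ker.1 hb, hπW, zero_sub, neg_eq_zero] at this
      exact this
    have h1 : algebraMap W B w ∈ J := by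
      rw [← Ideal.Quotient.eq_zero_iff_mem]
      exact hfac (B ⧸ J) mkW hmk0 hmkm w h0
    simpa using add_mem hw h1) hJπ
  exact exists_finRes_of_fibre (maximalIdeal A) π hπsurj hker hJ
    (fun Q => Diag.exists_finRes L s Q) T

end Vale.Agent.P202.Imperfect
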