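import Vale.Agent.P202.Imperfect.Twist

/-!
# P202 imperfect residue fields: power series are free over their `q`-th powers

Over a perfect field, the monomials with exponents below `q` form a basis of the power series ring
through its Frobenius.
-/

noncomputable section

namespace Vale.Agent.P202.Imperfect

open MvPowerSeries

universe u

variable (p n : ℕ) [Fact p.Prime] {L : Type u} [Field L] [CharP L p] [PerfectRing L p] {D : ℕ}

instance charPPowerSeries : CharP (MvPowerSeries (Fin D) L) p :=
  charP_of_injective_algebraMap (algebraMap L (MvPowerSeries (Fin D) L)).injective p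

omit [PerfectRing L p] in
/-- Coefficients of a `q`-th power. -/
theorem coeff_pow_frobenius (f : MvPowerSeries (Fin D) L) (t : Fin D →₀ ℕ) :
    coeff t (f ^ p ^ n) =
      if ∀ i, p ^ n ∣ t i then
        iterateFrobenius L p n
          (coeff (Finsupp.equivFunOnFinite.symm fun i => t i / p ^ n) f)
      else 0 := by
  have hp : p ≠ 0 := (Fact.out : p.Prime).ne_zero
  rw [← map_iterateFrobenius_expand p hp f n, coeff_map]
  split_ifs with h
  · congr 1
    conv_lhs => rw [show t = p ^ n • (Finsupp.equivFunOnFinite.symm fun i => t i / p ^ n) by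
      ext i
      simp [Nat.mul_div_cancel' (h i)]]
    exact coeff_expand_smul _ _ f _
  · push Not at h
    obtain ⟨i, hi⟩ := h
    rw [coeff_expand_of_not_dvd _ _ f hi, map_zero]

/-- The exponent vector of an index. -/
def expVec (a : Fin D → Fin (p ^ n)) : Fin D →₀ ℕ :=
  Finsupp.equivFunOnFinite.symm fun i => (a i : ℕ)

omit [Fact p.Prime] in
theorem expVec_apply (a : Fin D → Fin (p ^ n)) (i : Fin D) : expVec p n a i = a i := rfl

/-- The residues of an exponent vector. -/
def residVec (t : Fin D →₀ ℕ) : Fin D → Fin (p ^ n) := fun i =>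
  ⟨t i % p ^ n, Nat.mod_lt _ (pow_pos (Fact.out : p.Prime).pos n)⟩

/-- The quotients of an exponent vector. -/
def quotVec (t : Fin D →₀ ℕ) : Fin D →₀ ℕ :=
  Finsupp.equivFunOnFinite.symm fun i => t i / p ^ n

theorem eq_residVec {a : Fin D → Fin (p ^ n)} {t : Fin D →₀ ℕ} (hle : expVec p n a ≤ t)
    (h : ∀ i, p ^ n ∣ (t - expVec p n a) i) : a = residVec p n t := by
  funext i
  refine Fin.ext ?_
  obtain ⟨c, hc⟩ := h i
  rw [Finsupp.tsub_apply, expVec_apply] at hc
  have h1 : (a i : ℕ) ≤ t i := hle i
  show (a i : ℕ) = t i % p ^ n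
  have h2 : t i = (a i : ℕ) + p ^ n * c := by omega
  rw [h2, Nat.add_mul_mod_self_left, Nat.mod_eq_of_lt (a i).2]

variable (L D) in
/-- Combinations of the monomials with exponents below `q`. -/
def monLin : ((Fin D → Fin (p ^ n)) → MvPowerSeries (Fin D) L) →ₗ[MvPowerSeries (Fin D) L]
    Frob p n (MvPowerSeries (Fin D) L) :=
  Fintype.linearCombination (MvPowerSeries (Fin D) L)
    fun a => Frob.of p n (monomial (expVec p n a) (1 : L))

omit [PerfectRing L p] in
theorem coeff_monLin (g : (Fin D → Fin (p ^ n)) → MvPowerSeries (Fin D) L) (t : Fin D →₀ ℕ) :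
    coeff t ((Frob.of p n).symm (monLin p n L D g)) =
      iterateFrobenius L p n (coeff (quotVec p n t) (g (residVec p n t))) := by
  classical
  rw [monLin, Fintype.linearCombination_apply, map_sum, map_sum]
  have hterm : ∀ a, (Frob.of p n).symm (g a • Frob.of p n (monomial (expVec p n a) (1 : L))) =
      g a ^ p ^ n * monomial (expVec p n a) 1 := fun a => by
    rw [Algebra.smul_def, Frob.algebraMap_def, map_mul, RingEquiv.symm_apply_apply,
      RingEquiv.symm_apply_apply, iterateFrobenius_def, Algebra.algebraMap_self, RingHom.id_apply]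
  simp only [hterm, coeff_mul_monomial, mul_one, coeff_pow_frobenius]
  have hle : expVec p n (residVec p n t) ≤ t := fun i => Nat.mod_le _ _
  have hdvd : ∀ i, p ^ n ∣ (t - expVec p n (residVec p n t)) i := fun i => by
    rw [Finsupp.tsub_apply]
    exact Nat.dvd_sub_mod (t i)
  rw [Finset.sum_eq_single (residVec p n t) (fun a _ ha => ?_) (by simp), if_pos hle, if_pos hdvd]
  · congr 3
    ext i
    show (t - expVec p n (residVec p n t)) i / p ^ n = t i / p ^ n
    rw [Finsupp.tsub_apply]
    show (t i - t i % p ^ n) / p ^ n = _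
    rw [show t i - t i % p ^ n = p ^ n * (t i / p ^ n) by
      have := Nat.mod_add_div (t i) (p ^ n)
      omega, Nat.mul_div_cancel_left _ (pow_pos (Fact.out : p.Prime).pos n)]
  · split_ifs with h1 h2
    · exact absurd (eq_residVec p n h1 h2) ha
    · rfl
    · rfl

variable (L D) in
/-- Power series over a perfect field are free over their `q`-th powers, of rank `q ^ D`. -/
theorem exists_basis_frob :
    Nonempty (Module.Basis (Fin D → Fin (p ^ n)) (MvPowerSeries (Fin D) L)
      (Frob p n (MvPowerSeries (Fin D) L))) := by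
  refine ⟨Module.Basis.ofEquivFun (LinearEquiv.ofBijective (monLin p n L D) ⟨?_, ?_⟩).symm⟩
  · rw [injective_iff_map_eq_zero]
    intro g hg
    funext a
    ext u
    have h := coeff_monLin p n g (p ^ n • u + expVec p n a)
    rw [hg, map_zero, map_zero] at h
    have h1 : residVec p n (p ^ n • u + expVec p n a) = a := funext fun i => Fin.ext <| by
      show (p ^ n * u i + (a i : ℕ)) % p ^ n = a i
      rw [Nat.mul_add_mod, Nat.mod_eq_of_lt (a i).2]
    have h2 : quotVec p n (p ^ n • u + expVec p n a) = u := Finsupp.ext fun i => by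
      show (p ^ n * u i + (a i : ℕ)) / p ^ n = u i
      rw [Nat.mul_add_div (pow_pos (Fact.out : p.Prime).pos n), Nat.div_eq_of_lt (a i).2, add_zero]
    rw [h1, h2] at h
    exact (map_eq_zero (iterateFrobenius L p n)).1 h.symm
  · intro f
    let f₀ : MvPowerSeries (Fin D) L := (Frob.of p n).symm f
    let g : (Fin D → Fin (p ^ n)) → MvPowerSeries (Fin D) L := fun a u =>
      (iterateFrobeniusEquiv L p n).symm (coeff (p ^ n • u + expVec p n a) f₀)
    refine ⟨g, (Frob.of p n).symm.injective ?_⟩
    ext t
    rw [coeff_monLin]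
    show iterateFrobenius L p n ((iterateFrobeniusEquiv L p n).symm
      (coeff (p ^ n • quotVec p n t + expVec p n (residVec p n t)) f₀)) = _
    rw [show p ^ n • quotVec p n t + expVec p n (residVec p n t) = t from Finsupp.ext fun i =>
      Nat.div_add_mod (t i) (p ^ n)]
    exact (iterateFrobeniusEquiv L p n).apply_symm_apply _

omit [Fact p.Prime] in
theorem card_index : Fintype.card (Fin D → Fin (p ^ n)) = (p ^ n) ^ D := by simp

end Vale.Agent.P202.Imperfect
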