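import Vale.Agent.P202.Reduce.CoeffField

/-!
# P202 imperfect residue fields: lifting field maps along surjections of complete rings

A map `θ : k → T` from a field lifts along a surjection `π : W → T` when `W` is complete for
`ker π`: the preimage of `θ k` is a complete local ring with residue field `k`, so it has a
coefficient field.
-/

noncomputable section

namespace Vale.Agent.P202.Imperfect

open IsLocalRing

variable {W T k : Type*} [CommRing W] [CommRing T] [Field k] (π : W →+* T) (θ : k →+* T)

/-- The preimage of the image of `θ`. -/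
def overField : Subring W := θ.range.comap π

theorem mem_overField {w : W} : w ∈ overField π θ ↔ ∃ a, θ a = π w := Iff.rfl

theorem ker_subset_overField {w : W} (hw : w ∈ RingHom.ker π) : w ∈ overField π θ :=
  ⟨0, by rw [map_zero, RingHom.mem_ker.1 hw]⟩

/-- The kernel, as an ideal of the preimage. -/
def overKer : Ideal (overField π θ) := (RingHom.ker π).comap (overField π θ).subtype

theorem mem_overKer_pow : ∀ {n : ℕ}, 1 ≤ n → ∀ w : overField π θ,
    w ∈ overKer π θ ^ n ↔ (w : W) ∈ RingHom.ker π ^ n := by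
  intro n hn
  induction n, hn using Nat.le_induction with
  | base => intro w; rw [pow_one, pow_one]; rfl
  | succ n hn ih =>
    intro w
    constructor
    · intro hw
      rw [pow_succ] at hw ⊢
      refine Submodule.mul_induction_on hw (fun a ha b hb => ?_) fun a b ha hb => ?_
      · exact Ideal.mul_mem_mul ((ih a).1 ha) hb
      · exact add_mem ha hb
    · intro hw
      rw [pow_succ] at hw
      suffices h : ∀ x ∈ RingHom.ker π ^ n * RingHom.ker π,
          ∃ hx : x ∈ overField π θ, (⟨x, hx⟩ : overField π θ) ∈ overKer π θ ^ (n + 1) from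
        (h w hw).2
      intro x hx
      refine Submodule.mul_induction_on hx (fun a ha b hb => ?_) fun a b ha hb => ?_
      · have haP := ker_subset_overField π θ (Ideal.pow_le_self (by omega) ha)
        refine ⟨mul_mem haP (ker_subset_overField π θ hb), ?_⟩
        rw [pow_succ]
        exact Ideal.mul_mem_mul ((ih ⟨a, haP⟩).2 ha)
          (show (⟨b, ker_subset_overField π θ hb⟩ : overField π θ) ∈ overKer π θ from hb)
      · obtain ⟨ha, ha'⟩ := ha
        obtain ⟨hb, hb'⟩ := hb
        exact ⟨add_mem ha hb, add_mem ha' hb'⟩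

theorem isUnit_of_notMem_overKer (hπ : Function.Surjective π)
    [IsAdicComplete (RingHom.ker π) W] {w : overField π θ} (hne : w ∉ overKer π θ) : IsUnit w := by
  obtain ⟨a, ha⟩ := (mem_overField π θ).1 w.2
  have ha0 : a ≠ 0 := fun h => hne (show π (w : W) = 0 by rw [← ha, h, map_zero])
  obtain ⟨v, hv⟩ := hπ (θ a⁻¹)
  have hk : (w : W) * v - 1 ∈ Ideal.jacobson (⊥ : Ideal W) :=
    IsAdicComplete.le_jacobson_bot (RingHom.ker π) (RingHom.mem_ker.2 (by
      rw [map_sub, map_mul, ← ha, hv, ← map_mul, mul_inv_cancel₀ ha0, map_one, map_one, sub_self]))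
  have hu : IsUnit ((w : W) * v) := by simpa using Ideal.mem_jacobson_bot.1 hk 1
  obtain ⟨u, hu⟩ := (IsUnit.mul_iff.1 hu).1
  have hinv : (↑u⁻¹ : W) ∈ overField π θ := by
    refine ⟨a⁻¹, ?_⟩
    have h1 : π (w : W) * π (↑u⁻¹ : W) = 1 := by rw [← map_mul, ← hu, Units.mul_inv, map_one]
    calc θ a⁻¹ = θ a⁻¹ * (θ a * π (↑u⁻¹ : W)) := by rw [ha, h1, mul_one]
      _ = π (↑u⁻¹ : W) := by rw [← mul_assoc, ← map_mul, inv_mul_cancel₀ ha0, map_one, one_mul]
  exact IsUnit.of_mul_eq_one (⟨↑u⁻¹, hinv⟩ : overField π θ)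
    (Subtype.ext (show (w : W) * ↑u⁻¹ = 1 by rw [← hu, Units.mul_inv]))

theorem isAdicComplete_overField [IsAdicComplete (RingHom.ker π) W] :
    IsAdicComplete (overKer π θ) (overField π θ) := by
  have hpow : ∀ n (w : overField π θ), w ∈ (overKer π θ ^ n • ⊤ : Ideal (overField π θ)) ↔
      (w : W) ∈ (RingHom.ker π ^ n • ⊤ : Ideal W) := by
    intro n w
    rw [smul_eq_mul, Ideal.mul_top, smul_eq_mul, Ideal.mul_top]
    rcases Nat.eq_zero_or_pos n with rfl | hn
    · simp
    · exact mem_overKer_pow π θ hn w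
  have : IsHausdorff (overKer π θ) (overField π θ) := ⟨fun w hw => Subtype.ext
    (IsHausdorff.haus' (I := RingHom.ker π) (w : W) fun n =>
      SModEq.zero.2 ((hpow n w).1 (SModEq.zero.1 (hw n))))⟩
  have : IsPrecomplete (overKer π θ) (overField π θ) := by
    refine ⟨fun f hf => ?_⟩
    obtain ⟨L, hL⟩ := IsPrecomplete.prec' (I := RingHom.ker π) (fun n => (f n : W)) fun {m n} h =>
      SModEq.sub_mem.2 ((hpow m (f m - f n)).1 (SModEq.sub_mem.1 (hf h)))
    have hLP : L ∈ overField π θ := by
      have h1 := SModEq.sub_mem.1 (hL 1)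
      rw [pow_one, smul_eq_mul, Ideal.mul_top] at h1
      rw [show L = (f 1 : W) - ((f 1 : W) - L) from (sub_sub_cancel _ _).symm]
      exact sub_mem (f 1).2 (ker_subset_overField π θ h1)
    exact ⟨⟨L, hLP⟩, fun n => SModEq.sub_mem.2 ((hpow n _).2 (SModEq.sub_mem.1 (hL n)))⟩
  exact {}

/-- Field maps lift along surjections of complete rings of characteristic `p`. -/
theorem exists_lift_of_surjective (p : ℕ) [Fact p.Prime] [CharP W p] [Nontrivial T]
    (hπ : Function.Surjective π) [IsAdicComplete (RingHom.ker π) W] :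
    ∃ θ' : k →+* W, π.comp θ' = θ := by
  let P := overField π θ
  have hone : (1 : P) ∉ overKer π θ := fun h => one_ne_zero (α := T) (by
    have h' : π ((1 : P) : W) = 0 := h
    simp at h')
  have : Nontrivial P := ⟨⟨1, 0, fun h => hone (h ▸ zero_mem _)⟩⟩
  have hloc : IsLocalRing P := IsLocalRing.of_nonunits_add fun a b ha hb => fun hab => by
    have hmem : ∀ c : P, c ∈ nonunits P → c ∈ overKer π θ := fun c hc =>
      by_contra fun h => hc (isUnit_of_notMem_overKer π θ hπ h)
    exact hone (Ideal.eq_top_of_isUnit_mem _ (add_mem (hmem a ha) (hmem b hb)) hab ▸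
      Submodule.mem_top)
  have hmax : maximalIdeal P = overKer π θ := by
    ext w
    refine ⟨fun hw => by_contra fun h => hw (isUnit_of_notMem_overKer π θ hπ h), fun hw hu => ?_⟩
    exact hone (Ideal.eq_top_of_isUnit_mem _ hw hu ▸ Submodule.mem_top)
  have : IsAdicComplete (maximalIdeal P) P := hmax ▸ isAdicComplete_overField π θ
  have : CharP P p := CharP.subring W p P
  obtain ⟨σ, hσ⟩ := exists_coefficientField' P p
  have hres : ∀ w : P, ∃ a, θ a = π (w : W) := fun w => (mem_overField π θ).1 w.2
  let e : k →+* θ.range := θ.rangeRestrict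
  let g : P →+* θ.range := (π.comp P.subtype).codRestrict _ fun w => hres w
  have he : Function.Bijective e := ⟨fun a b h => θ.injective (congrArg Subtype.val h),
    θ.rangeRestrict_surjective⟩
  let q : P →+* k := (RingEquiv.ofBijective e he).symm.toRingHom.comp g
  have hq : ∀ w : P, θ (q w) = π (w : W) := fun w =>
    congrArg Subtype.val ((RingEquiv.ofBijective e he).apply_symm_apply (g w))
  have hqker : ∀ w ∈ maximalIdeal P, q w = 0 := fun w hw => θ.injective (by
    rw [hq, map_zero]
    exact (hmax ▸ hw : w ∈ overKer π θ))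
  let q' : ResidueField P →+* k := Ideal.Quotient.lift _ q hqker
  have hq' : Function.Bijective q' := by
    refine ⟨q'.injective, fun a => ?_⟩
    obtain ⟨w, hw⟩ := hπ (θ a)
    exact ⟨residue P ⟨w, a, hw.symm⟩, θ.injective ((hq _).trans hw)⟩
  let ε := RingEquiv.ofBijective q' hq'
  refine ⟨P.subtype.comp (σ.comp ε.symm.toRingHom), RingHom.ext fun a => ?_⟩
  show π ((σ (ε.symm a) : P) : W) = θ a
  rw [← hq]
  congr 1
  show q' (residue P (σ (ε.symm a))) = a
  rw [hσ]
  exact ε.apply_symm_apply a

end Vale.Agent.P202.Imperfect
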