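import Vale.Agent.P202.Imperfect.Chart
import Vale.Agent.P202.Imperfect.Fibre
import Vale.Agent.P202.Imperfect.Lift
import Vale.Agent.P202.NC.Main
import Vale.Agent.P202.Reduce.General

/-!
# P202 imperfect residue fields: complete targets with finite length fibre

Lech's inequality for a flat map to a complete ring with algebraically closed residue field and
fibre of finite length, with no hypothesis on the residue field of the source but being infinite.
-/

noncomputable section

namespace Vale.Agent.P202.Imperfect

open IsLocalRing TensorProduct Filter MvPowerSeries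
open NC (exists_source_nc emult_le_liminf_hsSeq)
open scoped ENNReal

attribute [local instance] Algebra.TensorProduct.rightAlgebra

universe u

/-- The rank of a parametrisation of `A` is at most the symbol of a reduction in `T`. -/
theorem finrank_le_emult (p : ℕ) [Fact p.Prime] {L A T : Type u} [Field L] [CharP L p]
    [PerfectRing L p] [CommRing A] [IsNoetherianRing A] [IsLocalRing A] [CharP A p] {d : ℕ}
    [Algebra (PS (ResidueField A) d) A] [Module.Finite (PS (ResidueField A) d) A]
    (hAC : ∀ c, residue A (algebraMap (PS (ResidueField A) d) A (C c)) = c)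
    (hAX : ∀ i, algebraMap (PS (ResidueField A) d) A (X i) ∈ maximalIdeal A) {r₀ : ℕ}
    (hpow : ∀ N, maximalIdeal A ^ (N + r₀) ≤
      (maximalIdeal (PS (ResidueField A) d) ^ N).map (algebraMap (PS (ResidueField A) d) A))
    [CommRing T] [IsLocalRing T] [IsNoetherianRing T] [IsAdicComplete (maximalIdeal T) T]
    [Algebra L T] (hτ : ∀ t, ∃ c, t - algebraMap L T c ∈ maximalIdeal T) [Algebra A T]
    [Module.Flat A T] [IsLocalHom (algebraMap A T)] {r : ℕ}
    (hr : maximalIdeal T ^ r ≤ (maximalIdeal A).map (algebraMap A T))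
    {y : Fin d → T} (hy : ∀ i, y i ∈ maximalIdeal T)
    [Module.Finite L (T ⧸ Ideal.span (Set.range y))] (hE : 1 ≤ emult L (List.ofFn y) T) :
    (Module.finrank (PS (ResidueField A) d) A : ℤ) ≤ emult L (List.ofFn y) T := by
  classical
  let k := ResidueField A
  let V := PS k d
  obtain ⟨s, z₀, hz₀⟩ := Submodule.fg_iff_exists_fin_generating_family.1
    (IsNoetherian.noetherian (maximalIdeal T))
  let z : Fin (s + 1) → T := Fin.cons 0 z₀
  let σ : k →+* A := (algebraMap V A).comp C
  have : CharP k p := (RingHom.charP_iff σ σ.injective p).2 inferInstance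
  have hAXT : ∀ i, algebraMap A T (algebraMap V A (X i)) ∈ maximalIdeal T := fun i =>
    map_nonunit _ _ (hAX i)
  -- the presentation
  let W := PS L (d + (s + 1))
  let x : Fin (d + (s + 1)) → T := Fin.append (fun i => algebraMap A T (algebraMap V A (X i))) z
  have hxm : ∀ i, x i ∈ maximalIdeal T := by
    refine Fin.addCases (fun i => ?_) fun i => ?_
    · rw [show x (Fin.castAdd (s + 1) i) = _ from Fin.append_left _ _ i]
      exact hAXT i
    · rw [show x (Fin.natAdd d i) = z i from Fin.append_right _ _ i]
      refine Fin.cases ?_ (fun j => ?_) i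
      · exact zero_mem _
      · exact hz₀ ▸ Submodule.subset_span (Set.mem_range_self j)
  obtain ⟨π, hπC, hπX, -⟩ := exists_evalHom (algebraMap L T) x hxm
  have hπsurj : Function.Surjective π := by
    refine surjective_powerSeriesHom π (fun t => by simpa only [hπC] using hτ t)
      (le_antisymm ?_ ?_)
    · refine hz₀.ge.trans (Ideal.span_le.2 ?_)
      rintro _ ⟨j, rfl⟩
      refine Ideal.subset_span ⟨Fin.natAdd d j.succ, (hπX _).trans ?_⟩
      show Fin.append _ z (Fin.natAdd d j.succ) = z₀ j
      rw [Fin.append_right]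
      rfl
    · rw [Ideal.span_le]
      rintro _ ⟨i, rfl⟩
      show π (X i) ∈ maximalIdeal T
      rw [hπX]
      exact hxm i
  have hWc : IsAdicComplete (maximalIdeal W) W := by
    rw [maximalIdeal_mvPowerSeries]; infer_instance
  have : IsAdicComplete (RingHom.ker π) W :=
    isAdicComplete_of_le (IsLocalRing.le_maximalIdeal (RingHom.ker_ne_top π))
  obtain ⟨θ, hθ⟩ := exists_lift_of_surjective π ((algebraMap A T).comp σ) p hπsurj
  obtain ⟨v, hvC, hvX, hvl, hvf⟩ := exists_baseHom θ (Fin.castAdd (n := d) (s + 1))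
    (Fin.castAdd_injective d (s + 1))
  let : Algebra V W := v.toAlgebra
  have : IsLocalHom (algebraMap V W) := hvl
  have : Module.Flat V W := hvf
  have : IsLocalHom (algebraMap V A) := by
    refine ((IsLocalRing.local_hom_TFAE (algebraMap V A)).out 0 2).2 ?_
    rw [maximalIdeal_mvPowerSeries, Ideal.map_span, Ideal.span_le]
    rintro _ ⟨_, ⟨i, rfl⟩, rfl⟩
    exact hAX i
  let : Algebra V T := ((algebraMap A T).comp (algebraMap V A)).toAlgebra
  have : IsScalarTower V A T := IsScalarTower.of_algebraMap_eq fun _ => rfl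
  have hπv : π.comp v = (algebraMap A T).comp (algebraMap V A) := by
    refine ringHom_ext_powerSeries (fun c => ?_) (fun i => ?_) fun i => ?_
    · rw [RingHom.comp_apply, hvC]
      exact RingHom.congr_fun hθ c
    · rw [RingHom.comp_apply, hvX, hπX]
      exact Fin.append_left _ _ i
    · rw [RingHom.comp_apply, hvX, hπX]
      exact hxm _
  let πV : W →ₐ[V] T := { π with commutes' := fun c => RingHom.congr_fun hπv c }
  let χ : W ⊗[V] A →ₐ[V] T :=
    Algebra.TensorProduct.productMap πV (IsScalarTower.toAlgHom V A T)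
  let : Algebra (W ⊗[V] A) T := χ.toRingHom.toAlgebra
  have hχW : ∀ w, algebraMap (W ⊗[V] A) T (algebraMap W (W ⊗[V] A) w) = π w := fun w => by
    show Algebra.TensorProduct.productMap πV _ (w ⊗ₜ[V] 1) = _
    rw [Algebra.TensorProduct.productMap_apply_tmul, map_one, mul_one]
    rfl
  have hχA : ∀ a, algebraMap (W ⊗[V] A) T (algebraMap A (W ⊗[V] A) a) = algebraMap A T a :=
    fun a => by
      show Algebra.TensorProduct.productMap πV _ ((1 : W) ⊗ₜ[V] a) = _
      rw [Algebra.TensorProduct.productMap_apply_tmul, map_one, one_mul]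
      rfl
  have : IsScalarTower A (W ⊗[V] A) T := IsScalarTower.of_algebraMap_eq fun a => (hχA a).symm
  have : IsScalarTower L (W ⊗[V] A) T := IsScalarTower.of_algebraMap_eq (R := L) (S := W ⊗[V] A)
    (A := T) fun c => ((hχW (algebraMap L W c)).trans (hπC c)).symm
  have hsurj : Function.Surjective (algebraMap (W ⊗[V] A) T) := fun t => by
    obtain ⟨w, hw⟩ := hπsurj t
    exact ⟨algebraMap W _ w, (hχW w).trans hw⟩
  have : Module.Finite (W ⊗[V] A) T :=
    Module.Finite.of_surjective (Algebra.linearMap (W ⊗[V] A) T) hsurj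
  have : Nontrivial (W ⊗[V] A) := (algebraMap (W ⊗[V] A) T).domain_nontrivial
  have hresA : ∀ a : A, ∃ c : V, a - algebraMap V A c ∈ maximalIdeal A := fun a =>
    ⟨C (residue A a), by rw [← residue_eq_zero_iff, map_sub, hAC, sub_self]⟩
  obtain ⟨hBl, hBmax⟩ := isLocalRing_baseChange (V := V) (W := W) (A := A) hresA
  have hfr := finRes_baseChange (L := L) (A := A) (T := T) (d := d) (s := s + 1) hBmax hvX hAC hAX
  -- finite colength of the parameters
  have : Module.Finite L (T ⧸ maximalIdeal T) := by
    refine Module.Finite.of_surjective (Algebra.linearMap L _) fun q => ?_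
    obtain ⟨t, rfl⟩ := Ideal.Quotient.mk_surjective q
    obtain ⟨c, hc⟩ := hτ t
    refine ⟨c, ?_⟩
    rw [Algebra.linearMap_apply, IsScalarTower.algebraMap_apply L T, Ideal.Quotient.algebraMap_eq,
      Ideal.Quotient.eq, ← neg_mem_iff, neg_sub]
    exact hc
  have : Module.Finite L (T ⧸ ((maximalIdeal V).map (algebraMap V (W ⊗[V] A))).map
      (algebraMap (W ⊗[V] A) T)) := by
    have := finite_quot_pow (k := L) (maximalIdeal T) (r * (1 + r₀))
    refine finite_quot_of_le (I := maximalIdeal T ^ (r * (1 + r₀))) ?_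
    have e : (algebraMap (W ⊗[V] A) T).comp (algebraMap V (W ⊗[V] A)) =
        (algebraMap A T).comp (algebraMap V A) := RingHom.ext fun c => by
      rw [RingHom.comp_apply, IsScalarTower.algebraMap_apply V W (W ⊗[V] A), hχW]
      exact RingHom.congr_fun hπv c
    rw [Ideal.map_map, e, ← Ideal.map_map, pow_mul]
    refine (Ideal.pow_right_mono hr _).trans ?_
    rw [← Ideal.map_pow]
    exact Ideal.map_mono ((hpow 1).trans (le_of_eq (by rw [pow_one])))
  exact finrank_le_emult_of_chart p (k := k) (L := L) (A := A) (T := T) (d := d) (s := s + 1)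
    (by omega) hBmax hresA hpow hsurj hfr hy hE

/-- The case of a complete target with finite length fibre and algebraically closed coefficient
field. -/
theorem lech_primary_all (p : ℕ) [Fact p.Prime]
    (R : Type u) [CommRing R] [IsNoetherianRing R] [IsLocalRing R] [CharP R p]
    [Infinite (ResidueField R)] (T : Type u) [CommRing T] [IsLocalRing T] [IsNoetherianRing T]
    [IsAdicComplete (maximalIdeal T) T] {L : Type u} [Field L] [IsAlgClosed L] (τ : L →+* T)
    (hτ : Function.Bijective ((residue T).comp τ)) (g : R →+* T) (hloc : IsLocalHom g)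
    (hflat : g.Flat) {r : ℕ} (hr : maximalIdeal T ^ r ≤ (maximalIdeal R).map g) :
    limsup (hsSeq R) atTop ≤ liminf (hsSeq T) atTop := by
  obtain ⟨A, iA, iAl, iAn, iAc, iAp, fR, hRl, hRf, hRm, ⟨e₀, he₀, -⟩, hlift⟩ :=
    exists_completion_lift R p
  have hgm : (maximalIdeal R).map g ≤ maximalIdeal T :=
    ((IsLocalRing.local_hom_TFAE g).out 0 2).1 hloc
  obtain ⟨gA, hgA⟩ := hlift T g fun a ha => hgm (Ideal.mem_map_of_mem g ha)
  have hmap : (maximalIdeal A).map gA = (maximalIdeal R).map g := by
    rw [← hRm, Ideal.map_map, hgA]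
  have hgAl : IsLocalHom gA := ((IsLocalRing.local_hom_TFAE gA).out 0 2).2 (hmap ▸ hgm)
  have hgAf : gA.Flat := flat_of_comp_flat fR gA hRm hgAl (hgA.symm ▸ hflat)
  have : Infinite (ResidueField A) := Infinite.of_injective e₀ he₀.1
  obtain ⟨σ, hσ⟩ := exists_coefficientField' A p
  let : Algebra (ResidueField A) A := σ.toAlgebra
  obtain ⟨φ, r₀, e, hC, hX, hφ, -, hpow, he, hup⟩ := exists_source_nc (k := ResidueField A)
    fun a => ⟨residue A a, by
      rw [← residue_eq_zero_iff, map_sub, RingHom.algebraMap_toAlgebra, hσ, sub_self]⟩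
  rw [← hsSeq_eq_of_flat_map_maximal fR hRf hRl hRm]
  let : Algebra (PS (ResidueField A) (dimNat A)) A := φ.toAlgebra
  have : IsScalarTower (ResidueField A) (PS (ResidueField A) (dimNat A)) A :=
    IsScalarTower.of_algebraMap_eq fun c => (hC c).symm
  have : Module.Finite (PS (ResidueField A) (dimNat A)) A := hφ
  have he' : Module.finrank (PS (ResidueField A) (dimNat A)) A = e := by
    have := emult_eq_finrank_powerSeries (k := ResidueField A) (d := dimNat A) (R := A)
    rw [RingHom.algebraMap_toAlgebra] at this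
    exact_mod_cast this.symm.trans he
  -- the target
  have : CharP T p := by
    refine charP_of_injective_ringHom (f := g) ?_ p
    algebraize [g]
    have : IsLocalHom (algebraMap R T) := hloc
    have : Module.FaithfullyFlat R T := Module.FaithfullyFlat.of_flat_of_isLocalHom
    exact FaithfulSMul.algebraMap_injective R T
  have : CharP L p := (RingHom.charP_iff τ τ.injective p).2 inferInstance
  have : PerfectRing L p := PerfectField.toPerfectRing p
  have : Infinite (ResidueField T) := Infinite.of_injective _ hτ.1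
  let : Algebra L T := τ.toAlgebra
  have hresT : ∀ t, ∃ c, t - algebraMap L T c ∈ maximalIdeal T := fun t => by
    obtain ⟨c, hc⟩ := hτ.2 (residue T t)
    refine ⟨c, ?_⟩
    rw [← residue_eq_zero_iff, map_sub, RingHom.algebraMap_toAlgebra, ← hc, RingHom.comp_apply,
      sub_self]
  have hd : dimNat T = dimNat A := dimNat_eq_of_primary gA hgAl hgAf (hmap ▸ hr)
  obtain ⟨y, rT, hy, hyr⟩ : ∃ (y : Fin (dimNat A) → T) (rT : ℕ),
      Ideal.span (Set.range y) ≤ maximalIdeal T ∧
        ∀ N, maximalIdeal T ^ (N + rT) ≤ Ideal.span (Set.range y) ^ N := by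
    rw [← hd]
    exact exists_reduction
  have hym : ∀ i, y i ∈ maximalIdeal T := fun i => hy (Ideal.subset_span ⟨i, rfl⟩)
  obtain ⟨φT, hTC, hTX, -⟩ := exists_evalHom (algebraMap L T) y hym
  have hspan : (fun i => φT (MvPowerSeries.X i)) = y := funext hTX
  have hφT : φT.Finite := finite_of_powerSeriesHom φT
    (fun t => by simpa only [hTC] using hresT t) (fun i => by rw [hTX]; exact hym i)
    (r := 1 + rT) (by rw [hspan]; simpa using hyr 1)
  obtain ⟨E, hE, hlow⟩ := emult_le_liminf_hsSeq hresT hd φT hφT hTC (r := rT)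
    (by rw [hspan]; exact hyr)
  rw [hspan] at hE
  have : Module.Finite L (T ⧸ maximalIdeal T) := by
    refine Module.Finite.of_surjective (Algebra.linearMap L _) fun q => ?_
    obtain ⟨t, rfl⟩ := Ideal.Quotient.mk_surjective q
    obtain ⟨c, hc⟩ := hresT t
    refine ⟨c, ?_⟩
    rw [Algebra.linearMap_apply, IsScalarTower.algebraMap_apply L T, Ideal.Quotient.algebraMap_eq,
      Ideal.Quotient.eq, ← neg_mem_iff, neg_sub]
    exact hc
  have : Module.Finite L (T ⧸ Ideal.span (Set.range y)) := by
    have := finite_quot_pow (k := L) (maximalIdeal T) (1 + rT)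
    exact finite_quot_of_le (I := maximalIdeal T ^ (1 + rT)) (by simpa using hyr 1)
  have : Module.Finite L (T ⧸ Ideal.ofList (List.ofFn y)) := by rw [ofList_ofFn]; infer_instance
  have hpos : 1 ≤ emult L (List.ofFn y) T := by
    refine emult_pos (forall_mem_ofFn hym) (good_of_finite (x := List.ofFn y) T) ?_
    rw [List.length_ofFn, sdim, ← hd, ← coe_dimNat T]
    refine le_of_eq ?_
    rw [show Module.annihilator T T = ⊥ from Module.annihilator_eq_bot.2 inferInstance]
    exact ringKrullDim_eq_of_ringEquiv (RingEquiv.quotientBot T).symm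
  let : Algebra A T := gA.toAlgebra
  have : Module.Flat A T := hgAf
  have : IsLocalHom (algebraMap A T) := hgAl
  have hle := finrank_le_emult p (L := L) (A := A) (T := T) (d := dimNat A)
    (fun c => by
      show residue A (φ (MvPowerSeries.C c)) = c
      rw [hC, RingHom.algebraMap_toAlgebra, hσ])
    hX hpow hresT (r := r) (hmap ▸ hr) hym hpos
  rw [he', hE, Nat.cast_le] at hle
  exact hup.trans (le_trans (Nat.cast_le.2 hle) hlow)

end Vale.Agent.P202.Imperfect
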