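import Vale.Agent.P202.NC.Build
import Vale.Agent.P202.NC.DualMod

/-!
# P202 imperfect residue fields: functionals measured by the rank over a domain

An additive functional on finite modules over a ring finite over a domain `U`, vanishing on modules
killed by nonzero elements of `U`, is a multiple of the rank on modules killed by a power of a
prime lying over zero.
-/

noncomputable section

namespace Vale.Agent.P202.Imperfect

universe u

/-- The rank over `U` of a module over a `U`-algebra. -/
def rankOver (U : Type u) [CommRing U] (R : Type u) [CommRing R] [Algebra U R] (M : Type u)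
    [AddCommGroup M] [Module R M] : ℕ :=
  Module.finrank U (RestrictScalars U R M)

section rank

variable {U R : Type u} [CommRing U] [IsDomain U] [CommRing R] [Algebra U R]

omit [IsDomain U] in
theorem rankOver_eq (M : Type u) [AddCommGroup M] [Module R M] [Module U M] [IsScalarTower U R M] :
    rankOver U R M = Module.finrank U M := by
  let e : RestrictScalars U R M ≃ₗ[U] M :=
    { RestrictScalars.addEquiv U R M with map_smul' := fun c m => by simp [algebraMap_smul] }
  exact e.finrank_eq

omit [IsDomain U] in
theorem rankOver_congr {M N : Type u} [AddCommGroup M] [Module R M] [AddCommGroup N] [Module R N]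
    (e : M ≃ₗ[R] N) : rankOver U R M = rankOver U R N := by
  let := Module.compHom M (algebraMap U R)
  let := Module.compHom N (algebraMap U R)
  have : IsScalarTower U R M := IsScalarTower.of_algebraMap_smul fun _ _ => rfl
  have : IsScalarTower U R N := IsScalarTower.of_algebraMap_smul fun _ _ => rfl
  rw [rankOver_eq M, rankOver_eq N]
  exact (e.restrictScalars U).finrank_eq

theorem rankOver_exact {M₁ M₂ M₃ : Type u} [AddCommGroup M₁] [Module R M₁] [AddCommGroup M₂]
    [Module R M₂] [AddCommGroup M₃] [Module R M₃] [Module.Finite R M₂] [Module.Finite U R]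
    [IsNoetherianRing U] (f : M₁ →ₗ[R] M₂) (g : M₂ →ₗ[R] M₃) (hf : Function.Injective f)
    (hg : Function.Surjective g) (hfg : Function.Exact f g) :
    rankOver U R M₂ = rankOver U R M₁ + rankOver U R M₃ := by
  let := Module.compHom M₁ (algebraMap U R)
  let := Module.compHom M₂ (algebraMap U R)
  let := Module.compHom M₃ (algebraMap U R)
  have : IsScalarTower U R M₁ := IsScalarTower.of_algebraMap_smul fun _ _ => rfl
  have : IsScalarTower U R M₂ := IsScalarTower.of_algebraMap_smul fun _ _ => rfl
  have : IsScalarTower U R M₃ := IsScalarTower.of_algebraMap_smul fun _ _ => rfl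
  have : Module.Finite U M₂ := Module.Finite.trans R M₂
  rw [rankOver_eq M₁, rankOver_eq M₂, rankOver_eq M₃]
  let f' := f.restrictScalars U
  let g' := g.restrictScalars U
  have h1 := Submodule.finrank_quotient_add_finrank (LinearMap.ker g')
  have e1 : LinearMap.ker g' = LinearMap.range f' := LinearMap.exact_iff.1 hfg
  have h3 : Module.finrank U (M₂ ⧸ LinearMap.ker g') = Module.finrank U M₃ :=
    (g'.quotKerEquivOfSurjective hg).finrank_eq
  have h4 : Module.finrank U (LinearMap.ker g') = Module.finrank U M₁ := by
    rw [e1, ← (LinearEquiv.ofInjective f' hf).finrank_eq]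
  omega

theorem rankOver_eq_zero [Module.Finite U R] [IsNoetherianRing U] {M : Type u} [AddCommGroup M]
    [Module R M] [Module.Finite R M] {c : U} (hc : c ≠ 0)
    (hcM : ∀ x : M, algebraMap U R c • x = 0) : rankOver U R M = 0 := by
  let := Module.compHom M (algebraMap U R)
  have : IsScalarTower U R M := IsScalarTower.of_algebraMap_smul fun _ _ => rfl
  have : Module.Finite U M := Module.Finite.trans R M
  rw [rankOver_eq M]
  exact NC.finrank_eq_of_comparison (e := 0) hc 0 0
    (fun x => by
      rw [LinearMap.zero_apply]
      exact ((algebraMap_smul R c x).symm.trans (hcM x)).symm)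
    (fun v => funext fun i => i.elim0)

/-- An additive functional is a multiple of the rank on modules killed by a power of a prime. -/
theorem exists_rank_of_killed' [Module.Finite U R] [IsNoetherianRing U] [IsNoetherianRing R]
    (φ : ∀ (M : Type u) [AddCommGroup M] [Module R M], ℤ)
    (hadd : ∀ (M₁ M₂ M₃ : Type u) [AddCommGroup M₁] [Module R M₁] [AddCommGroup M₂] [Module R M₂]
      [AddCommGroup M₃] [Module R M₃] [Module.Finite R M₂] (f : M₁ →ₗ[R] M₂) (g : M₂ →ₗ[R] M₃),
      Function.Injective f → Function.Surjective g → Function.Exact f g → φ M₂ = φ M₁ + φ M₃)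
    (hiso : ∀ (M N : Type u) [AddCommGroup M] [Module R M] [AddCommGroup N] [Module R N],
      (M ≃ₗ[R] N) → φ M = φ N)
    (hzero : ∀ (M : Type u) [AddCommGroup M] [Module R M] [Module.Finite R M] (c : U),
      c ≠ 0 → (∀ x : M, algebraMap U R c • x = 0) → φ M = 0)
    (P : Ideal R) [P.IsPrime] (hP : P.comap (algebraMap U R) = ⊥) {j : ℕ}
    (N : Type u) [AddCommGroup N] [Module R N] [Module.Finite R N]
    (hN : P ^ j ≤ Module.annihilator R N) :
    ∃ r : ℕ, φ N = r * φ (R ⧸ P) ∧ rankOver U R N = r * rankOver U R (R ⧸ P) := by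
  revert hN
  induction ‹Module.Finite R N› using
    IsNoetherianRing.induction_on_isQuotientEquivQuotientPrime R with
  | subsingleton N =>
    intro _
    have h : ∀ x : N, algebraMap U R 1 • x = 0 := fun x => Subsingleton.elim _ _
    exact ⟨0, by simp [hzero N 1 one_ne_zero h], by simp [rankOver_eq_zero one_ne_zero h]⟩
  | quotient N Q f =>
    intro hN
    have hann : Module.annihilator R N = Q.asIdeal := by
      rw [f.annihilator_eq]; exact Ideal.annihilator_quotient
    rw [hann] at hN
    have hPQ : P ≤ Q.asIdeal := Q.isPrime.le_of_pow_le hN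
    rcases eq_or_lt_of_le hPQ with h | h
    · subst h
      exact ⟨1, by simp [hiso N _ f], by simp [rankOver_congr f]⟩
    · obtain ⟨a, ha', ha⟩ := SetLike.exists_of_lt h
      have hlt := Ideal.comap_lt_comap_of_integral_mem_sdiff (R := U) hPQ ⟨ha', ha⟩
        (Algebra.IsIntegral.isIntegral a)
      rw [hP] at hlt
      obtain ⟨c, hc, hc0⟩ := Submodule.exists_mem_ne_zero_of_ne_bot hlt.ne'
      have hkill : ∀ x : N, algebraMap U R c • x = 0 := fun x => by
        have hmem : algebraMap U R c ∈ Module.annihilator R N := hann ▸ hc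
        exact Module.mem_annihilator.1 hmem x
      exact ⟨0, by simp [hzero N c hc0 hkill], by simp [rankOver_eq_zero hc0 hkill]⟩
  | exact N₁ N₂ N₃ f g hf hg hfg h₁ h₃ =>
    intro hN
    obtain ⟨r₁, a₁, b₁⟩ := h₁ (hN.trans (f.annihilator_le_of_injective hf))
    obtain ⟨r₃, a₃, b₃⟩ := h₃ (hN.trans (g.annihilator_le_of_surjective hg))
    refine ⟨r₁ + r₃, ?_, ?_⟩
    · rw [hadd N₁ N₂ N₃ f g hf hg hfg, a₁, a₃]
      push_cast
      ring
    · rw [rankOver_exact f g hf hg hfg, b₁, b₃]
      ring

end rank

end Vale.Agent.P202.Imperfect
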