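import Vale.Agent.P202.Imperfect.Tower
import Vale.Agent.P202.RingSide.Growth
import Vale.Agent.P202.Reduce.CutDim
import Vale.Agent.P202.NC.Dual

/-!
# P202 imperfect residue fields: vanishing on modules killed by a parameter function

If `F` is killed up to homotopy by `J` and `S/(J + m_V S)` has finite length, then the tower of `F`
along `d = dim V` elements has no Euler characteristic on modules killed by a nonzero element of
`V`.
-/

noncomputable section

namespace Vale.Agent.P202.Imperfect

open IsLocalRing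

universe u

variable {k : Type u} [Field k] {d : ℕ}

/-- Fewer than `d` elements cut a nonzero hypersurface down to finite length. -/
theorem exists_cut {c : PS k d} (hc : c ≠ 0) (hcm : c ∈ maximalIdeal (PS k d)) :
    ∃ zs : List (PS k d), zs.length < d ∧ (∀ z ∈ zs, z ∈ maximalIdeal (PS k d)) ∧
      ∃ N, maximalIdeal (PS k d) ^ N ≤ Ideal.span {c} ⊔ Ideal.ofList zs := by
  classical
  have : IsDomain (PS k d) := NoZeroDivisors.to_isDomain _
  let mk : PS k d →+* PS k d ⧸ Ideal.span {c} := Ideal.Quotient.mk _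
  have : Nontrivial (PS k d ⧸ Ideal.span {c}) := Ideal.Quotient.nontrivial_iff.2
    (ne_top_of_le_ne_top (maximalIdeal.isMaximal _).ne_top
      ((Ideal.span_singleton_le_iff_mem _).2 hcm))
  have : IsLocalRing (PS k d ⧸ Ideal.span {c}) :=
    IsLocalRing.of_surjective' mk Ideal.Quotient.mk_surjective
  have hdim : dimNat (PS k d ⧸ Ideal.span {c}) + 1 ≤ d := by
    have h := (ringKrullDim_quotient_succ_le_of_nonZeroDivisor
      (mem_nonZeroDivisors_of_ne_zero hc)).trans (ringKrullDim_mvPowerSeries_le (k := k) d)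
    rw [coe_dimNat (PS k d ⧸ Ideal.span {c})] at h
    exact_mod_cast h
  obtain ⟨x, r, hx, hr⟩ := exists_sop (A := PS k d ⧸ Ideal.span {c})
  choose z hz using fun i => Ideal.Quotient.mk_surjective (I := Ideal.span {c}) (x i)
  have hmax : (maximalIdeal (PS k d)).map mk = maximalIdeal _ :=
    IsLocalRing.map_maximalIdeal_of_surjective mk Ideal.Quotient.mk_surjective
  have hof : Ideal.ofList (List.ofFn z) = Ideal.span (Set.range z) := by
    simp [Ideal.ofList, Set.range, List.mem_ofFn]
  refine ⟨List.ofFn z, by rw [List.length_ofFn]; omega, fun a ha => ?_, r, ?_⟩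
  · obtain ⟨i, rfl⟩ := List.mem_ofFn.1 ha
    by_contra hu
    have h1 : x i ∈ maximalIdeal (PS k d ⧸ Ideal.span {c}) := hx (Ideal.subset_span ⟨i, rfl⟩)
    rw [← hz i, mem_maximalIdeal, mem_nonunits_iff] at h1
    exact h1 ((IsLocalRing.notMem_maximalIdeal.1 hu).map mk)
  · intro a ha
    have h1 : mk a ∈ (Ideal.span (Set.range z)).map mk := by
      rw [Ideal.map_span, ← Set.range_comp, show mk ∘ z = x from funext hz]
      refine hr ?_
      rw [← hmax, ← Ideal.map_pow]
      exact Ideal.mem_map_of_mem mk ha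
    rw [← Ideal.mem_comap, Ideal.comap_map_of_surjective' mk Ideal.Quotient.mk_surjective,
      Ideal.mk_ker] at h1
    rwa [hof, sup_comm]

variable {S : Type u} [CommRing S] [IsNoetherianRing S] [IsLocalRing S] {L : Type u} [Field L]
  [Algebra L S]

/-- Vanishing on modules killed by a nonzero element of `V`. -/
theorem tower_chi_eq_zero_of_killed {F : FreeCx S} {z : List S} (J : Ideal S)
    {M : Type u} [AddCommGroup M] [Module S M] [Module L M] [IsScalarTower L S M]
    [Module.Finite S M] (hJ : ∀ a ∈ J, F.Kills M a)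
    [Module.Finite L (S ⧸ (J ⊔ Ideal.ofList z))] (γ : PS k d →+* S)
    (hγ : ∀ v ∈ maximalIdeal (PS k d), γ v ∈ maximalIdeal S)
    [Module.Finite L (S ⧸ (J ⊔ (maximalIdeal (PS k d)).map γ))] (hlen : z.length = d)
    {c : PS k d} (hc : c ≠ 0) (hcM : ∀ x : M, γ c • x = 0) :
    (F.tower z).FiniteHom M L ∧ (F.tower z).chi M L = 0 := by
  classical
  have : Module.Finite L (S ⧸ (J ⊔ Module.annihilator S M ⊔ Ideal.ofList z)) :=
    finite_quot_of_le (I := J ⊔ Ideal.ofList z) (sup_le_sup_right le_sup_left _)
  refine FreeCx.tower_chi_eq_zero J hJ ?_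
  rw [hlen]
  by_cases hcu : IsUnit c
  · have htop : J ⊔ Module.annihilator S M = ⊤ := Ideal.eq_top_of_isUnit_mem _
      (Ideal.mem_sup_right (Module.mem_annihilator.2 hcM)) (hcu.map γ)
    rw [htop, ringKrullDim_eq_bot_of_subsingleton]
    exact WithBot.bot_lt_coe _
  · obtain ⟨zs, hzs, hzm, N, hN⟩ := exists_cut hc ((mem_maximalIdeal c).2 hcu)
    set I := J ⊔ Module.annihilator S M
    set K := J ⊔ (maximalIdeal (PS k d)).map γ
    have := finite_quot_pow (k := L) K (N + 1)
    have hle : K ^ (N + 1) ≤ I ⊔ Ideal.ofList (zs.map γ) := by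
      rw [show N + 1 = 1 + N by omega]
      refine Ideal.sup_pow_add_le_pow_sup_pow.trans (sup_le ?_ ?_)
      · rw [pow_one]
        exact le_sup_left.trans le_sup_left
      · rw [← Ideal.map_pow]
        refine (Ideal.map_mono hN).trans ?_
        rw [Ideal.map_sup, Ideal.map_span, Set.image_singleton, Ideal.map_ofList]
        refine sup_le_sup_right ?_ _
        rw [Ideal.span_singleton_le_iff_mem]
        exact Ideal.mem_sup_right (Module.mem_annihilator.2 hcM)
    have : Module.Finite L (S ⧸ (I ⊔ Ideal.ofList (zs.map γ))) := finite_quot_of_le hle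
    refine lt_of_le_of_lt (ringKrullDim_quotient_le_length (k := L) I (zs.map γ) fun a ha => ?_)
      ?_
    · obtain ⟨b, hb, rfl⟩ := List.mem_map.1 ha
      exact hγ b (hzm b hb)
    · rw [List.length_map]
      exact_mod_cast hzs

/-- Finite homology of the tower. -/
theorem tower_finiteHom_of_killed {F : FreeCx S} {z : List S} (J : Ideal S)
    {M : Type u} [AddCommGroup M] [Module S M] [Module L M] [IsScalarTower L S M]
    [Module.Finite S M] (hJ : ∀ a ∈ J, F.Kills M a)
    [Module.Finite L (S ⧸ (J ⊔ Ideal.ofList z))] : (F.tower z).FiniteHom M L :=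
  have : Module.Finite L (S ⧸ (J ⊔ Module.annihilator S M ⊔ Ideal.ofList z)) :=
    finite_quot_of_le (I := J ⊔ Ideal.ofList z) (sup_le_sup_right le_sup_left _)
  FreeCx.tower_finiteHom J hJ

end Vale.Agent.P202.Imperfect
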