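import Vale.Agent.P202.Imperfect.Transfer
import Vale.Agent.P202.Imperfect.Vanish
import Vale.Agent.P202.Imperfect.Rank
import Vale.Agent.P202.Imperfect.FrobBasis

/-!
# P202 imperfect residue fields: Frobenius multiplies the Euler characteristic by `q ^ D`

`B = W ⊗[V] A` with `W` flat over `V = k[[X]]` and free of rank `N` over its `q`-th powers, `A`
finite over `V`; no hypothesis on the residue field `k`.
-/

noncomputable section

namespace Vale.Agent.P202.Imperfect

open TensorProduct IsLocalRing

attribute [local instance] Algebra.TensorProduct.rightAlgebra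

universe u

theorem map_id_cx {S : Type*} [CommRing S] (F : FreeCx S) : F.map (RingHom.id S) = F := by
  cases F
  simp [FreeCx.map]

theorem finite_quot_map {L B S : Type u} [Field L] [CommRing B] [CommRing S] [Algebra L B]
    [Algebra L S] [Algebra B S] [IsScalarTower L B S] [Module.Finite B S] (I : Ideal B)
    [Module.Finite L (B ⧸ I)] : Module.Finite L (S ⧸ I.map (algebraMap B S)) := by
  have h := finite_of_annihilator (k := L) (I := I) (M := S ⧸ I.map (algebraMap B S)) ⊤
    Module.Finite.fg_top fun a ha m _ => by
      obtain ⟨m, rfl⟩ := Ideal.Quotient.mk_surjective m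
      change Ideal.Quotient.mk (I.map (algebraMap B S)) (a • m) = 0
      rw [Ideal.Quotient.eq_zero_iff_mem, Algebra.smul_def]
      exact Ideal.mul_mem_right _ _ (Ideal.mem_map_of_mem _ ha)
  exact Module.Finite.equiv
    ((LinearEquiv.ofEq _ _ (Submodule.restrictScalars_top L B _)).trans Submodule.topEquiv)

theorem smul_baseChange_eq_zero {R S : Type u} [CommRing R] [CommRing S] [Algebra R S] {M : Type u}
    [AddCommGroup M] [Module R M] {r : R} (h : ∀ m : M, r • m = 0) (t : S ⊗[R] M) :
    algebraMap R S r • t = 0 := by
  induction t using TensorProduct.induction_on with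
  | zero => rw [smul_zero]
  | add a b ha hb => rw [smul_add, ha, hb, add_zero]
  | tmul s m =>
    rw [algebraMap_smul, TensorProduct.smul_tmul', TensorProduct.smul_tmul, h,
      TensorProduct.tmul_zero]

section rankTwist

variable (p n : ℕ) {V A : Type u} [CommRing V] [IsDomain V] [IsNoetherianRing V] [CommRing A]
  [ExpChar V p] [Algebra V A]

/-- The base change along Frobenius keeps the rank. -/
theorem rankOver_twist (M : Type u) [AddCommGroup M] [Module A M] [Module V M]
    [IsScalarTower V A M] [Module.Finite V M] :
    rankOver (Frob p n V) (Rq p n V A) (Rq p n V A ⊗[A] M) = Module.finrank V M := by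
  let U := Frob p n V
  have : IsScalarTower U (Rq p n V A) (Rq p n V A ⊗[A] M) := TensorProduct.isScalarTower_left
  rw [rankOver_eq,
    (Algebra.IsPushout.cancelBaseChange V U A (Rq p n V A) M).finrank_eq]
  obtain ⟨c, α, β, hc, hαβ, hβα⟩ := NC.exists_free_comparison V M
  let γ := TensorProduct.piScalarRight V U U (Fin (Module.finrank V M))
  refine NC.finrank_eq_of_comparison (c := algebraMap V U c) ?_
    ((α.baseChange U).comp γ.symm.toLinearMap) (γ.toLinearMap.comp (β.baseChange U)) ?_ ?_
  · rw [Frob.algebraMap_def, Algebra.algebraMap_self, RingHom.id_apply, iterateFrobenius_def,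
      map_ne_zero_iff _ (Frob.of p n).injective]
    exact pow_ne_zero _ hc
  · intro x
    simp only [LinearMap.comp_apply, LinearEquiv.coe_coe, LinearEquiv.symm_apply_apply]
    rw [← LinearMap.comp_apply, ← LinearMap.baseChange_comp,
      show α.comp β = c • LinearMap.id from LinearMap.ext hαβ, LinearMap.baseChange_smul,
      LinearMap.smul_apply, LinearMap.baseChange_id, LinearMap.id_apply, algebraMap_smul]
  · intro v
    simp only [LinearMap.comp_apply, LinearEquiv.coe_coe]
    rw [← LinearMap.comp_apply (β.baseChange U), ← LinearMap.baseChange_comp,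
      show β.comp α = c • LinearMap.id from LinearMap.ext hβα, LinearMap.baseChange_smul,
      LinearMap.smul_apply, LinearMap.baseChange_id, LinearMap.id_apply, algebraMap_smul]
    exact (γ.toLinearMap.map_smul_of_tower c _).trans (congrArg _ (γ.apply_symm_apply v))

variable [ExpChar A p]

omit [IsDomain V] [IsNoetherianRing V] in
theorem piA_algebraMap (v : V) :
    piA p n (algebraMap (Frob p n V) (Rq p n V A) (Frob.of p n v)) = algebraMap V A v := by
  rw [Algebra.TensorProduct.algebraMap_apply, Algebra.algebraMap_self, RingHom.id_apply, piA_tmul,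
    one_pow, mul_one]

omit [IsNoetherianRing V] [IsDomain V] in
/-- The pullback to `A` keeps the rank. -/
theorem rankOver_via (M : Type u) [AddCommGroup M] [Module A M] [Module V M]
    [IsScalarTower V A M] :
    rankOver (Frob p n V) (Rq p n V A) (Via (piA p n (V := V) (A := A)) M) = Module.finrank V M := by
  let π := piA p n (V := V) (A := A)
  let := Module.compHom (Via π M) (algebraMap (Frob p n V) (Rq p n V A))
  have : IsScalarTower (Frob p n V) (Rq p n V A) (Via π M) :=
    IsScalarTower.of_algebraMap_smul fun _ _ => rfl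
  rw [rankOver_eq]
  have h := rank_eq_of_equiv_equiv (Frob.of p n (S := V) : V → Frob p n V) (Via.of π (M := M))
    (Frob.of p n).bijective (fun v m => by
      show Via.of π (v • m) = algebraMap (Frob p n V) (Rq p n V A) (Frob.of p n v) • Via.of π m
      rw [Via.smul_of, piA_algebraMap, algebraMap_smul])
  exact (congrArg Cardinal.toNat h).symm

end rankTwist

/-- The Frobenius pullback of the tower has `N` times the Euler characteristic. -/
theorem chi_tower_frobenius (p n : ℕ) [Fact p.Prime] {L k : Type u} [Field L] [CharP L p]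
    [PerfectRing L p] [Field k] [CharP k p] {d : ℕ} {W A : Type u} [CommRing W]
    [IsNoetherianRing W] [CommRing A] [IsNoetherianRing A] [Algebra (PS k d) W]
    [Algebra (PS k d) A] [Module.Flat (PS k d) W] [Module.Finite (PS k d) A]
    [ExpChar (PS k d) p] [ExpChar W p] [ExpChar A p] [ExpChar (W ⊗[PS k d] A) p] [Algebra L W]
    [IsLocalRing (W ⊗[PS k d] A)] {ι : Type} [Fintype ι] (b : Module.Basis ι W (Frob p n W))
    (F : FreeCx (W ⊗[PS k d] A)) (y : List (W ⊗[PS k d] A)) (J : Ideal (W ⊗[PS k d] A))
    (hJ : ∀ a ∈ J, ∀ (B' : Type u) [CommRing B'] (φ : W ⊗[PS k d] A →+* B') (M : Type u)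
      [AddCommGroup M] [Module B' M], (F.map φ).Kills M (φ a))
    [Module.Finite L ((W ⊗[PS k d] A) ⧸ (J ⊔ Ideal.ofList y))]
    [Module.Finite L ((W ⊗[PS k d] A) ⧸
      (J ⊔ (maximalIdeal (PS k d)).map (algebraMap (PS k d) (W ⊗[PS k d] A))))]
    (hγ : ∀ v ∈ maximalIdeal (PS k d),
      algebraMap (PS k d) (W ⊗[PS k d] A) v ∈ maximalIdeal (W ⊗[PS k d] A))
    (hlen : y.length = d) :
    ((F.tower y).map (iterateFrobenius (W ⊗[PS k d] A) p n)).chi (W ⊗[PS k d] A) L =
      (Fintype.card ι : ℤ) * (F.tower y).chi (W ⊗[PS k d] A) L := by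
  classical
  let V := PS k d
  let B := W ⊗[V] A
  let R := Rq p n V A
  let S := Bq p n V W A
  let U := Frob p n V
  let π : R →+* A := piA p n (V := V) (A := A)
  let h : B →+* S := algebraMap B S
  have : IsDomain V := NoZeroDivisors.to_isDomain _
  have : IsNoetherianRing B := IsNoetherianRing.of_finite W B
  let b' : Module.Basis ι B S := Algebra.TensorProduct.basis B b
  have : Module.Finite B S := Module.Finite.of_basis b'
  have : IsNoetherianRing S := IsNoetherianRing.of_finite B S
  have : Module.Finite U R := inferInstance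
  have : IsNoetherianRing R := IsNoetherianRing.of_finite U R
  have : Nontrivial S := (piB p n (V := V) (W := W) (A := A)).domain_nontrivial
  have : CharP S p := charP_of_injective_algebraMap (algebraMap L S).injective p
  have : ExpChar S p := ExpChar.prime Fact.out
  have : Nontrivial A :=
    (Algebra.TensorProduct.includeRight : A →ₐ[V] B).toRingHom.domain_nontrivial
  have : Nontrivial R := π.domain_nontrivial
  have : CharP R p :=
    charP_of_injective_ringHom ((algebraMap V R).comp (algebraMap k V)).injective p
  have : ExpChar R p := ExpChar.prime Fact.out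
  have : IsLocalRing S := isLocalRing_bq p n
  have : Module.Flat A B :=
    Module.Flat.isBaseChange V A W B (inferInstance : Algebra.IsPushout V A W B).out
  have : Module.Flat R S := flat_bq p n
  have hπfin : π.Finite := by
    refine RingHom.Finite.of_comp_finite (f := (algebraMap U R).comp (Frob.of p n).toRingHom) ?_
    have : π.comp ((algebraMap U R).comp (Frob.of p n).toRingHom) = algebraMap V A :=
      RingHom.ext fun v => piA_algebraMap p n v
    rw [this]
    exact RingHom.finite_algebraMap.2 inferInstance
  -- the killing ideals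
  have hJB : ∀ (M : Type u) [AddCommGroup M] [Module B M], ∀ a ∈ J, F.Kills M a :=
    fun M _ _ a ha => by
      have := hJ a ha B (RingHom.id B) M
      rwa [map_id_cx] at this
  have hJS : ∀ (M : Type u) [AddCommGroup M] [Module S M], ∀ a ∈ J.map h, (F.map h).Kills M a :=
    fun M _ _ a ha => by
      have hle : J.map h ≤ (F.map h).killsIdeal M :=
        Ideal.map_le_iff_le_comap.2 fun c hc => hJ c hc S h M
      exact hle ha
  let γ : V →+* S := (algebraMap U S).comp (Frob.of p n).toRingHom
  have hγS : ∀ v ∈ maximalIdeal V, γ v ∈ maximalIdeal S := fun v hv hu => by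
    refine hγ v hv ?_
    have h1 := hu.map (piB p n (V := V) (W := W) (A := A))
    have h2 : piB p n (γ v) = algebraMap V B v := by
      show piB p n ((1 : B) ⊗ₜ[W] Frob.of p n (algebraMap V W v)) = _
      rw [piB_tmul, one_pow, one_mul, ← IsScalarTower.algebraMap_apply V W B]
    rwa [h2] at h1
  have : Module.Finite L (S ⧸ (J.map h ⊔ Ideal.ofList (y.map h))) := by
    have := finite_quot_map (L := L) (S := S) (J ⊔ Ideal.ofList y)
    rw [Ideal.map_sup, Ideal.map_ofList] at this
    exact this
  have : Module.Finite L (S ⧸ (J.map h ⊔ (maximalIdeal V).map γ)) := by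
    have := finite_quot_map (L := L) (S := S) (J ⊔ (maximalIdeal V).map (algebraMap V B))
    refine finite_quot_of_le (I := (J ⊔ (maximalIdeal V).map (algebraMap V B)).map h) ?_
    rw [Ideal.map_sup, Ideal.map_map]
    refine sup_le_sup_left (Ideal.map_le_iff_le_comap.2 fun v hv => ?_) _
    have e : h (algebraMap V B v) = γ v ^ p ^ n := by
      show h (algebraMap V B v) =
        ((1 : B) ⊗ₜ[W] Frob.of p n (algebraMap V W v)) ^ p ^ n
      rw [← IsScalarTower.algebraMap_apply V B S, Algebra.TensorProduct.tmul_pow, one_pow,
        IsScalarTower.algebraMap_apply V (Frob p n W) S, ← map_pow,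
        Frob.algebraMap_def, iterateFrobenius_def]
      rfl
    rw [Ideal.mem_comap, RingHom.comp_apply]
    rw [e]
    exact Ideal.pow_mem_of_mem _ (Ideal.mem_map_of_mem γ hv) _
      (pow_pos (Fact.out : p.Prime).pos n)
  -- the functionals
  let G := F.tower y
  let GS := G.map h
  have hGS : GS = (F.map h).tower (y.map h) := FreeCx.tower_map h y F
  have finA : ∀ (M : Type u) [AddCommGroup M] [Module A M] [Module.Finite A M],
      G.FiniteHom (B ⊗[A] M) L :=
    fun M _ _ _ => tower_finiteHom_of_killed J (hJB _)
  have finR : ∀ (N : Type u) [AddCommGroup N] [Module R N] [Module.Finite R N],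
      GS.FiniteHom (S ⊗[R] N) L := fun N _ _ _ => by
    rw [hGS]
    exact tower_finiteHom_of_killed (J.map h) (hJS _)
  have zeroA : ∀ (M : Type u) [AddCommGroup M] [Module A M] [Module.Finite A M] (c : V), c ≠ 0 →
      (∀ m : M, algebraMap V A c • m = 0) → G.chi (B ⊗[A] M) L = 0 :=
    fun M _ _ _ c hc hcM =>
      (tower_chi_eq_zero_of_killed (L := L) J (hJB _) (algebraMap V B) hγ hlen hc fun t => by
        rw [IsScalarTower.algebraMap_apply V A B]
        exact smul_baseChange_eq_zero hcM t).2
  have zeroR : ∀ (N : Type u) [AddCommGroup N] [Module R N] [Module.Finite R N] (c : U), c ≠ 0 →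
      (∀ m : N, algebraMap U R c • m = 0) → GS.chi (S ⊗[R] N) L = 0 :=
    fun N _ _ _ c hc hcN => by
      obtain ⟨c, rfl⟩ := (Frob.of p n).surjective c
      rw [hGS]
      refine (tower_chi_eq_zero_of_killed (L := L) (J.map h) (hJS _) γ hγS
        (by rw [List.length_map, hlen]) (c := c) (fun e => hc (by rw [e, map_zero])) fun t => ?_).2
      show algebraMap U S (Frob.of p n c) • t = 0
      rw [IsScalarTower.algebraMap_apply U R S]
      exact smul_baseChange_eq_zero hcN t
  have addR : ∀ (M₁ M₂ M₃ : Type u) [AddCommGroup M₁] [Module R M₁] [AddCommGroup M₂]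
      [Module R M₂] [AddCommGroup M₃] [Module R M₃] [Module.Finite R M₂] (f : M₁ →ₗ[R] M₂)
      (g : M₂ →ₗ[R] M₃), Function.Injective f → Function.Surjective g → Function.Exact f g →
      GS.chi (S ⊗[R] M₂) L = GS.chi (S ⊗[R] M₁) L + GS.chi (S ⊗[R] M₃) L :=
    fun M₁ M₂ M₃ _ _ _ _ _ _ _ f g hf hg hfg => by
      have : Module.Finite R M₁ := Module.Finite.of_injective f hf
      have : Module.Finite R M₃ := Module.Finite.of_surjective g hg
      exact chi_baseChange_exact GS f g hf hg hfg (finR M₁) (finR M₃)
  -- devissage
  have key : ∀ (M : Type u) [AddCommGroup M] [Module A M] [Module.Finite A M],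
      GS.chi (S ⊗[R] Via π M) L = (Fintype.card ι : ℤ) * G.chi (B ⊗[A] M) L := by
    intro M _ _ _
    induction ‹Module.Finite A M› using
      IsNoetherianRing.induction_on_isQuotientEquivQuotientPrime A with
    | subsingleton N =>
      have : Subsingleton (Via π N) := ‹Subsingleton N›
      rw [chi_baseChange_subsingleton (L := L) GS (M₁ := Via π N),
        chi_baseChange_subsingleton (L := L) G (M₁ := N), mul_zero]
    | exact N₁ N₂ N₃ f g hf hg hfg h₁ h₃ =>
      have := Via.finite (M := N₁) π hπfin
      have := Via.finite (M := N₂) π hπfin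
      have := Via.finite (M := N₃) π hπfin
      rw [addR _ _ _ (Via.map π f) (Via.map π g) hf hg hfg, h₁, h₃,
        chi_baseChange_exact G f g hf hg hfg (finA N₁) (finA N₃)]
      ring
    | quotient N Q f =>
      rw [chi_baseChange_congr GS (Via.congr π f), chi_baseChange_congr G f]
      let M := A ⧸ Q.asIdeal
      have := Via.finite (M := M) π hπfin
      by_cases hQ : Q.asIdeal.comap (algebraMap V A) = ⊥
      · let P : Ideal R := Q.asIdeal.comap π
        have hP : P.IsPrime := Ideal.comap_isPrime _ _
        have hP0 : P.comap (algebraMap U R) = ⊥ := by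
          rw [eq_bot_iff]
          intro c hc
          obtain ⟨c, rfl⟩ := (Frob.of p n).surjective c
          have h1 : c ∈ Q.asIdeal.comap (algebraMap V A) := by
            rw [Ideal.mem_comap, ← piA_algebraMap p n c]
            exact hc
          rw [hQ, Submodule.mem_bot] at h1
          rw [Submodule.mem_bot, h1, map_zero]
        obtain ⟨j, hj⟩ : ∃ j, P ^ j ≤ Module.annihilator R (R ⊗[A] M) := by
          refine Ideal.exists_pow_le_of_le_radical_of_fg (fun x hx => ⟨p ^ n, ?_⟩)
            (IsNoetherian.noetherian _)
          rw [pow_eq_tmul_piA, Module.mem_annihilator]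
          refine fun t => smul_baseChange_eq_zero (R := A) (S := R) (fun m => ?_) t
          obtain ⟨m, rfl⟩ := Ideal.Quotient.mk_surjective m
          exact Ideal.Quotient.eq_zero_iff_mem.2 (Ideal.mul_mem_right _ _ hx)
        have hN2 : P ^ 1 ≤ Module.annihilator R (Via π M) := fun x hx => by
          rw [pow_one] at hx
          refine Module.mem_annihilator.2 fun m => ?_
          obtain ⟨m, rfl⟩ := Ideal.Quotient.mk_surjective ((Via.of π).symm m)
          exact Ideal.Quotient.eq_zero_iff_mem.2 (Ideal.mul_mem_right _ _ hx)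
        let φ : ∀ (N : Type u) [AddCommGroup N] [Module R N], ℤ := fun N _ _ => GS.chi (S ⊗[R] N) L
        obtain ⟨r₁, a₁, b₁⟩ := exists_rank_of_killed' (U := U) φ addR
          (fun M N _ _ _ _ e => chi_baseChange_congr GS e) zeroR P hP0 (R ⊗[A] M) hj
        obtain ⟨r₂, a₂, b₂⟩ := exists_rank_of_killed' (U := U) φ addR
          (fun M N _ _ _ _ e => chi_baseChange_congr GS e) zeroR P hP0 (Via π M) hN2
        have e1 : rankOver U R (R ⊗[A] M) = Module.finrank V M := rankOver_twist p n M
        have e2 : rankOver U R (Via π M) = Module.finrank V M := rankOver_via p n M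
        rw [e1] at b₁
        rw [e2] at b₂
        have hpos : 0 < Module.finrank V M := by
          have hli : LinearIndependent V ![(1 : M)] := by
            rw [Fintype.linearIndependent_iff]
            intro g hg i
            rw [Fin.sum_univ_one] at hg
            have h1 : Ideal.Quotient.mk Q.asIdeal (algebraMap V A (g 0)) = 0 := by
              rw [← Ideal.Quotient.algebraMap_eq, ← IsScalarTower.algebraMap_apply V A M,
                Algebra.algebraMap_eq_smul_one]
              exact hg
            have h2 : g 0 ∈ Q.asIdeal.comap (algebraMap V A) :=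
              Ideal.mem_comap.2 (Ideal.Quotient.eq_zero_iff_mem.1 h1)
            rw [hQ, Submodule.mem_bot] at h2
            rwa [Subsingleton.elim i 0]
          exact lt_of_lt_of_le (by simp) hli.fintype_card_le_finrank
        have hr : r₁ = r₂ := Nat.eq_of_mul_eq_mul_right
          (Nat.pos_of_mul_pos_left (b₁ ▸ hpos)) (b₁.symm.trans b₂)
        change GS.chi (S ⊗[R] (R ⊗[A] M)) L = _ at a₁
        change GS.chi (S ⊗[R] Via π M) L = _ at a₂
        rw [a₂, ← hr, ← a₁]
        exact chi_twist_baseChange p n b G M (finA M)
      · obtain ⟨c, hc, hc0⟩ := Submodule.exists_mem_ne_zero_of_ne_bot hQ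
        have hcM : ∀ m : M, algebraMap V A c • m = 0 := fun m => by
          obtain ⟨m, rfl⟩ := Ideal.Quotient.mk_surjective m
          exact Ideal.Quotient.eq_zero_iff_mem.2 (Ideal.mul_mem_right _ _ hc)
        rw [zeroA M c hc0 hcM, mul_zero]
        refine zeroR (Via π M) (Frob.of p n c)
          (fun e => hc0 ((Frob.of p n).injective (e.trans (map_zero _).symm))) fun m => ?_
        obtain ⟨m, rfl⟩ := (Via.of π).surjective m
        rw [Via.smul_of, piA_algebraMap, hcM, map_zero]
  have hA := key A
  rw [chi_twist_pull p n G, G.chi_congr L (TensorProduct.AlgebraTensorModule.rid A B B)] at hA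
  exact hA

end Vale.Agent.P202.Imperfect
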