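import Vale.Agent.P202.Imperfect.Twist
import Vale.Agent.P202.Koszul.Bridge

/-!
# P202 imperfect residue fields: complexes on the twisted base change

On a base changed module the twisted complex has `q ^ D` times the Euler characteristic; on the
twist pulled back to `A` it is the Frobenius pullback of the complex.
-/

noncomputable section

namespace Vale.Agent.P202.Imperfect

open TensorProduct

attribute [local instance] Algebra.TensorProduct.rightAlgebra

universe u

/-- A module with scalars restricted along a ring map. -/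
def Via {R A : Type u} [CommRing R] [CommRing A] (_f : R →+* A) (M : Type u) : Type u := M

namespace Via

variable {R A : Type u} [CommRing R] [CommRing A] (f : R →+* A) {M N : Type u}

instance [AddCommGroup M] : AddCommGroup (Via f M) := ‹AddCommGroup M›

variable [AddCommGroup M] [Module A M] [AddCommGroup N] [Module A N]

instance : Module R (Via f M) := Module.compHom M f

/-- The identity map to the synonym. -/
def of : M ≃+ Via f M := AddEquiv.refl M

theorem smul_of (r : R) (m : M) : r • of f m = of f (f r • m) := rfl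

/-- A linear map, restricted. -/
def map (g : M →ₗ[A] N) : Via f M →ₗ[R] Via f N where
  toFun m := of f (g ((of f).symm m))
  map_add' m m' := g.map_add _ _
  map_smul' r m := g.map_smul (f r) _

/-- A linear equivalence, restricted. -/
def congr (g : M ≃ₗ[A] N) : Via f M ≃ₗ[R] Via f N :=
  { map f g.toLinearMap with
    invFun := fun m => of f (g.symm ((of f).symm m))
    left_inv := fun m => g.symm_apply_apply _
    right_inv := fun m => g.apply_symm_apply _ }

theorem finite (hf : f.Finite) [Module.Finite A M] : Module.Finite R (Via f M) := by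
  have h1 : Module.Finite R (Via f A) := hf
  obtain ⟨n, g, hg⟩ := Module.Finite.exists_fin' A M
  let e : (Fin n → Via f A) →ₗ[R] Via f (Fin n → A) :=
    { toFun := fun v => v
      map_add' := fun v w => rfl
      map_smul' := fun r v => rfl }
  exact Module.Finite.of_surjective ((map f g).comp e) hg

end Via

instance smulCommClass_of_algebra {R L S : Type*} [CommRing R] [CommRing L] [CommRing S]
    [Algebra R S] [Algebra L S] : SMulCommClass R L S :=
  ⟨fun r l s => by simp only [Algebra.smul_def]; ring⟩

section baseChange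

variable {L R S : Type u} [Field L] [CommRing R] [CommRing S] [Algebra R S] [Algebra L S]
  (G : FreeCx S) {M₁ M₂ M₃ : Type u} [AddCommGroup M₁] [Module R M₁] [AddCommGroup M₂]
  [Module R M₂] [AddCommGroup M₃] [Module R M₃]

/-- The Euler characteristic on base changed modules is additive over a flat algebra. -/
theorem chi_baseChange_exact [Module.Flat R S] (f : M₁ →ₗ[R] M₂) (g : M₂ →ₗ[R] M₃)
    (hf : Function.Injective f) (hg : Function.Surjective g) (hfg : Function.Exact f g)
    (h1 : G.FiniteHom (S ⊗[R] M₁) L) (h3 : G.FiniteHom (S ⊗[R] M₃) L) :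
    G.chi (S ⊗[R] M₂) L = G.chi (S ⊗[R] M₁) L + G.chi (S ⊗[R] M₃) L := by
  refine G.chi_additive (f := f.baseChange S) (g := g.baseChange S) ?_ ?_ ?_ h1 h3
  · rw [LinearMap.baseChange_eq_ltensor]
    exact Module.Flat.lTensor_preserves_injective_linearMap f hf
  · rw [LinearMap.baseChange_eq_ltensor]
    exact LinearMap.lTensor_surjective S hg
  · rw [LinearMap.baseChange_eq_ltensor, LinearMap.baseChange_eq_ltensor]
    exact lTensor_exact S hfg hg

theorem chi_baseChange_congr (e : M₁ ≃ₗ[R] M₂) :
    G.chi (S ⊗[R] M₁) L = G.chi (S ⊗[R] M₂) L :=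
  G.chi_congr L (TensorProduct.AlgebraTensorModule.congr (LinearEquiv.refl S S) e)

theorem chi_baseChange_subsingleton [Subsingleton M₁] : G.chi (S ⊗[R] M₁) L = 0 := by
  have : Subsingleton (S ⊗[R] M₁) := by
    refine subsingleton_of_forall_eq 0 fun t => ?_
    induction t with
    | zero => rfl
    | add a b ha hb => rw [ha, hb, add_zero]
    | tmul s m => rw [Subsingleton.elim m 0, TensorProduct.tmul_zero]
  exact finsum_eq_zero_of_forall_eq_zero fun j => by
    have : Subsingleton ((G.diff (S ⊗[R] M₁) L).H ⊤ ⊥ j) :=
      (Submodule.Quotient.mk_surjective _).subsingleton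
    simp [Diff.betti, Module.finrank_zero_of_subsingleton]

end baseChange

section twist

variable (p n : ℕ) [Fact p.Prime] {L V W A : Type u} [Field L] [CommRing V] [CommRing W]
  [CommRing A] [ExpChar V p] [ExpChar W p] [Algebra V W] [Algebra V A] [Algebra L W]
  {ι : Type} [Fintype ι]

/-- On a base changed module the twisted complex counts the rank of the Frobenius of `W`. -/
theorem chi_twist_baseChange (b : Module.Basis ι W (Frob p n W)) (G : FreeCx (W ⊗[V] A))
    (M : Type u) [AddCommGroup M] [Module A M] (hfin : G.FiniteHom ((W ⊗[V] A) ⊗[A] M) L) :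
    (G.map (algebraMap (W ⊗[V] A) (Bq p n V W A))).chi
        (Bq p n V W A ⊗[Rq p n V A] (Rq p n V A ⊗[A] M)) L =
      (Fintype.card ι : ℤ) * G.chi ((W ⊗[V] A) ⊗[A] M) L := by
  classical
  let B := W ⊗[V] A
  let S := Bq p n V W A
  let e1 := TensorProduct.AlgebraTensorModule.cancelBaseChange A (Rq p n V A) S S M
  let e2 := TensorProduct.AlgebraTensorModule.cancelBaseChange A B S S M
  let b' : Module.Basis ι B S := Algebra.TensorProduct.basis B b
  let e3 : S ⊗[B] (B ⊗[A] M) ≃ₗ[B] (Fin (Fintype.card ι) → B ⊗[A] M) :=
    (TensorProduct.equivFinsuppOfBasisLeft (b'.reindex (Fintype.equivFin ι))).trans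
      (Finsupp.linearEquivFunOnFinite B (B ⊗[A] M) (Fin (Fintype.card ι)))
  have hc : (G.map (algebraMap B S)).chi (S ⊗[Rq p n V A] (Rq p n V A ⊗[A] M)) L =
      (G.map (algebraMap B S)).chi (S ⊗[B] (B ⊗[A] M)) L :=
    FreeCx.chi_congr (G := G.map (algebraMap B S)) (M := S ⊗[Rq p n V A] (Rq p n V A ⊗[A] M))
      (N := S ⊗[B] (B ⊗[A] M)) L (e1.trans e2.symm)
  rw [hc, G.chi_changeRing (algebraMap B S) (fun a x => algebraMap_smul S a x),
    G.chi_congr L e3, (G.chi_pi hfin _).2]

variable [ExpChar A p] [ExpChar (W ⊗[V] A) p]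

/-- The twist pulled back to `A` and base changed is the base change. -/
def twistPullEquiv : Bq p n V W A ⊗[Rq p n V A] Via (piA p n (V := V) (A := A)) A ≃+ W ⊗[V] A := by
  let B := W ⊗[V] A
  let S := Bq p n V W A
  let π := piA p n (V := V) (A := A)
  let jA : A →ₐ[V] B := Algebra.TensorProduct.includeRight
  let e : S ⊗[Rq p n V A] Via π A →+ B :=
    TensorProduct.liftAddHom
      { toFun := fun s =>
          { toFun := fun a => piB p n s * jA ((Via.of π).symm a)
            map_zero' := by simp
            map_add' := fun a a' => by simp [mul_add] }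
        map_zero' := by ext a; simp
        map_add' := fun s s' => by ext a; simp [add_mul] }
      (fun r s a => by
        show piB p n (omega p n (V := V) (W := W) (A := A) r * s) * jA ((Via.of π).symm a) =
          piB p n s * jA (π r * (Via.of π).symm a)
        rw [map_mul, piB_omega, map_mul]
        ring)
  let emb : W → S := fun w => (1 : B) ⊗ₜ[W] Frob.of p n w
  let ψ : B →+ S ⊗[Rq p n V A] Via π A :=
    TensorProduct.liftAddHom
      { toFun := fun w =>
          { toFun := fun a => emb w ⊗ₜ[Rq p n V A] Via.of π a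
            map_zero' := by simp
            map_add' := fun a a' => by rw [map_add, TensorProduct.tmul_add] }
        map_zero' := by ext a; simp [emb]
        map_add' := fun w w' => by
          ext a
          simp [emb, TensorProduct.tmul_add, TensorProduct.add_tmul] }
      (fun v w a => by
        show emb (v • w) ⊗ₜ[Rq p n V A] Via.of π a = emb w ⊗ₜ[Rq p n V A] Via.of π (v • a)
        have h1 : emb (v • w) = (Frob.of p n v ⊗ₜ[V] (1 : A) : Rq p n V A) • emb w := by
          rw [Algebra.smul_def (R := Rq p n V A), algebraMap_rqBq, omega_tmul]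
          show (1 : B) ⊗ₜ[W] Frob.of p n (v • w) =
            ((1 : B) ⊗ₜ[W] Frob.of p n (algebraMap V W v)) * ((1 : B) ⊗ₜ[W] Frob.of p n w)
          rw [Algebra.TensorProduct.tmul_mul_tmul, one_mul, ← map_mul, ← Algebra.smul_def]
        rw [h1]
        refine (TensorProduct.smul_tmul (R := Rq p n V A) (R' := Rq p n V A) _ (emb w)
          (Via.of π a)).trans ?_
        rw [Via.smul_of, piA_tmul, one_pow, mul_one, algebraMap_smul])
  refine
    { toFun := e
      invFun := ψ
      left_inv := fun x => ?_
      right_inv := fun x => ?_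
      map_add' := e.map_add }
  · induction x using TensorProduct.induction_on with
    | zero => simp
    | add x y hx hy => rw [map_add, map_add, hx, hy]
    | tmul s a =>
      induction s using TensorProduct.induction_on with
      | zero => simp
      | add s s' hs hs' => rw [TensorProduct.add_tmul, map_add, map_add, hs, hs']
      | tmul y w₀ =>
        obtain ⟨w₀, rfl⟩ := (Frob.of p n).surjective w₀
        obtain ⟨a, rfl⟩ := (Via.of π).surjective a
        induction y using TensorProduct.induction_on with
        | zero => simp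
        | add y y' hy hy' =>
          rw [TensorProduct.add_tmul, TensorProduct.add_tmul, map_add, map_add, hy, hy']
        | tmul w a₀ =>
          show ψ (piB p n ((w ⊗ₜ[V] a₀) ⊗ₜ[W] Frob.of p n w₀) * jA a) = _
          rw [piB_tmul, Algebra.TensorProduct.tmul_pow]
          have h2 : ((w ^ p ^ n) ⊗ₜ[V] (a₀ ^ p ^ n)) * algebraMap W B w₀ * jA a =
              (w ^ p ^ n * w₀) ⊗ₜ[V] (a₀ ^ p ^ n * a) := by
            show ((w ^ p ^ n) ⊗ₜ[V] (a₀ ^ p ^ n)) * (w₀ ⊗ₜ[V] (1 : A)) * ((1 : W) ⊗ₜ[V] a) = _
            simp [Algebra.TensorProduct.tmul_mul_tmul]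
          rw [h2]
          show emb (w ^ p ^ n * w₀) ⊗ₜ[Rq p n V A] Via.of π (a₀ ^ p ^ n * a) = _
          have h3 : ((w ⊗ₜ[V] a₀ : B) ⊗ₜ[W] Frob.of p n w₀ : S) =
              (Frob.of p n (1 : V) ⊗ₜ[V] a₀ : Rq p n V A) • emb (w ^ p ^ n * w₀) := by
            rw [Algebra.smul_def (R := Rq p n V A), algebraMap_rqBq, omega_tmul,
              Algebra.TensorProduct.tmul_mul_tmul, mul_one, ← map_mul, map_one, one_mul]
            have h4 : (w ⊗ₜ[V] a₀ : B) = w • ((1 : W) ⊗ₜ[V] a₀) := by
              rw [TensorProduct.smul_tmul', smul_eq_mul, mul_one]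
            rw [h4, TensorProduct.smul_tmul, Algebra.smul_def, Frob.algebraMap_def,
              Algebra.algebraMap_self, RingHom.id_apply, iterateFrobenius_def, ← map_mul]
          rw [h3]
          refine Eq.trans ?_ (TensorProduct.smul_tmul (R := Rq p n V A) (R' := Rq p n V A) _
            (emb (w ^ p ^ n * w₀)) (Via.of π a)).symm
          rw [Via.smul_of, piA_tmul, map_one, one_mul]
          rfl
  · induction x using TensorProduct.induction_on with
    | zero => simp
    | add x y hx hy => rw [map_add, map_add, hx, hy]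
    | tmul w a =>
      show piB p n ((1 : B) ⊗ₜ[W] Frob.of p n w) * jA ((Via.of π).symm (Via.of π a)) = _
      rw [piB_tmul, one_pow, one_mul, AddEquiv.symm_apply_apply]
      show (w ⊗ₜ[V] (1 : A)) * ((1 : W) ⊗ₜ[V] a) = _
      simp [Algebra.TensorProduct.tmul_mul_tmul]

theorem twistPullEquiv_smul (s : Bq p n V W A)
    (x : Bq p n V W A ⊗[Rq p n V A] Via (piA p n (V := V) (A := A)) A) :
    twistPullEquiv p n (s • x) = piB p n s * twistPullEquiv p n x := by
  induction x using TensorProduct.induction_on with
  | zero => simp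
  | add x y hx hy => rw [smul_add, map_add, map_add, hx, hy, mul_add]
  | tmul t a =>
    rw [TensorProduct.smul_tmul']
    show piB p n (s * t) * _ = piB p n s * (piB p n t * _)
    rw [map_mul, mul_assoc]

variable [CharP L p] [PerfectRing L p]

/-- The twisted complex on the twist pulled back to `A` is the Frobenius pullback. -/
theorem chi_twist_pull (G : FreeCx (W ⊗[V] A)) :
    (G.map (algebraMap (W ⊗[V] A) (Bq p n V W A))).chi
        (Bq p n V W A ⊗[Rq p n V A] Via (piA p n (V := V) (A := A)) A) L =
      (G.map (iterateFrobenius (W ⊗[V] A) p n)).chi (W ⊗[V] A) L := by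
  let B := W ⊗[V] A
  let S := Bq p n V W A
  let X := S ⊗[Rq p n V A] Via (piA p n (V := V) (A := A)) A
  let D : Diff L (G.ι → X) := (G.map (algebraMap B S)).diff X L
  let D' : Diff L (G.ι → B) := (G.map (iterateFrobenius B p n)).diff B L
  let φ : (G.ι → X) ≃+ (G.ι → B) := AddEquiv.piCongrRight fun _ => twistPullEquiv p n
  have hs : ∀ (c : L) x, φ (c • x) = iterateFrobeniusEquiv L p n c • φ x := fun c x => by
    funext g
    show twistPullEquiv p n (c • x g) = iterateFrobeniusEquiv L p n c • twistPullEquiv p n (x g)
    rw [← algebraMap_smul S c (x g), twistPullEquiv_smul,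
      IsScalarTower.algebraMap_apply L B S, piB_algebraMap, ← map_pow, ← Algebra.smul_def,
      iterateFrobeniusEquiv_def]
  have hd : ∀ x, φ (D.d x) = D'.d (φ x) := fun x => by
    funext h
    show twistPullEquiv p n (∑ g, algebraMap B S (G.mat h g) • x g) =
      ∑ g, iterateFrobenius B p n (G.mat h g) • twistPullEquiv p n (x g)
    rw [map_sum]
    refine Finset.sum_congr rfl fun g _ => ?_
    rw [twistPullEquiv_smul, piB_algebraMap, iterateFrobenius_def, smul_eq_mul]
  have hdeg : ∀ j x, φ x ∈ D'.deg j ↔ x ∈ D.deg j := fun j x => by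
    refine forall₂_congr fun g _ => ?_
    show twistPullEquiv p n (x g) = 0 ↔ x g = 0
    exact AddEquiv.map_eq_zero_iff _
  have h := fun j => Diff.semilinear_transport D D' (iterateFrobeniusEquiv L p n) φ hs hd hdeg j
  show D.chi ⊤ ⊥ = D'.chi ⊤ ⊥
  simp only [Diff.chi, (h _).2]

end twist

end Vale.Agent.P202.Imperfect
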