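import Mathlib

/-!
# P202 imperfect residue fields: Frobenius twists of a base change

For `V → W` and `V → A` in characteristic `p`, the base change of `B = W ⊗[V] A` along the
Frobenius of `W` receives the base change of `A` along the Frobenius of `V` and maps to `B`; the
composite with `B` is the Frobenius of `B`.
-/

noncomputable section

namespace Vale.Agent.P202.Imperfect

open TensorProduct

attribute [local instance] Algebra.TensorProduct.rightAlgebra

universe u

/-- A ring, as an algebra over itself through an iterate of Frobenius. -/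
def Frob (_p _n : ℕ) (S : Type u) : Type u := S

namespace Frob

variable (p n : ℕ) {S : Type u} [CommRing S]

instance : CommRing (Frob p n S) := ‹CommRing S›

/-- The identity map to the synonym. -/
def of : S ≃+* Frob p n S := RingEquiv.refl S

variable [ExpChar S p]

instance algebraFrob (V : Type u) [CommRing V] [Algebra V S] : Algebra V (Frob p n S) :=
  ((of p n).toRingHom.comp ((iterateFrobenius S p n).comp (algebraMap V S))).toAlgebra

theorem algebraMap_def (V : Type u) [CommRing V] [Algebra V S] (v : V) :
    algebraMap V (Frob p n S) v = of p n (iterateFrobenius S p n (algebraMap V S v)) := rfl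

instance tower (V : Type u) [CommRing V] [Algebra V S] (L : Type u) [CommRing L] [Algebra L V]
    [Algebra L S] [IsScalarTower L V S] : IsScalarTower L V (Frob p n S) :=
  IsScalarTower.of_algebraMap_eq fun c => by
    rw [algebraMap_def, algebraMap_def, IsScalarTower.algebraMap_apply L V S]

instance [IsNoetherianRing S] : IsNoetherianRing (Frob p n S) := ‹IsNoetherianRing S›

instance [IsDomain S] : IsDomain (Frob p n S) := ‹IsDomain S›

end Frob

section twist

variable (p n : ℕ) {V W A : Type u} [CommRing V] [CommRing W] [CommRing A]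
  [ExpChar V p] [ExpChar W p] [Algebra V W] [Algebra V A]

/-- A map of rings, between the synonyms. -/
instance algebraFrobFrob : Algebra (Frob p n V) (Frob p n W) :=
  (((Frob.of p n).toRingHom.comp (algebraMap V W)).comp (Frob.of p n).symm.toRingHom).toAlgebra

omit [ExpChar V p] [ExpChar W p] in
theorem algebraMap_frobFrob (v : V) :
    algebraMap (Frob p n V) (Frob p n W) (Frob.of p n v) = Frob.of p n (algebraMap V W v) := rfl

instance towerFrobFrob : IsScalarTower V (Frob p n V) (Frob p n W) :=
  IsScalarTower.of_algebraMap_eq fun v => by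
    rw [Frob.algebraMap_def, Frob.algebraMap_def, algebraMap_frobFrob, Algebra.algebraMap_self,
      RingHom.id_apply, iterateFrobenius_def, iterateFrobenius_def, map_pow (algebraMap V W)]

variable (V A) in
/-- The base change of `A` along the Frobenius of `V`. -/
abbrev Rq : Type u := Frob p n V ⊗[V] A

variable (V W A) in
/-- The base change of `W ⊗[V] A` along the Frobenius of `W`. -/
abbrev Bq : Type u := (W ⊗[V] A) ⊗[W] Frob p n W

/-- The map from the twist of `A` to the twist of the base change, on the first factor. -/
def twistLeft : Frob p n V →ₐ[V] Bq p n V W A :=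
  { (Algebra.TensorProduct.includeRight : Frob p n W →ₐ[W] Bq p n V W A).toRingHom.comp
      (algebraMap (Frob p n V) (Frob p n W)) with
    commutes' := fun v => by
      show (1 : W ⊗[V] A) ⊗ₜ[W] algebraMap (Frob p n V) (Frob p n W) (algebraMap V (Frob p n V) v) =
        _
      rw [← IsScalarTower.algebraMap_apply V (Frob p n V) (Frob p n W),
        IsScalarTower.algebraMap_apply V W (Frob p n W),
        IsScalarTower.algebraMap_apply V W (Bq p n V W A), Algebra.algebraMap_eq_smul_one,
        TensorProduct.tmul_smul]
      exact (Algebra.algebraMap_eq_smul_one _).symm }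

/-- The map from `A` to the twist of the base change. -/
def twistRight : A →ₐ[V] Bq p n V W A :=
  (Algebra.TensorProduct.includeLeft (R := W) (S := V) (A := W ⊗[V] A) (B := Frob p n W)).comp
    (Algebra.TensorProduct.includeRight : A →ₐ[V] W ⊗[V] A)

/-- The map from the twist of `A` to the twist of the base change. -/
def omega : Rq p n V A →ₐ[V] Bq p n V W A :=
  Algebra.TensorProduct.productMap (twistLeft p n (A := A)) (twistRight p n)

theorem omega_tmul (v : V) (a : A) :
    omega p n (V := V) (W := W) (A := A) (Frob.of p n v ⊗ₜ[V] a) =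
      (1 ⊗ₜ[V] a : W ⊗[V] A) ⊗ₜ[W] Frob.of p n (algebraMap V W v) := by
  rw [omega, Algebra.TensorProduct.productMap_apply_tmul]
  show ((1 : W ⊗[V] A) ⊗ₜ[W] Frob.of p n (algebraMap V W v)) *
    ((1 ⊗ₜ[V] a : W ⊗[V] A) ⊗ₜ[W] (1 : Frob p n W)) = _
  rw [Algebra.TensorProduct.tmul_mul_tmul, one_mul, mul_one]

instance algebraRqBq : Algebra (Rq p n V A) (Bq p n V W A) := (omega p n (V := V) (W := W) (A := A)).toRingHom.toAlgebra

theorem algebraMap_rqBq (x : Rq p n V A) :
    algebraMap (Rq p n V A) (Bq p n V W A) x = omega p n (V := V) (W := W) (A := A) x := rfl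

instance towerRqBq : IsScalarTower A (Rq p n V A) (Bq p n V W A) :=
  IsScalarTower.of_algebraMap_eq fun a => by
    rw [algebraMap_rqBq]
    show _ = omega p n (V := V) (W := W) (A := A) ((1 : Frob p n V) ⊗ₜ[V] a)
    rw [show (1 : Frob p n V) = Frob.of p n 1 from (map_one _).symm, omega_tmul, map_one, map_one]
    rfl

instance towerFrobRqBq : IsScalarTower V (Rq p n V A) (Bq p n V W A) :=
  IsScalarTower.of_algebraMap_eq fun v => by
    rw [algebraMap_rqBq]
    exact ((omega p n (W := W) (A := A)).commutes v).symm

/-- The twist of the base change, over the twist of `V`. -/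
instance algebraFrobBq : Algebra (Frob p n V) (Bq p n V W A) :=
  (twistLeft p n (V := V) (W := W) (A := A)).toRingHom.toAlgebra

instance towerFrobVRqBq : IsScalarTower (Frob p n V) (Rq p n V A) (Bq p n V W A) :=
  IsScalarTower.of_algebraMap_eq fun v => by
    obtain ⟨v, rfl⟩ := (Frob.of p n).surjective v
    rw [algebraMap_rqBq, Algebra.TensorProduct.algebraMap_apply, Algebra.algebraMap_self,
      RingHom.id_apply, omega_tmul]
    rfl

instance towerFrobWBq : IsScalarTower V (Frob p n W) (Bq p n V W A) :=
  IsScalarTower.of_algebraMap_eq fun v => by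
    rw [IsScalarTower.algebraMap_apply V W (Bq p n V W A),
      IsScalarTower.algebraMap_apply V W (Frob p n W), Algebra.algebraMap_eq_smul_one]
    show _ = (1 : W ⊗[V] A) ⊗ₜ[W] algebraMap W (Frob p n W) (algebraMap V W v)
    rw [Algebra.algebraMap_eq_smul_one (A := Frob p n W), TensorProduct.tmul_smul]
    rfl

instance towerFrobFrobBq : IsScalarTower (Frob p n V) (Frob p n W) (Bq p n V W A) :=
  IsScalarTower.of_algebraMap_eq fun _ => rfl

section pi

variable [ExpChar A p]

/-- The twist of `A` maps to `A`, on the first factor. -/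
def piALeft : Frob p n V →ₐ[V] Frob p n A :=
  { ((Frob.of p n).toRingHom.comp (algebraMap V A)).comp (Frob.of p n).symm.toRingHom with
    commutes' := fun v => by
      show Frob.of p n (algebraMap V A (iterateFrobenius V p n v)) = _
      rw [Frob.algebraMap_def, iterateFrobenius_def, iterateFrobenius_def, map_pow] }

/-- The twist of `A` maps to `A`, on the second factor. -/
def piARight : A →ₐ[V] Frob p n A :=
  { (Frob.of p n).toRingHom.comp (iterateFrobenius A p n) with commutes' := fun _ => rfl }

/-- The twist of `A` maps to `A`. -/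
def piA : Rq p n V A →+* A :=
  (Frob.of p n).symm.toRingHom.comp
    (Algebra.TensorProduct.productMap (piALeft p n (V := V) (A := A)) (piARight p n)).toRingHom

theorem piA_tmul (v : V) (a : A) :
    piA p n (Frob.of p n v ⊗ₜ[V] a) = algebraMap V A v * a ^ p ^ n := by
  rw [← iterateFrobenius_def]
  exact congrArg (Frob.of p n).symm
    (Algebra.TensorProduct.productMap_apply_tmul (piALeft p n) (piARight p n) _ _)

/-- `q`-th powers in the twist of `A` come from `A`. -/
theorem pow_eq_tmul_piA [ExpChar (Rq p n V A) p] (x : Rq p n V A) :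
    x ^ p ^ n = (1 : Frob p n V) ⊗ₜ[V] piA p n x := by
  induction x using TensorProduct.induction_on with
  | zero => rw [map_zero, TensorProduct.tmul_zero, zero_pow (pow_pos (expChar_pos V p) n).ne']
  | tmul v a =>
    obtain ⟨v, rfl⟩ := (Frob.of p n).surjective v
    rw [piA_tmul, Algebra.TensorProduct.tmul_pow, ← Algebra.smul_def, TensorProduct.tmul_smul,
      TensorProduct.smul_tmul', Algebra.smul_def, mul_one, Frob.algebraMap_def,
      iterateFrobenius_def, Algebra.algebraMap_self, RingHom.id_apply, map_pow]
  | add x y hx hy =>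
    rw [map_add, TensorProduct.tmul_add, ← hx, ← hy, add_pow_expChar_pow]

variable [ExpChar (W ⊗[V] A) p]

/-- The twist of the base change maps to the base change, on the first factor. -/
def piBLeft : W ⊗[V] A →ₐ[W] Frob p n (W ⊗[V] A) :=
  { (Frob.of p n).toRingHom.comp (iterateFrobenius (W ⊗[V] A) p n) with commutes' := fun _ => rfl }

/-- The twist of the base change maps to the base change, on the second factor. -/
def piBRight : Frob p n W →ₐ[W] Frob p n (W ⊗[V] A) :=
  { ((Frob.of p n).toRingHom.comp (algebraMap W (W ⊗[V] A))).comp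
      (Frob.of p n).symm.toRingHom with
    commutes' := fun w => by
      show Frob.of p n (algebraMap W (W ⊗[V] A) (iterateFrobenius W p n w)) = _
      rw [Frob.algebraMap_def, iterateFrobenius_def, iterateFrobenius_def, map_pow] }

/-- The twist of the base change maps to the base change. -/
def piB : Bq p n V W A →+* W ⊗[V] A :=
  (Frob.of p n).symm.toRingHom.comp
    (Algebra.TensorProduct.productMap (piBLeft p n (V := V) (W := W) (A := A))
      (piBRight p n)).toRingHom

omit [ExpChar V p] [ExpChar A p] in
theorem piB_tmul (b : W ⊗[V] A) (w : W) :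
    piB p n (b ⊗ₜ[W] Frob.of p n w) = b ^ p ^ n * algebraMap W (W ⊗[V] A) w := by
  rw [← iterateFrobenius_def]
  exact congrArg (Frob.of p n).symm
    (Algebra.TensorProduct.productMap_apply_tmul (piBLeft p n) (piBRight p n) _ _)

omit [ExpChar V p] [ExpChar A p] in
theorem piB_algebraMap (b : W ⊗[V] A) :
    piB p n (algebraMap (W ⊗[V] A) (Bq p n V W A) b) = b ^ p ^ n := by
  show piB p n (b ⊗ₜ[W] (1 : Frob p n W)) = _
  rw [show (1 : Frob p n W) = Frob.of p n 1 from (map_one _).symm, piB_tmul, map_one, mul_one]

theorem piB_omega (x : Rq p n V A) :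
    piB p n (omega p n (W := W) x) =
      (Algebra.TensorProduct.includeRight : A →ₐ[V] W ⊗[V] A) (piA p n x) := by
  induction x using TensorProduct.induction_on with
  | zero => simp
  | tmul v a =>
    obtain ⟨v, rfl⟩ := (Frob.of p n).surjective v
    rw [omega_tmul, piB_tmul, piA_tmul, map_mul, map_pow, AlgHom.commutes,
      ← IsScalarTower.algebraMap_apply V W (W ⊗[V] A), mul_comm]
    rfl
  | add x y hx hy => simp only [map_add, hx, hy]

omit [ExpChar V p] [ExpChar A p] in
/-- `q`-th powers in the twist of the base change come from the base change. -/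
theorem pow_eq_algebraMap_piB [ExpChar (Bq p n V W A) p] (x : Bq p n V W A) :
    x ^ p ^ n = algebraMap (W ⊗[V] A) (Bq p n V W A) (piB p n x) := by
  induction x using TensorProduct.induction_on with
  | zero => rw [map_zero, map_zero, zero_pow (pow_pos (expChar_pos W p) n).ne']
  | tmul b w =>
    obtain ⟨w, rfl⟩ := (Frob.of p n).surjective w
    show _ = piB p n (b ⊗ₜ[W] Frob.of p n w) ⊗ₜ[W] (1 : Frob p n W)
    rw [piB_tmul, Algebra.TensorProduct.tmul_pow, mul_comm, ← Algebra.smul_def,
      TensorProduct.smul_tmul, Algebra.smul_def, mul_one, Frob.algebraMap_def,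
      iterateFrobenius_def, Algebra.algebraMap_self, RingHom.id_apply, map_pow]
  | add x y hx hy => rw [map_add, map_add, add_pow_expChar_pow, hx, hy]

omit [ExpChar V p] [ExpChar A p] in
/-- The twist of a local base change is local. -/
theorem isLocalRing_bq [IsLocalRing (W ⊗[V] A)] [ExpChar (Bq p n V W A) p] :
    IsLocalRing (Bq p n V W A) := by
  have hn : p ^ n ≠ 0 := (pow_pos (expChar_pos W p) n).ne'
  have key : ∀ x : Bq p n V W A, IsUnit (piB p n x) → IsUnit x := fun x h => by
    rw [← isUnit_pow_iff hn, pow_eq_algebraMap_piB]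
    exact h.map _
  have : Nontrivial (Bq p n V W A) := (piB p n (V := V) (W := W) (A := A)).domain_nontrivial
  refine ⟨fun {a b} hab => ?_⟩
  have h := congrArg (piB p n) hab
  rw [map_add, map_one] at h
  exact (IsLocalRing.isUnit_or_isUnit_of_add_one h).imp (key a) (key b)

end pi

section flat

/-- The twist of the base change is flat over the twist of `A`. -/
theorem flat_bq [Module.Flat V W] : Module.Flat (Rq p n V A) (Bq p n V W A) := by
  have h1 : Algebra.IsPushout V A W (W ⊗[V] A) := inferInstance
  have h2 : Algebra.IsPushout W (W ⊗[V] A) (Frob p n W) (Bq p n V W A) := inferInstance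
  have h3 : Algebra.IsPushout V (Frob p n W) A (Bq p n V W A) :=
    (Algebra.IsPushout.comp_iff V W A (W ⊗[V] A) (T := Frob p n W) (T' := Bq p n V W A)).2 h2.symm
  have h4 : Algebra.IsPushout V A (Frob p n V) (Rq p n V A) := inferInstance
  have h5 : Algebra.IsPushout (Frob p n V) (Rq p n V A) (Frob p n W) (Bq p n V W A) :=
    ((Algebra.IsPushout.comp_iff V (Frob p n V) A (Rq p n V A) (T := Frob p n W)
      (T' := Bq p n V W A)).1 h3).symm
  have : Module.Flat (Frob p n V) (Frob p n W) := by
    show RingHom.Flat (algebraMap (Frob p n V) (Frob p n W))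
    exact ((RingHom.Flat.of_bijective (f := (Frob.of p n (S := V)).symm.toRingHom)
      (Frob.of p n (S := V)).symm.bijective).comp
      (RingHom.flat_algebraMap_iff.2 ‹Module.Flat V W›)).comp
      (RingHom.Flat.of_bijective (f := (Frob.of p n (S := W)).toRingHom)
      (Frob.of p n (S := W)).bijective)
  exact Module.Flat.isBaseChange (Frob p n V) (Rq p n V A) (Frob p n W) (Bq p n V W A) h5.out

end flat

end twist

end Vale.Agent.P202.Imperfect
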